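import Vale.Agent.Lib.P101.PrimeRep

set_option linter.unusedSimpArgs false
set_option linter.unusedVariables false
set_option linter.unusedSectionVars false
set_option linter.style.haveILetI false

open scoped ComplexOrder CStarAlgebra InnerProductSpace

namespace Vale.Agent.Lib.P101

universe u

lemma complex_eq_of_re {w : ℂ} {r : ℝ} (h1 : ‖w‖ ≤ r) (h2 : r ≤ w.re) : w = r := by
  have hr : 0 ≤ r := (norm_nonneg w).trans h1
  have hs : ‖w‖ ^ 2 = w.re * w.re + w.im * w.im := by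
    rw [Complex.sq_norm, Complex.normSq_apply]
  have h3 : ‖w‖ ^ 2 ≤ r ^ 2 := by gcongr
  have h4 : r * r ≤ w.re * w.re := by nlinarith
  have h5 : w.im * w.im ≤ 0 := by nlinarith
  have h6 : w.im = 0 := by nlinarith [mul_self_nonneg w.im]
  have h7 : w.re = r := by
    have : w.re * w.re ≤ r * r := by nlinarith
    nlinarith
  apply Complex.ext <;> simp [h6, h7]

lemma complex_nonneg_eq {w : ℂ} (h : 0 ≤ w) : w = (w.re : ℂ) := by
  rw [Complex.le_def] at h
  apply Complex.ext <;> simp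
  exact h.2.symm

section

variable {D : Type u} [CStarAlgebra D] [PartialOrder D] [StarOrderedRing D]

/-- A state, given as a linear functional. -/
structure IsSt (ψ : D →ₗ[ℂ] ℂ) : Prop where
  one : ψ 1 = 1
  pos : ∀ a, 0 ≤ a → 0 ≤ ψ a

lemma IsSt.real_smul_one {ψ : D →ₗ[ℂ] ℂ} (h : IsSt ψ) (r : ℝ) : ψ (r • (1 : D)) = r := by
  rw [← Complex.coe_smul, map_smul, h.one, smul_eq_mul, mul_one]

lemma IsSt.le_norm_sq {ψ : D →ₗ[ℂ] ℂ} (h : IsSt ψ) (a : D) : (ψ (star a * a)).re ≤ ‖a‖ ^ 2 := by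
  have h1 : star a * a ≤ algebraMap ℝ D (‖a‖ ^ 2) := CStarAlgebra.star_mul_le_algebraMap_norm_sq
  have h2 := h.pos _ (sub_nonneg.mpr h1)
  rw [map_sub, Algebra.algebraMap_eq_smul_one, h.real_smul_one] at h2
  have h3 := (Complex.le_def.mp h2).1
  simp only [Complex.zero_re, Complex.sub_re] at h3
  have h4 : (((‖a‖ ^ 2 : ℝ)) : ℂ).re = ‖a‖ ^ 2 := Complex.ofReal_re _
  rw [h4] at h3
  linarith

lemma IsSt.norm_le {ψ : D →ₗ[ℂ] ℂ} (h : IsSt ψ) (a : D) : ‖ψ a‖ ≤ ‖a‖ := by
  let P : D →ₚ[ℂ] ℂ := PositiveLinearMap.mk₀ ψ h.pos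
  have hP : ∀ x, P x = ψ x := fun x => rfl
  have h1 : ⟪P.toPreGNS 1, P.toPreGNS a⟫_ℂ = ψ a := by
    rw [P.preGNS_inner_def]
    simp [hP]
  have h2 := norm_inner_le_norm (𝕜 := ℂ) (P.toPreGNS 1) (P.toPreGNS a)
  rw [h1] at h2
  have hn : ∀ b : D, ‖P.toPreGNS b‖ ^ 2 = (ψ (star b * b)).re := by
    intro b
    have h3 := P.preGNS_norm_sq (P.toPreGNS b)
    have h4 : ((‖P.toPreGNS b‖ ^ 2 : ℝ) : ℂ) = ψ (star b * b) := by
      push_cast
      exact h3
    rw [← h4, Complex.ofReal_re]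
  have h5 : ‖P.toPreGNS 1‖ ^ 2 = 1 := by
    rw [hn]
    simp [h.one]
  have h6 : ‖P.toPreGNS 1‖ = 1 := by
    have := norm_nonneg (P.toPreGNS 1)
    nlinarith
  rw [h6, one_mul] at h2
  refine h2.trans ?_
  have h7 : ‖P.toPreGNS a‖ ^ 2 ≤ ‖a‖ ^ 2 := by
    rw [hn]
    exact h.le_norm_sq a
  exact (sq_le_sq₀ (norm_nonneg _) (norm_nonneg _)).mp h7

/-- Existence of a state attaining the norm of a positive element. -/
lemma exists_state_norm [Nontrivial D] (b : D) (hb : 0 ≤ b) :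
    ∃ f : StrongDual ℂ D, ‖f‖ ≤ 1 ∧ f 1 = 1 ∧ f b = ‖b‖ := by
  set r := ‖b‖ with hr
  have hr0 : 0 ≤ r := norm_nonneg _
  set c : D := b + (r + 1) • (1 : D) with hc
  have hc0 : 0 ≤ c := add_nonneg hb (smul_nonneg (by linarith) zero_le_one)
  obtain ⟨g, hg1, hg2⟩ := exists_dual_vector'' ℂ c
  have hle : 2 * r + 1 ≤ ‖c‖ := by
    have hsa : IsSelfAdjoint c := hc0.isSelfAdjoint
    have h1 := hsa.le_algebraMap_norm_self
    have h2 : (r + 1) ≤ ‖c‖ := by
      have h3 : (r + 1) • (1 : D) ≤ c := by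
        rw [hc]
        exact le_add_of_nonneg_left hb
      have h4 := CStarAlgebra.norm_le_norm_of_nonneg_of_le
        (smul_nonneg (by linarith : 0 ≤ r + 1) (zero_le_one (α := D))) h3
      rw [norm_smul, CStarRing.norm_one, mul_one, Real.norm_eq_abs, abs_of_nonneg (by linarith)] at h4
      exact h4
    have h5 : b ≤ algebraMap ℝ D (‖c‖ - (r + 1)) := by
      rw [map_sub, Algebra.algebraMap_eq_smul_one (r + 1)]
      rw [le_sub_iff_add_le]
      exact h1
    have h6 := (CStarAlgebra.norm_le_iff_le_algebraMap b (by linarith) hb).mpr h5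
    linarith
  have hnb : ‖g b‖ ≤ r := by
    calc ‖g b‖ ≤ ‖g‖ * ‖b‖ := g.le_opNorm b
      _ ≤ 1 * r := by gcongr
      _ = r := one_mul r
  have hn1 : ‖g 1‖ ≤ 1 := by
    calc ‖g 1‖ ≤ ‖g‖ * ‖(1 : D)‖ := g.le_opNorm 1
      _ ≤ 1 * 1 := by
        rw [CStarRing.norm_one]
        gcongr
      _ = 1 := one_mul 1
  have hgc : g b + ((r : ℂ) + 1) * g 1 = ‖c‖ := by
    have hg2' : g c = ((‖c‖ : ℝ) : ℂ) := hg2
    rw [← hg2', hc, map_add, ← Complex.coe_smul, map_smul, smul_eq_mul]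
    simp
  have hre := congrArg Complex.re hgc
  simp only [Complex.add_re, Complex.mul_re, Complex.add_im, Complex.ofReal_re, Complex.ofReal_im,
    Complex.one_re, Complex.one_im, add_zero, zero_mul, sub_zero] at hre
  have h1 : (g b).re ≤ r := (Complex.re_le_norm _).trans hnb
  have h2 : (g 1).re ≤ 1 := (Complex.re_le_norm _).trans hn1
  have h3 : 1 ≤ (g 1).re := by nlinarith
  have h4 : r ≤ (g b).re := by nlinarith
  refine ⟨g, hg1, ?_, ?_⟩
  · have := complex_eq_of_re hn1 h3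
    simpa using this
  · exact complex_eq_of_re hnb h4

/-- The state attaining the norm of `b` and maximizing the real part of its value at `g`. -/
lemma exists_max_state [Nontrivial D] (b g : D) (hb : 0 ≤ b) :
    ∃ φ : D →ₗ[ℂ] ℂ, IsSt φ ∧ φ b = ‖b‖ ∧
      ∀ ψ : D →ₗ[ℂ] ℂ, IsSt ψ → ψ b = ‖b‖ → (ψ g).re ≤ (φ g).re := by
  let S : Set (WeakDual ℂ D) :=
    (WeakDual.toStrongDual ⁻¹' Metric.closedBall (0 : StrongDual ℂ D) 1) ∩
      ({φ | φ 1 = 1} ∩ {φ | φ b = ‖b‖})
  have hcomp : IsCompact S := by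
    refine (WeakDual.isCompact_closedBall (𝕜 := ℂ) (0 : StrongDual ℂ D) 1).inter_right (IsClosed.inter ?_ ?_)
    · exact isClosed_eq (WeakDual.eval_continuous 1) continuous_const
    · exact isClosed_eq (WeakDual.eval_continuous b) continuous_const
  have hne : S.Nonempty := by
    obtain ⟨f, h1, h2, h3⟩ := exists_state_norm b hb
    refine ⟨StrongDual.toWeakDual f, ?_, h2, h3⟩
    simpa using h1
  have hcont : ContinuousOn (fun φ : WeakDual ℂ D => (φ g).re) S :=
    (Complex.continuous_re.comp (WeakDual.eval_continuous g)).continuousOn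
  obtain ⟨φ₀, hφ₀, hmax⟩ := hcomp.exists_isMaxOn hne hcont
  let f₀ : StrongDual ℂ D := WeakDual.toStrongDual φ₀
  have hf₀ : ‖f₀‖ ≤ 1 := by
    have := hφ₀.1
    simpa using this
  have hst : IsSt (f₀ : D →ₗ[ℂ] ℂ) := by
    have h1 : (f₀ : D →ₗ[ℂ] ℂ) 1 = 1 := hφ₀.2.1
    have hn : ∀ x, ‖(f₀ : D →ₗ[ℂ] ℂ) x‖ ≤ ‖x‖ := by
      intro x
      calc ‖f₀ x‖ ≤ ‖f₀‖ * ‖x‖ := f₀.le_opNorm x
        _ ≤ 1 * ‖x‖ := by gcongr
        _ = ‖x‖ := one_mul _
    exact ⟨h1, fun a ha => nonneg_of_norm_le _ h1 hn ha⟩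
  refine ⟨f₀, hst, hφ₀.2.2, fun ψ hψ hψb => ?_⟩
  let f : StrongDual ℂ D := ψ.mkContinuous 1 (fun x => by rw [one_mul]; exact hψ.norm_le x)
  have hfmem : StrongDual.toWeakDual f ∈ S := by
    refine ⟨?_, hψ.one, hψb⟩
    have : ‖f‖ ≤ 1 := LinearMap.mkContinuous_norm_le _ zero_le_one _
    simpa using this
  exact hmax hfmem

lemma central_pos {φ : D →ₗ[ℂ] ℂ} (hφ : IsSt φ) {f a : D} (hf : 0 ≤ f) (hc : ∀ w, f * w = w * f)
    (ha : 0 ≤ a) : 0 ≤ φ (f * a) := by
  obtain ⟨w, rfl⟩ := CStarAlgebra.nonneg_iff_eq_star_mul_self.mp ha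
  have : f * (star w * w) = star w * f * w := by
    rw [← mul_assoc, hc]
  rw [this]
  exact hφ.pos _ (star_left_conjugate_nonneg hf w)

/-- The state attached to a central positive element. -/
lemma isSt_central {φ : D →ₗ[ℂ] ℂ} (hφ : IsSt φ) {f : D} {α : ℝ} (hα : 0 < α) (hf : 0 ≤ f)
    (hc : ∀ w, f * w = w * f) (h1 : φ f = α) :
    IsSt (((α⁻¹ : ℝ) : ℂ) • (φ ∘ₗ LinearMap.mulLeft ℂ f)) := by
  refine ⟨?_, fun a ha => ?_⟩
  · simp only [LinearMap.smul_apply, LinearMap.comp_apply, LinearMap.mulLeft_apply, mul_one, h1,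
      smul_eq_mul]
    rw [← Complex.ofReal_mul, inv_mul_cancel₀ hα.ne', Complex.ofReal_one]
  · simp only [LinearMap.smul_apply, LinearMap.comp_apply, LinearMap.mulLeft_apply, smul_eq_mul]
    refine mul_nonneg ?_ (central_pos hφ hf hc ha)
    exact_mod_cast (inv_pos.mpr hα).le

/-- For the maximizing state, the value at the square is the square of the value. -/
lemma state_sq_eq {φ : D →ₗ[ℂ] ℂ} (hφ : IsSt φ) {g b : D} (hb : 0 ≤ b) (hc : ∀ w, g * w = w * g)
    {δ : ℝ} (hδ : 0 < δ) (h1 : δ • (1 : D) ≤ g) (h2 : δ • (1 : D) ≤ 1 - g) (hr : φ b = ‖b‖)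
    (hmax : ∀ ψ : D →ₗ[ℂ] ℂ, IsSt ψ → ψ b = ‖b‖ → (ψ g).re ≤ (φ g).re) :
    ∃ α : ℝ, φ g = α ∧ φ (g * g) = α * α := by
  have hg0 : 0 ≤ g := (smul_nonneg hδ.le zero_le_one).trans h1
  have hg1 : 0 ≤ 1 - g := (smul_nonneg hδ.le zero_le_one).trans h2
  have hc' : ∀ w, (1 - g) * w = w * (1 - g) := by
    intro w
    rw [sub_mul, mul_sub, one_mul, mul_one, hc]
  have h3 := hφ.pos _ (sub_nonneg.mpr h1)
  have h4 := hφ.pos _ (sub_nonneg.mpr h2)
  rw [map_sub, hφ.real_smul_one] at h3 h4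
  have hgr := complex_nonneg_eq (hφ.pos _ hg0)
  set α := (φ g).re with hα
  have h1g : φ (1 - g) = ((1 - α : ℝ) : ℂ) := by
    rw [map_sub, hφ.one, hgr]
    push_cast
    ring
  have hαδ : δ ≤ α := by
    rw [hgr] at h3
    have := (Complex.le_def.mp h3).1
    simpa using this
  have hβδ : δ ≤ 1 - α := by
    rw [h1g] at h4
    have := (Complex.le_def.mp h4).1
    simpa using this
  have hα0 : 0 < α := lt_of_lt_of_le hδ hαδ
  have hβ0 : 0 < 1 - α := lt_of_lt_of_le hδ hβδ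
  have st1 := isSt_central hφ hα0 hg0 hc hgr
  have st2 := isSt_central hφ hβ0 hg1 hc' h1g
  set ψ₁ := ((α⁻¹ : ℝ) : ℂ) • (φ ∘ₗ LinearMap.mulLeft ℂ g) with hψ₁
  set ψ₂ := (((1 - α)⁻¹ : ℝ) : ℂ) • (φ ∘ₗ LinearMap.mulLeft ℂ (1 - g)) with hψ₂
  have e1 : ∀ a, φ (g * a) = (α : ℂ) * ψ₁ a := by
    intro a
    simp only [hψ₁, LinearMap.smul_apply, LinearMap.comp_apply, LinearMap.mulLeft_apply, smul_eq_mul]
    rw [← mul_assoc, ← Complex.ofReal_mul, mul_inv_cancel₀ hα0.ne', Complex.ofReal_one, one_mul]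
  have e2 : ∀ a, φ ((1 - g) * a) = ((1 - α : ℝ) : ℂ) * ψ₂ a := by
    intro a
    simp only [hψ₂, LinearMap.smul_apply, LinearMap.comp_apply, LinearMap.mulLeft_apply, smul_eq_mul]
    rw [← mul_assoc, ← Complex.ofReal_mul, mul_inv_cancel₀ hβ0.ne', Complex.ofReal_one, one_mul]
  have e3 : ∀ a, φ a = (α : ℂ) * ψ₁ a + ((1 - α : ℝ) : ℂ) * ψ₂ a := by
    intro a
    rw [← e1, ← e2, ← map_add, ← add_mul]
    simp
  -- the values at `b`
  have hb1 : ψ₁ b = ‖b‖ := by
    have h5 := e3 b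
    rw [hr] at h5
    have h6 := congrArg Complex.re h5
    simp only [Complex.ofReal_re, Complex.add_re, Complex.mul_re, Complex.ofReal_im, zero_mul,
      sub_zero] at h6
    have h7 : (ψ₁ b).re ≤ ‖b‖ := (Complex.re_le_norm _).trans (st1.norm_le b)
    have h8 : (ψ₂ b).re ≤ ‖b‖ := (Complex.re_le_norm _).trans (st2.norm_le b)
    refine complex_eq_of_re (st1.norm_le b) ?_
    nlinarith
  have hb2 : ψ₂ b = ‖b‖ := by
    have h5 := e3 b
    rw [hr] at h5
    have h6 := congrArg Complex.re h5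
    simp only [Complex.ofReal_re, Complex.add_re, Complex.mul_re, Complex.ofReal_im, zero_mul,
      sub_zero] at h6
    have h7 : (ψ₁ b).re ≤ ‖b‖ := (Complex.re_le_norm _).trans (st1.norm_le b)
    have h8 : (ψ₂ b).re ≤ ‖b‖ := (Complex.re_le_norm _).trans (st2.norm_le b)
    refine complex_eq_of_re (st2.norm_le b) ?_
    nlinarith
  -- the values at `g`
  have hm1 := hmax ψ₁ st1 hb1
  have hm2 := hmax ψ₂ st2 hb2
  have h5 := congrArg Complex.re (e3 g)
  simp only [Complex.ofReal_re, Complex.add_re, Complex.mul_re, Complex.ofReal_im, zero_mul,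
    sub_zero, ← hα] at h5
  have hxx : (ψ₁ g).re = α := by nlinarith
  refine ⟨α, hgr, ?_⟩
  have hgg : 0 ≤ φ (g * g) := central_pos hφ hg0 hc hg0
  rw [complex_nonneg_eq hgg]
  have h6 := congrArg Complex.re (e1 g)
  simp only [Complex.mul_re, Complex.ofReal_re, Complex.ofReal_im, zero_mul, sub_zero, hxx] at h6
  rw [h6]
  push_cast
  rfl

/-- The representation of a state that is multiplicative at a central self-adjoint element. -/
lemma rep_of_state {φ : D →ₗ[ℂ] ℂ} (hφ : IsSt φ) {g : D} (hc : ∀ w, g * w = w * g)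
    (hsa : star g = g) {α : ℝ} (h1 : φ g = α) (h2 : φ (g * g) = α * α) (y : D)
    (hy : φ (star y * y) = ((‖y‖ ^ 2 : ℝ) : ℂ)) :
    ∃ (Q : Type u) (_ : CStarAlgebra Q) (π : D →⋆ₐ[ℂ] Q), Nontrivial Q ∧ π g = α • (1 : Q) ∧
      ‖y‖ ≤ ‖π y‖ := by
  let P : D →ₚ[ℂ] ℂ := PositiveLinearMap.mk₀ φ hφ.pos
  let π := P.gnsStarAlgHom
  let vec : D → P.GNS := fun b => ((P.toPreGNS b : P.PreGNS) : P.GNS)
  have hπ : ∀ (x b : D), π x (vec b) = vec (x * b) := by
    intro x b
    exact (P.gnsNonUnitalStarAlgHom_apply_coe (a := x) (b := P.toPreGNS b))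
  have hnorm : ∀ b : D, ‖vec b‖ ^ 2 = (φ (star b * b)).re := by
    intro b
    have h1 : ‖vec b‖ = ‖(P.toPreGNS b : P.PreGNS)‖ := UniformSpace.Completion.norm_coe _
    rw [h1]
    have h2 := P.preGNS_norm_sq (P.toPreGNS b)
    have h3 : ((‖(P.toPreGNS b : P.PreGNS)‖ ^ 2 : ℝ) : ℂ) = φ (star b * b) := by
      push_cast
      exact h2
    rw [← h3, Complex.ofReal_re]
  -- the central element acts as a scalar
  set h : D := g - α • (1 : D) with hh
  have hhc : ∀ w, h * w = w * h := by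
    intro w
    rw [hh, sub_mul, mul_sub, hc, smul_mul_assoc, mul_smul_comm, one_mul, mul_one]
  have hhsa : star h = h := by
    rw [hh, star_sub, hsa, star_smul, star_one, star_trivial]
  have hh0 : φ (h * h) = 0 := by
    have e : h * h = g * g - (2 * α) • g + (α * α) • (1 : D) := by
      rw [hh, sub_mul, mul_sub, mul_sub, smul_mul_assoc, mul_smul_comm, smul_mul_smul_comm,
        one_mul, mul_one, mul_one, two_mul, add_smul]
      abel
    rw [e, map_add, map_sub, h2, ← Complex.coe_smul, map_smul, h1, hφ.real_smul_one]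
    simp only [smul_eq_mul]
    push_cast
    ring
  have hkill : π h = 0 := by
    ext v
    induction v using UniformSpace.Completion.induction_on with
    | hp => exact isClosed_eq (by fun_prop) (by fun_prop)
    | ih b =>
      change π h (vec (P.ofPreGNS b)) = _
      rw [hπ]
      simp only [zero_apply]
      have hle : ‖vec (h * P.ofPreGNS b)‖ ^ 2 ≤ 0 := by
        rw [hnorm]
        set a : D := P.ofPreGNS b with ha
        have e : star (h * a) * (h * a) = star h * (star a * a) * h := by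
          calc star (h * a) * (h * a) = (star a * h) * (h * a) := by rw [star_mul, hhsa]
            _ = (h * star a) * (a * h) := by rw [hhc a, hhc (star a)]
            _ = star h * (star a * a) * h := by rw [hhsa]; noncomm_ring
        rw [e]
        have hle' : star h * (star a * a) * h ≤ star h * (algebraMap ℝ D (‖a‖ ^ 2)) * h :=
          star_left_conjugate_le_conjugate CStarAlgebra.star_mul_le_algebraMap_norm_sq h
        have h3 := hφ.pos _ (sub_nonneg.mpr hle')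
        have e2 : star h * (algebraMap ℝ D (‖a‖ ^ 2)) * h = (‖a‖ ^ 2) • (h * h) := by
          rw [Algebra.algebraMap_eq_smul_one, hhsa, mul_smul_comm, smul_mul_assoc, mul_one]
        rw [e2, map_sub, ← Complex.coe_smul, map_smul, hh0, smul_zero, zero_sub] at h3
        have h4 := (Complex.le_def.mp h3).1
        simp only [Complex.zero_re, Complex.neg_re] at h4
        linarith
      have h0 : ‖vec (h * P.ofPreGNS b)‖ = 0 := by
        have := norm_nonneg (vec (h * P.ofPreGNS b))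
        nlinarith
      exact norm_eq_zero.mp h0
  have hone : ‖vec 1‖ = 1 := by
    have := hnorm 1
    rw [star_one, one_mul, hφ.one, Complex.one_re] at this
    have h0 := norm_nonneg (vec 1)
    nlinarith
  have hnt : Nontrivial (P.GNS →L[ℂ] P.GNS) := by
    refine ⟨⟨1, 0, fun h => ?_⟩⟩
    have h2 : (0 : P.GNS) = vec 1 := by
      have := congrArg (fun T : P.GNS →L[ℂ] P.GNS => T (vec 1)) h
      simpa using this.symm
    rw [← h2, norm_zero] at hone
    exact zero_ne_one hone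
  refine ⟨P.GNS →L[ℂ] P.GNS, inferInstance, π, hnt, ?_, ?_⟩
  · have : π h = π g - α • (1 : P.GNS →L[ℂ] P.GNS) := by
      rw [hh, map_sub, ← Complex.coe_smul, map_smul, map_one, Complex.coe_smul]
    rw [this] at hkill
    exact sub_eq_zero.mp hkill
  · have h3 : π y (vec 1) = vec y := by
      rw [hπ, mul_one]
    have h4 : ‖vec y‖ = ‖y‖ := by
      have := hnorm y
      rw [hy, Complex.ofReal_re] at this
      exact (sq_eq_sq₀ (norm_nonneg _) (norm_nonneg _)).mp this
    rw [← h4, ← h3]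
    have := (π y).le_opNorm (vec 1)
    rw [hone, mul_one] at this
    exact this

end

/-- Scalar representations detect norms: for a central self-adjoint element `z` and an element `y`
of a nontrivial unital C*-algebra there is a representation that makes `z` a scalar and is
isometric at `y`. -/
theorem exists_scalar_rep {D : Type u} [CStarAlgebra D] [Nontrivial D] (z : D) (hsa : star z = z)
    (hc : ∀ w, z * w = w * z) (y : D) :
    ∃ (Q : Type u) (_ : CStarAlgebra Q) (π : D →⋆ₐ[ℂ] Q) (x : ℝ), Nontrivial Q ∧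
      π z = x • (1 : Q) ∧ ‖y‖ ≤ ‖π y‖ := by
  letI : PartialOrder D := CStarAlgebra.spectralOrder D
  haveI : StarOrderedRing D := CStarAlgebra.spectralOrderedRing D
  have hb : 0 ≤ star y * y := star_mul_self_nonneg y
  set C₀ : ℝ := ‖z‖ + 1 with hC₀
  have hC₀0 : 0 < C₀ := by positivity
  set δ : ℝ := (2 * C₀)⁻¹ with hδ
  have hδ0 : 0 < δ := by positivity
  set g : D := δ • (z + C₀ • (1 : D)) with hg
  have hzsa : IsSelfAdjoint z := hsa
  have h1 : δ • (1 : D) ≤ g := by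
    rw [← sub_nonneg]
    have e : g - δ • (1 : D) = δ • (z + algebraMap ℝ D ‖z‖) := by
      rw [hg, Algebra.algebraMap_eq_smul_one, hC₀, add_smul, one_smul]
      module
    rw [e]
    refine smul_nonneg hδ0.le ?_
    have := hzsa.neg_algebraMap_norm_le_self
    rw [← sub_nonneg, sub_neg_eq_add] at this
    exact this
  have h2 : δ • (1 : D) ≤ 1 - g := by
    rw [← sub_nonneg]
    have e : 1 - g - δ • (1 : D) = δ • (algebraMap ℝ D ‖z‖ - z) := by
      have e1 : (1 : D) = (δ * (2 * C₀)) • (1 : D) := by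
        rw [hδ, inv_mul_cancel₀ (by positivity), one_smul]
      rw [hg, Algebra.algebraMap_eq_smul_one]
      nth_rw 1 [e1]
      rw [hC₀]
      module
    rw [e]
    refine smul_nonneg hδ0.le ?_
    rw [sub_nonneg]
    exact hzsa.le_algebraMap_norm_self
  have hgc : ∀ w, g * w = w * g := by
    intro w
    rw [hg, smul_mul_assoc, mul_smul_comm, add_mul, mul_add, hc, smul_mul_assoc, mul_smul_comm,
      one_mul, mul_one]
  have hgs : star g = g := by
    rw [hg, star_smul, star_add, star_smul, star_one, hsa, star_trivial, star_trivial]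
  obtain ⟨φ, hφ, hr, hmax⟩ := exists_max_state (star y * y) g hb
  obtain ⟨α, hα1, hα2⟩ := state_sq_eq hφ hb hgc hδ0 h1 h2 hr hmax
  have hy : φ (star y * y) = ((‖y‖ ^ 2 : ℝ) : ℂ) := by
    rw [hr, CStarRing.norm_star_mul_self, sq]
  obtain ⟨Q, iQ, π, hQ, hπ, hn⟩ := rep_of_state hφ hgc hgs hα1 (by rw [hα2]) y hy
  refine ⟨Q, iQ, π, α / δ - C₀, hQ, ?_, hn⟩
  have e : π g = δ • (π z + C₀ • (1 : Q)) := by
    rw [hg, ← Complex.coe_smul, map_smul, map_add, ← Complex.coe_smul C₀, map_smul, map_one,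
      Complex.coe_smul, Complex.coe_smul]
  rw [e] at hπ
  have e2 : π z + C₀ • (1 : Q) = (α / δ) • (1 : Q) := by
    have := congrArg (fun w => δ⁻¹ • w) hπ
    simp only [smul_smul, inv_mul_cancel₀ hδ0.ne', one_smul] at this
    rw [this]
    congr 1
    field_simp
  rw [sub_smul, ← e2]
  abel

end Vale.Agent.Lib.P101
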