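import Vale.Agent.Lib.P101.ZDense
import Vale.Agent.Lib.P101.Crux

set_option linter.unusedSimpArgs false
set_option linter.unusedVariables false
set_option linter.unusedSectionVars false
set_option linter.style.haveILetI false

open scoped Kronecker CStarAlgebra

namespace Vale.Agent.Lib.P101

universe u

/-- `Z_{2,3}` is closed in the algebra of continuous functions. -/
lemma isClosed_Z23 : IsClosed (Z23 : Set C(unitInterval, M6)) := by
  have h1 : IsClosed {f : C(unitInterval, M6) | f 0 = m2Fun f ⊗ₖ (1 : Matrix (Fin 3) (Fin 3) ℂ)} := by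
    refine isClosed_eq (continuous_eval_const 0) ?_
    refine continuous_matrix (fun p q => ?_)
    simp only [Matrix.kroneckerMap_apply, m2Fun, Matrix.of_apply]
    exact ((continuous_eval_const 0).matrix_elem _ _).mul continuous_const
  have h2 : IsClosed {f : C(unitInterval, M6) | f 1 = (1 : Matrix (Fin 2) (Fin 2) ℂ) ⊗ₖ m3Fun f} := by
    refine isClosed_eq (continuous_eval_const 1) ?_
    refine continuous_matrix (fun p q => ?_)
    simp only [Matrix.kroneckerMap_apply, m3Fun, Matrix.of_apply]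
    exact continuous_const.mul ((continuous_eval_const 1).matrix_elem _ _)
  have : (Z23 : Set C(unitInterval, M6)) = {f | f 0 = m2Fun f ⊗ₖ (1 : Matrix (Fin 3) (Fin 3) ℂ)} ∩
      {f | f 1 = (1 : Matrix (Fin 2) (Fin 2) ℂ) ⊗ₖ m3Fun f} := by
    ext f
    constructor
    · intro hf
      exact ⟨m2Fun_spec hf, m3Fun_spec hf⟩
    · rintro ⟨h, h'⟩
      exact ⟨⟨_, h⟩, ⟨_, h'⟩⟩
  rw [this]
  exact h1.inter h2

/-- A bounded graph over a dense part is the graph of a homomorphism. -/
lemma hom_of_bound {X Y : Type*} [CStarAlgebra X] [CStarAlgebra Y] (G : StarSubalgebra ℂ (X × Y))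
    (hbound : ∀ p ∈ G, ‖p.2‖ ≤ ‖p.1‖)
    (hdense : ∀ x : X, x ∈ closure (Prod.fst '' (G : Set (X × Y)))) :
    ∃ Φ : X →⋆ₐ[ℂ] Y, ∀ p ∈ G, Φ p.1 = p.2 := by
  obtain ⟨G', hG'⟩ : ∃ G' : StarSubalgebra ℂ (X × Y), G' = G.topologicalClosure := ⟨_, rfl⟩
  haveI hcl : IsClosed (G' : Set (X × Y)) := by
    rw [hG']
    exact G.isClosed_topologicalClosure
  have hle : G ≤ G' := by
    rw [hG']
    exact G.le_topologicalClosure
  have hb' : ∀ p ∈ G', ‖p.2‖ ≤ ‖p.1‖ := by
    intro p hp
    have hc : IsClosed {p : X × Y | ‖p.2‖ ≤ ‖p.1‖} :=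
      isClosed_le (continuous_norm.comp continuous_snd) (continuous_norm.comp continuous_fst)
    have hp' : p ∈ closure (G : Set (X × Y)) := by
      rw [hG'] at hp
      exact hp
    exact closure_minimal (fun q hq => hbound q hq) hc hp'
  let F : G' →⋆ₐ[ℂ] X := (StarAlgHom.fst ℂ X Y).comp G'.subtype
  have hF : ∀ p : G', F p = (p : X × Y).1 := fun p => rfl
  have hnorm : ∀ p : G', ‖F p‖ = ‖p‖ := by
    intro p
    have h1 : ‖p‖ = ‖(p : X × Y)‖ := rfl
    rw [h1, Prod.norm_def, hF, max_eq_left (hb' _ p.2)]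
  have hiso : Isometry F := AddMonoidHomClass.isometry_of_norm F hnorm
  have hclosed : IsClosed (Set.range F) := hiso.isClosedEmbedding.isClosed_range
  have hsurj : Function.Surjective F := by
    intro x
    have h1 : Prod.fst '' (G : Set (X × Y)) ⊆ Set.range F := by
      rintro _ ⟨p, hp, rfl⟩
      exact ⟨⟨p, hle hp⟩, rfl⟩
    exact closure_minimal h1 hclosed (hdense x)
  let e : G' ≃⋆ₐ[ℂ] X := StarAlgEquiv.ofBijective F ⟨hiso.injective, hsurj⟩
  have he : ∀ p : G', e p = (p : X × Y).1 := fun p => rfl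
  refine ⟨(StarAlgHom.snd ℂ X Y).comp (G'.subtype.comp (e.symm : X →⋆ₐ[ℂ] G')), fun p hp => ?_⟩
  have h1 : e.symm p.1 = ⟨p, hle hp⟩ := by
    have h2 : p.1 = e ⟨p, hle hp⟩ := rfl
    rw [h2, StarAlgEquiv.symm_apply_apply]
  change ((e.symm p.1 : G') : X × Y).2 = p.2
  rw [h1]

section Main

open scoped Matrix.Norms.L2Operator

/-- The C*-algebra structure of `Z_{2,3}`. -/
noncomputable local instance cstarZ23 : CStarAlgebra Z23 :=
  haveI : IsClosed (Z23 : Set C(unitInterval, M6)) := isClosed_Z23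
  inferInstance

/-- The norm bound on the graph. -/
lemma graph_bound {D : Type u} [CStarAlgebra D] {t s : D} (h : IsGen t s)
    (hc : ∀ w, zEl t s * w = w * zEl t s) (G : StarSubalgebra ℂ (Z23 × D))
    (hG : G = StarAlgebra.adjoin ℂ {((t₁, t) : Z23 × D), (s₁, s)}) :
    ∀ p ∈ G, ‖p.2‖ ≤ ‖p.1‖ := by
  intro p hp
  rcases subsingleton_or_nontrivial D with hD | hD
  · have : p.2 = 0 := Subsingleton.elim _ _
    rw [this, norm_zero]
    exact norm_nonneg _
  obtain ⟨Q, iQ, π, x, hQ, hπ, hn⟩ := exists_scalar_rep (zEl t s) (zEl_sa t s) hc p.2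
  have hgen : IsGen (π t) (π s) := by
    refine ⟨?_, ?_, ?_⟩
    · rw [← map_mul, h.sq, map_zero]
    · rw [← map_star, ← map_star, ← map_mul, ← map_mul, ← map_mul, ← map_add, ← map_add, h.sum,
        map_one]
    · rw [← map_star, ← map_mul, ← map_mul, h.abs]
  have hz : zEl (π t) (π s) = x • (1 : Q) := by
    rw [← hπ]
    simp only [zEl, map_add, map_mul, map_star]
  obtain ⟨Ψ, h1, h2⟩ := exists_fibre_hom hgen hz
  have agree : ∀ q ∈ G, Ψ q.1 = π q.2 := by
    intro q hq
    rw [hG] at hq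
    induction hq using StarAlgebra.adjoin_induction with
    | mem q hq =>
      rcases hq with rfl | rfl
      · exact h1
      · exact h2
    | algebraMap r =>
      have e1 : (algebraMap ℂ (Z23 × D) r).1 = algebraMap ℂ Z23 r := rfl
      have e2 : (algebraMap ℂ (Z23 × D) r).2 = algebraMap ℂ D r := rfl
      rw [e1, e2, AlgHomClass.commutes, AlgHomClass.commutes]
    | add a b _ _ ha hb =>
      rw [Prod.fst_add, Prod.snd_add, map_add, map_add, ha, hb]
    | mul a b _ _ ha hb =>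
      rw [Prod.fst_mul, Prod.snd_mul, map_mul, map_mul, ha, hb]
    | star a _ ha =>
      rw [Prod.fst_star, Prod.snd_star, map_star, map_star, ha]
  calc ‖p.2‖ ≤ ‖π p.2‖ := hn
    _ = ‖Ψ p.1‖ := by rw [agree p hp]
    _ ≤ ‖p.1‖ := NonUnitalStarAlgHom.norm_apply_le Ψ p.1

/-- The first projection of the graph has dense image. -/
lemma graph_dense {D : Type u} [CStarAlgebra D] {t s : D} (G : StarSubalgebra ℂ (Z23 × D))
    (hG : G = StarAlgebra.adjoin ℂ {((t₁, t) : Z23 × D), (s₁, s)}) (x : Z23) :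
    x ∈ closure (Prod.fst '' (G : Set (Z23 × D))) := by
  have hmem1 : ((t₁, t) : Z23 × D) ∈ G := by
    rw [hG]
    exact StarAlgebra.subset_adjoin ℂ _ (Set.mem_insert _ _)
  have hmem2 : ((s₁, s) : Z23 × D) ∈ G := by
    rw [hG]
    exact StarAlgebra.subset_adjoin ℂ _ (Set.mem_insert_of_mem _ rfl)
  obtain ⟨A, hA⟩ : ∃ A : StarSubalgebra ℂ C(unitInterval, M6),
      A = StarAlgebra.adjoin ℂ {tC, sC} := ⟨_, rfl⟩
  have hAS : ∀ a ∈ A, ∃ p ∈ G, ((p.1 : Z23) : C(unitInterval, M6)) = a := by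
    intro a ha
    rw [hA] at ha
    induction ha using StarAlgebra.adjoin_induction with
    | mem a ha =>
      rcases ha with rfl | rfl
      · exact ⟨_, hmem1, rfl⟩
      · exact ⟨_, hmem2, rfl⟩
    | algebraMap r => exact ⟨algebraMap ℂ (Z23 × D) r, G.algebraMap_mem r, rfl⟩
    | add a b _ _ ha hb =>
      obtain ⟨p, hp, rfl⟩ := ha
      obtain ⟨q, hq, rfl⟩ := hb
      exact ⟨p + q, add_mem hp hq, rfl⟩
    | mul a b _ _ ha hb =>
      obtain ⟨p, hp, rfl⟩ := ha
      obtain ⟨q, hq, rfl⟩ := hb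
      exact ⟨p * q, mul_mem hp hq, rfl⟩
    | star a _ ha =>
      obtain ⟨p, hp, rfl⟩ := ha
      exact ⟨star p, star_mem hp, rfl⟩
  obtain ⟨B, hB⟩ : ∃ B : StarSubalgebra ℂ C(unitInterval, M6), B = A.topologicalClosure := ⟨_, rfl⟩
  have hcl : IsClosed (B : Set C(unitInterval, M6)) := by
    rw [hB]
    exact A.isClosed_topologicalClosure
  have hAB : A ≤ B := by
    rw [hB]
    exact A.le_topologicalClosure
  have htA : tC ∈ A := by
    rw [hA]
    exact StarAlgebra.subset_adjoin ℂ _ (Set.mem_insert _ _)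
  have hsA : sC ∈ A := by
    rw [hA]
    exact StarAlgebra.subset_adjoin ℂ _ (Set.mem_insert_of_mem _ rfl)
  have hx : (x : C(unitInterval, M6)) ∈ B := Z23_le hcl (hAB htA) (hAB hsA) x.2
  have hx' : (x : C(unitInterval, M6)) ∈ closure ((↑) '' (Prod.fst '' (G : Set (Z23 × D))) :
      Set C(unitInterval, M6)) := by
    have h2 : (x : C(unitInterval, M6)) ∈ closure (A : Set C(unitInterval, M6)) := by
      rw [hB] at hx
      exact hx
    refine closure_mono ?_ h2
    intro a ha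
    obtain ⟨p, hp, rfl⟩ := hAS a ha
    exact ⟨p.1, ⟨p, hp, rfl⟩, rfl⟩
  have key := (closure_subtype (p := fun f => f ∈ Z23) (x := x)
    (s := Prod.fst '' (G : Set (Z23 × D)))).mpr hx'
  exact key

/-- Generators with a central `zEl` give a homomorphism of `Z_{2,3}`. -/
lemma exists_hom_of_central {D : Type u} [CStarAlgebra D] {t s : D} (h : IsGen t s)
    (hc : ∀ w, zEl t s * w = w * zEl t s) :
    ∃ Φ : Z23 →⋆ₐ[ℂ] D, Φ t₁ = t ∧ Φ s₁ = s := by
  obtain ⟨G, hG⟩ : ∃ G : StarSubalgebra ℂ (Z23 × D),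
      G = StarAlgebra.adjoin ℂ {((t₁, t) : Z23 × D), (s₁, s)} := ⟨_, rfl⟩
  obtain ⟨Φ, hΦ⟩ := hom_of_bound G (graph_bound h hc G hG) (graph_dense G hG)
  have hmem1 : ((t₁, t) : Z23 × D) ∈ G := by
    rw [hG]
    exact StarAlgebra.subset_adjoin ℂ _ (Set.mem_insert _ _)
  have hmem2 : ((s₁, s) : Z23 × D) ∈ G := by
    rw [hG]
    exact StarAlgebra.subset_adjoin ℂ _ (Set.mem_insert_of_mem _ rfl)
  exact ⟨Φ, hΦ _ hmem1, hΦ _ hmem2⟩

end Main

/-- Generators `t, s` in any unital C*-algebra give a unital homomorphism of `Z_{2,3}`. -/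
theorem exists_hom_Z23 {D : Type u} [CStarAlgebra D] {t s : D} (h : IsGen t s) :
    ∃ Φ : Z23 →⋆ₐ[ℂ] D, Φ t₁ = t ∧ Φ s₁ = s := by
  obtain ⟨A, hA⟩ : ∃ A : StarSubalgebra ℂ D, A = StarAlgebra.adjoin ℂ {t, s} := ⟨_, rfl⟩
  obtain ⟨D', hD'⟩ : ∃ D' : StarSubalgebra ℂ D, D' = A.topologicalClosure := ⟨_, rfl⟩
  haveI hcl : IsClosed (D' : Set D) := by
    rw [hD']
    exact A.isClosed_topologicalClosure
  have hAD : A ≤ D' := by
    rw [hD']
    exact A.le_topologicalClosure
  have ht : t ∈ D' := hAD (by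
    rw [hA]
    exact StarAlgebra.subset_adjoin ℂ _ (Set.mem_insert _ _))
  have hs : s ∈ D' := hAD (by
    rw [hA]
    exact StarAlgebra.subset_adjoin ℂ _ (Set.mem_insert_of_mem _ rfl))
  have hz1 := h.z_t
  have hz2 := h.z_s
  have hsa := zEl_sa t s
  have hcent : ∀ w ∈ D', zEl t s * w = w * zEl t s := by
    have hcA : ∀ w ∈ A, zEl t s * w = w * zEl t s := by
      intro w hw
      rw [hA] at hw
      induction hw using StarAlgebra.adjoin_induction with
      | mem w hw =>
        rcases hw with rfl | rfl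
        · exact hz1
        · exact hz2
      | algebraMap r => exact (Algebra.commutes r _).symm
      | add a b _ _ ha hb => rw [mul_add, add_mul, ha, hb]
      | mul a b _ _ ha hb => rw [← mul_assoc, ha, mul_assoc, hb, mul_assoc]
      | star a _ ha =>
        have := congrArg star ha
        rw [star_mul, star_mul, hsa] at this
        exact this.symm
    have hcl2 : IsClosed {w : D | zEl t s * w = w * zEl t s} :=
      isClosed_eq (continuous_const.mul continuous_id) (continuous_id.mul continuous_const)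
    intro w hw
    have hw' : w ∈ closure (A : Set D) := by
      rw [hD'] at hw
      exact hw
    exact closure_minimal (fun w hw => hcA w hw) hcl2 hw'
  let t' : D' := ⟨t, ht⟩
  let s' : D' := ⟨s, hs⟩
  have hgen : IsGen t' s' := by
    refine ⟨Subtype.ext h.sq, Subtype.ext h.sum, Subtype.ext h.abs⟩
  have hz' : ∀ w : D', zEl t' s' * w = w * zEl t' s' := by
    intro w
    apply Subtype.ext
    exact hcent w w.2
  obtain ⟨Φ, h1, h2⟩ := exists_hom_of_central hgen hz'
  refine ⟨(D'.subtype).comp Φ, ?_, ?_⟩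
  · rw [StarAlgHom.comp_apply, h1]
    rfl
  · rw [StarAlgHom.comp_apply, h2]
    rfl

end Vale.Agent.Lib.P101
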