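import Vale.Agent.Lib.P101.Main
import Vale.Agent.Lib.P101.Graph

set_option linter.unusedSimpArgs false
set_option linter.unusedVariables false
set_option linter.unusedSectionVars false
set_option linter.style.haveILetI false

open Filter Topology
open scoped BoundedContinuousFunction CStarAlgebra

namespace Vale.Agent.Lib.P101

universe u

/-- The forward direction: no characters gives a unital homomorphism of `Z_{2,3}`. -/
theorem exists_hom_of_no_char {A : Type u} [CStarAlgebra A] [TopologicalSpace.SeparableSpace A]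
    (ω : Ultrafilter ℕ) (hω : (ω : Filter ℕ) ≤ cofinite)
    (hχ : IsEmpty (Fω A ω →⋆ₐ[ℂ] ℂ)) : Nonempty (Z23 →⋆ₐ[ℂ] Fω A ω) := by
  haveI : IsClosed (Fω A ω : Set (Aω A ω)) := isClosed_central isCentralAlg_Fω
  obtain ⟨t, s, h1, h2, h3⟩ := exists_generators ω hω hχ
  obtain ⟨Φ, _, _⟩ := exists_hom_Z23 (D := Fω A ω) ⟨h1, h2, h3⟩
  exact ⟨Φ⟩

/-- `Z_{2,3}` has no characters, and neither does any algebra receiving it. -/
theorem no_char_of_hom {R : Type*} [Ring R] [StarRing R] [Algebra ℂ R]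
    (Φ : Z23 →⋆ₐ[ℂ] R) : IsEmpty (R →⋆ₐ[ℂ] ℂ) := by
  refine no_char_of_generators (t := Φ t₁) (s := Φ s₁) ?_ ?_ ?_
  · rw [← map_mul, t₁_sq, map_zero]
  · rw [← map_star, ← map_star, ← map_mul, ← map_mul, ← map_mul, ← map_add, ← map_add, t₁_sum,
      map_one]
  · rw [← map_star, ← map_mul, ← map_mul, t₁_abs]

end Vale.Agent.Lib.P101
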