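import Mathlib

set_option linter.unusedSimpArgs false
set_option linter.unusedVariables false

namespace Vale.Agent.Lib.P101

variable {B : Type*} [Ring B] [StarRing B]

/-- A Jordan-Wigner datum: `t` is square-zero and `v` anticommutes with `t` and `star t`, and
`star v * v = v * star v = 1 - (star t * t + t * star t)`. -/
structure IsDatum (t v : B) : Prop where
  sq : t * t = 0
  anti : v * t = -(t * v)
  anti_star : v * star t = -(star t * v)
  star_v_v : star v * v = 1 - (star t * t + t * star t)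
  v_star_v : v * star v = 1 - (star t * t + t * star t)

/-- `x` commutes with `y` and with `star y`. -/
structure MC (x y : B) : Prop where
  c : Commute x y
  c' : Commute x (star y)

namespace MC

variable {x y : B}

lemma star_left (h : MC x y) : MC (star x) y where
  c := by
    have := h.c'.star_star
    simpa using this
  c' := h.c.star_star

lemma star_right (h : MC x y) : MC x (star y) where
  c := h.c'
  c' := by simpa using h.c

lemma symm (h : MC x y) : MC y x where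
  c := h.c.symm
  c' := by
    have := h.c'.star_star
    simpa using this.symm

end MC

namespace IsDatum

variable {t v : B}

lemma star_anti (h : IsDatum t v) : star v * t = -(t * star v) := by
  have := congrArg star h.anti_star
  simp only [star_mul, star_neg, star_star] at this
  rw [this, neg_neg]

lemma star_anti_star (h : IsDatum t v) : star v * star t = -(star t * star v) := by
  have := congrArg star h.anti
  simp only [star_mul, star_neg] at this
  rw [this, neg_neg]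

lemma sq_star (h : IsDatum t v) : star t * star t = 0 := by
  have := congrArg star h.sq
  simpa [star_mul] using this

end IsDatum

/-- Merging two mutually commuting data. -/
theorem IsDatum.merge {t₁ v₁ t₂ v₂ : B} (h₁ : IsDatum t₁ v₁) (h₂ : IsDatum t₂ v₂)
    (htt : MC t₁ t₂) (htv : MC t₁ v₂) (hvt : MC v₁ t₂) (hvv : MC v₁ v₂) :
    IsDatum (t₁ + v₁ * t₂) (v₁ * v₂) := by
  have e1 : Commute t₂ t₁ := htt.c.symm
  have e2 : Commute t₂ v₁ := hvt.c.symm
  have e3 : Commute (star t₂) t₁ := htt.c'.symm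
  have e4 : Commute (star t₂) v₁ := hvt.c'.symm
  have e5 : Commute t₂ (star t₁) := htt.star_left.c.symm
  have e6 : Commute t₂ (star v₁) := hvt.star_left.c.symm
  have e7 : Commute (star t₂) (star t₁) := htt.star_left.c'.symm
  have e8 : Commute (star t₂) (star v₁) := hvt.star_left.c'.symm
  have f1 : Commute v₂ t₁ := htv.c.symm
  have f2 : Commute v₂ v₁ := hvv.c.symm
  have f3 : Commute (star v₂) t₁ := htv.c'.symm
  have f4 : Commute (star v₂) v₁ := hvv.c'.symm
  have f5 : Commute v₂ (star t₁) := htv.star_left.c.symm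
  have f6 : Commute v₂ (star v₁) := hvv.star_left.c.symm
  have f7 : Commute (star v₂) (star t₁) := htv.star_left.c'.symm
  have f8 : Commute (star v₂) (star v₁) := hvv.star_left.c'.symm
  have key : star (t₁ + v₁ * t₂) * (t₁ + v₁ * t₂) + (t₁ + v₁ * t₂) * star (t₁ + v₁ * t₂)
      = 1 - (star v₁ * v₁) * (star v₂ * v₂) := by
    have hsum : star (t₁ + v₁ * t₂) * (t₁ + v₁ * t₂) + (t₁ + v₁ * t₂) * star (t₁ + v₁ * t₂)
        = (star t₁ * t₁ + t₁ * star t₁) + (star v₁ * v₁) * (star t₂ * t₂ + t₂ * star t₂)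
          + (star t₁ * v₁ + v₁ * star t₁) * t₂
          + (star v₁ * t₁ + t₁ * star v₁) * star t₂ := by
      have h1 : v₁ * (star v₁ * (t₂ * star t₂)) = star v₁ * (v₁ * (t₂ * star t₂)) := by
        have h0 : v₁ * star v₁ = star v₁ * v₁ := by rw [h₁.v_star_v, h₁.star_v_v]
        rw [← mul_assoc, h0, mul_assoc]
      simp only [star_add, star_mul, add_mul, mul_add, mul_assoc, e1.eq, e1.left_comm, e2.eq,
        e2.left_comm, e3.eq, e3.left_comm, e4.eq, e4.left_comm, e5.eq, e5.left_comm, e6.eq,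
        e6.left_comm, e7.eq, e7.left_comm, e8.eq, e8.left_comm, h1]
      abel
    rw [hsum, h₁.anti_star, h₁.star_anti, h₂.star_v_v, h₁.star_v_v]
    noncomm_ring
  refine ⟨?_, ?_, ?_, ?_, ?_⟩
  · -- square zero
    have : (t₁ + v₁ * t₂) * (t₁ + v₁ * t₂)
        = t₁ * t₁ + (t₁ * v₁ + v₁ * t₁) * t₂ + v₁ * v₁ * (t₂ * t₂) := by
      simp only [add_mul, mul_add, mul_assoc, e1.eq, e1.left_comm, e2.eq, e2.left_comm]
      abel
    rw [this, h₁.sq, h₂.sq, h₁.anti]
    simp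
  · -- anticommutation with t
    have l1 : v₁ * v₂ * (t₁ + v₁ * t₂) = v₁ * t₁ * v₂ + v₁ * v₁ * (v₂ * t₂) := by
      simp only [add_mul, mul_add, mul_assoc, f1.eq, f1.left_comm, f2.eq, f2.left_comm]
    have l2 : (t₁ + v₁ * t₂) * (v₁ * v₂) = t₁ * v₁ * v₂ + v₁ * v₁ * (t₂ * v₂) := by
      simp only [add_mul, mul_add, mul_assoc, e2.eq, e2.left_comm]
    rw [l1, l2, h₂.anti, h₁.anti]
    noncomm_ring
  · -- anticommutation with star t
    have l1 : v₁ * v₂ * star (t₁ + v₁ * t₂)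
        = v₁ * star t₁ * v₂ + (v₁ * star v₁) * (v₂ * star t₂) := by
      simp only [star_add, star_mul, add_mul, mul_add, mul_assoc, f5.eq, f5.left_comm, f6.eq,
        f6.left_comm, e8.eq, e8.left_comm]
    have l2 : star (t₁ + v₁ * t₂) * (v₁ * v₂)
        = star t₁ * v₁ * v₂ + (star v₁ * v₁) * (star t₂ * v₂) := by
      simp only [star_add, star_mul, add_mul, mul_add, mul_assoc, e4.eq, e4.left_comm, e8.eq,
        e8.left_comm]
    rw [l1, l2, h₂.anti_star, h₁.anti_star, h₁.v_star_v, h₁.star_v_v]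
    noncomm_ring
  · -- star v v
    rw [key, sub_sub_cancel]
    simp only [star_mul, mul_assoc, f7.eq, f7.left_comm, f8.eq, f8.left_comm, f4.eq, f4.left_comm]
  · rw [key, sub_sub_cancel]
    have : v₁ * v₂ * star (v₁ * v₂) = v₁ * star v₁ * (v₂ * star v₂) := by
      simp only [star_mul, mul_assoc, f6.eq, f6.left_comm, f8.eq, f8.left_comm]
    rw [this, h₁.v_star_v, h₁.star_v_v, h₂.v_star_v, h₂.star_v_v]


section State

/-- The sum `∑ star (z k) * z k`. -/
def Gsum {N : ℕ} (z : Fin N → B) : B := ∑ k, star (z k) * z k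

/-- A datum `(t, v)` with a family `z` satisfying `G * z k = 0`, `G * v = v * G = v` where
`G = ∑ star (z k) * z k`. -/
structure IsState {N : ℕ} (t v : B) (z : Fin N → B) : Prop where
  datum : IsDatum t v
  annih : ∀ k, Gsum z * z k = 0
  absorb_left : Gsum z * v = v
  absorb_right : v * Gsum z = v

/-- The family obtained by merging two commuting families, with one term fewer. -/
def reduceZ {N : ℕ} (z₁ z₂ : Fin (N + 2) → B) (g₂ b : B) : Fin (N + 1) → B := fun k =>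
  z₁ k.castSucc * g₂ + b * z₂ k.castSucc +
    if k = Fin.last N then z₁ (Fin.last _) * z₂ (Fin.last _) else 0

variable {N : ℕ}

theorem gsum_reduceZ {z₁ z₂ : Fin (N + 2) → B} {g₂ b : B}
    (hg : star g₂ = g₂) (hgg : g₂ * g₂ = Gsum z₂) (hgz : ∀ k, g₂ * z₂ k = 0)
    (hb : star b = b) (hbb : b * b = star (z₁ (Fin.last _)) * z₁ (Fin.last _))
    (hbz : b * z₁ (Fin.last _) = 0)
    (c1 : ∀ k l, Commute (z₂ k) (z₁ l)) (c2 : ∀ k l, Commute (z₂ k) (star (z₁ l)))
    (c3 : ∀ k, Commute (z₂ k) b) (c4 : ∀ k, Commute g₂ (z₁ k))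
    (c5 : ∀ k, Commute g₂ (star (z₁ k))) (c6 : Commute g₂ b)
    (c7 : ∀ k l, Commute (star (z₂ k)) (z₁ l)) (c8 : ∀ k l, Commute (star (z₂ k)) (star (z₁ l)))
    (c9 : ∀ k, Commute (star (z₂ k)) b) :
    Gsum (reduceZ z₁ z₂ g₂ b) = Gsum z₁ * Gsum z₂ := by
  have c1e := fun k l => (c1 k l).eq
  have c1l := fun k l x => (c1 k l).left_comm x
  have c2e := fun k l => (c2 k l).eq
  have c2l := fun k l x => (c2 k l).left_comm x
  have c3e := fun k => (c3 k).eq
  have c3l := fun k x => (c3 k).left_comm x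
  have c4e := fun k => (c4 k).eq
  have c4l := fun k x => (c4 k).left_comm x
  have c5e := fun k => (c5 k).eq
  have c5l := fun k x => (c5 k).left_comm x
  have c6e := c6.eq
  have c6l := fun x => c6.left_comm x
  have c7e := fun k l => (c7 k l).eq
  have c7l := fun k l x => (c7 k l).left_comm x
  have c8e := fun k l => (c8 k l).eq
  have c8l := fun k l x => (c8 k l).left_comm x
  have c9e := fun k => (c9 k).eq
  have c9l := fun k x => (c9 k).left_comm x
  have hgz' : ∀ k, star (z₂ k) * g₂ = 0 := fun k => by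
    have := congrArg star (hgz k)
    simpa [star_mul, hg] using this
  have hbz' : star (z₁ (Fin.last (N + 1))) * b = 0 := by
    have := congrArg star hbz
    simpa [star_mul, hb] using this
  have hbzl : ∀ x, b * (z₁ (Fin.last (N + 1)) * x) = 0 := fun x => by rw [← mul_assoc, hbz, zero_mul]
  have hbzl' : ∀ x, star (z₁ (Fin.last (N + 1))) * (b * x) = 0 := fun x => by rw [← mul_assoc, hbz', zero_mul]
  have per : ∀ k : Fin (N + 1), star (reduceZ z₁ z₂ g₂ b k) * reduceZ z₁ z₂ g₂ b k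
      = (star (z₁ k.castSucc) * z₁ k.castSucc) * Gsum z₂
        + (star (z₁ (Fin.last (N + 1))) * z₁ (Fin.last (N + 1))) * (star (z₂ k.castSucc) * z₂ k.castSucc)
        + (if k = Fin.last N then (star (z₁ (Fin.last (N + 1))) * z₁ (Fin.last (N + 1))) * (star (z₂ (Fin.last (N + 1))) * z₂ (Fin.last (N + 1))) else 0) := by
    intro k
    rw [← hgg]
    have hbbl : ∀ x, b * (b * x) = star (z₁ (Fin.last (N + 1))) * (z₁ (Fin.last (N + 1)) * x) := fun x => by
      rw [← mul_assoc, hbb, mul_assoc]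
    unfold reduceZ
    by_cases hk : k = Fin.last N
    · rw [if_pos hk, if_pos hk]
      simp only [star_add, star_mul, add_mul, mul_add, mul_assoc, hg, hb, c1e, c1l, c2e, c2l, c3e,
        c3l, c4e, c4l, c5e, c5l, c6e, c6l, c7e, c7l, c8e, c8l, c9e, c9l, hgz, hgz', mul_zero,
        zero_mul, add_zero, zero_add, hbz, hbz', hbzl, hbzl', hbbl]
    · rw [if_neg hk, if_neg hk]
      simp only [star_add, star_mul, star_zero, add_mul, mul_add, mul_assoc, hg, hb, c1e, c1l, c2e,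
        c2l, c3e, c3l, c4e, c4l, c5e, c5l, c6e, c6l, c7e, c7l, c8e, c8l, c9e, c9l, hgz, hgz',
        mul_zero, zero_mul, add_zero, zero_add, hbbl]
  have h1 : Gsum z₁ = (∑ k : Fin (N + 1), star (z₁ k.castSucc) * z₁ k.castSucc)
      + star (z₁ (Fin.last (N + 1))) * z₁ (Fin.last (N + 1)) := by
    unfold Gsum
    rw [Fin.sum_univ_castSucc]
  have h2 : Gsum z₂ = (∑ k : Fin (N + 1), star (z₂ k.castSucc) * z₂ k.castSucc)
      + star (z₂ (Fin.last (N + 1))) * z₂ (Fin.last (N + 1)) := by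
    unfold Gsum
    rw [Fin.sum_univ_castSucc]
  have hsum : Gsum (reduceZ z₁ z₂ g₂ b)
      = (∑ k : Fin (N + 1), star (z₁ k.castSucc) * z₁ k.castSucc) * Gsum z₂
        + (star (z₁ (Fin.last (N + 1))) * z₁ (Fin.last (N + 1))) * ((∑ k : Fin (N + 1), star (z₂ k.castSucc) * z₂ k.castSucc)
          + star (z₂ (Fin.last (N + 1))) * z₂ (Fin.last (N + 1))) := by
    conv_lhs => unfold Gsum
    simp only [per, Finset.sum_add_distrib, Finset.sum_mul, Finset.mul_sum, Finset.sum_ite_eq',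
      Finset.mem_univ, if_true, mul_add]
    abel
  rw [hsum, ← h2, h1, add_mul]


theorem IsState.reduce {t₁ v₁ t₂ v₂ : B} {z₁ z₂ : Fin (N + 2) → B} {g₂ b : B}
    (h₁ : IsState t₁ v₁ z₁) (h₂ : IsState t₂ v₂ z₂)
    (hg : star g₂ = g₂) (hgg : g₂ * g₂ = Gsum z₂) (hgz : ∀ k, g₂ * z₂ k = 0)
    (hb : star b = b) (hbb : b * b = star (z₁ (Fin.last _)) * z₁ (Fin.last _))
    (hbz : b * z₁ (Fin.last _) = 0)
    (L R : Set B) (hLs : ∀ x ∈ L, star x ∈ L) (hRs : ∀ y ∈ R, star y ∈ R)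
    (hLR : ∀ x ∈ L, ∀ y ∈ R, Commute x y)
    (ht₁ : t₁ ∈ L) (hv₁ : v₁ ∈ L) (hz₁ : ∀ k, z₁ k ∈ L) (hbL : b ∈ L)
    (ht₂ : t₂ ∈ R) (hv₂ : v₂ ∈ R) (hz₂ : ∀ k, z₂ k ∈ R) (hgR : g₂ ∈ R) :
    IsState (t₁ + v₁ * t₂) (v₁ * v₂) (reduceZ z₁ z₂ g₂ b) := by
  have hmc : ∀ x ∈ L, ∀ y ∈ R, MC x y := fun x hx y hy => ⟨hLR x hx y hy, hLR x hx _ (hRs y hy)⟩
  have hG : Gsum (reduceZ z₁ z₂ g₂ b) = Gsum z₁ * Gsum z₂ :=
    gsum_reduceZ hg hgg hgz hb hbb hbz
      (fun k l => (hLR _ (hz₁ l) _ (hz₂ k)).symm)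
      (fun k l => (hLR _ (hLs _ (hz₁ l)) _ (hz₂ k)).symm)
      (fun k => (hLR _ hbL _ (hz₂ k)).symm)
      (fun k => (hLR _ (hz₁ k) _ hgR).symm)
      (fun k => (hLR _ (hLs _ (hz₁ k)) _ hgR).symm)
      (hLR _ hbL _ hgR).symm
      (fun k l => (hLR _ (hz₁ l) _ (hRs _ (hz₂ k))).symm)
      (fun k l => (hLR _ (hLs _ (hz₁ l)) _ (hRs _ (hz₂ k))).symm)
      (fun k => (hLR _ hbL _ (hRs _ (hz₂ k))).symm)
  have hG₂ : ∀ x ∈ L, Commute (Gsum z₂) x := fun x hx => by
    unfold Gsum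
    refine Commute.sum_left _ _ _ (fun k _ => ?_)
    exact ((hLR x hx _ (hRs _ (hz₂ k))).mul_right (hLR x hx _ (hz₂ k))).symm
  have hG₁ : ∀ y ∈ R, Commute (Gsum z₁) y := fun y hy => by
    unfold Gsum
    refine Commute.sum_left _ _ _ (fun k _ => ?_)
    exact (hLR _ (hLs _ (hz₁ k)) y hy).mul_left (hLR _ (hz₁ k) y hy)
  refine ⟨IsDatum.merge h₁.datum h₂.datum (hmc _ ht₁ _ ht₂) (hmc _ ht₁ _ hv₂) (hmc _ hv₁ _ ht₂)
    (hmc _ hv₁ _ hv₂), ?_, ?_, ?_⟩
  · intro k
    rw [hG]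
    have a1 : Gsum z₁ * Gsum z₂ * (z₁ k.castSucc * g₂) = 0 := by
      rw [mul_assoc, ← mul_assoc (Gsum z₂), (hG₂ _ (hz₁ _)).eq, mul_assoc, ← mul_assoc (Gsum z₁),
        h₁.annih, zero_mul]
    have a2 : Gsum z₁ * Gsum z₂ * (b * z₂ k.castSucc) = 0 := by
      rw [mul_assoc, ← mul_assoc (Gsum z₂), (hG₂ _ hbL).eq, mul_assoc, h₂.annih, mul_zero, mul_zero]
    have a3 : Gsum z₁ * Gsum z₂ * (z₁ (Fin.last _) * z₂ (Fin.last _)) = 0 := by
      rw [mul_assoc, ← mul_assoc (Gsum z₂), (hG₂ _ (hz₁ _)).eq, mul_assoc, h₂.annih, mul_zero,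
        mul_zero]
    unfold reduceZ
    rw [mul_add, mul_add, a1, a2]
    by_cases hk : k = Fin.last N
    · rw [if_pos hk, a3]; simp
    · rw [if_neg hk]; simp
  · rw [hG, mul_assoc, ← mul_assoc (Gsum z₂), (hG₂ _ hv₁).eq, mul_assoc, h₂.absorb_left,
      ← mul_assoc, h₁.absorb_left]
  · rw [hG, mul_assoc, ← mul_assoc v₂, ← (hG₁ _ hv₂).eq, mul_assoc, h₂.absorb_right,
      ← mul_assoc, h₁.absorb_right]

/-- An orthogonal family over a datum. -/
structure IsOrtho {M : ℕ} (t v G : B) (Ω : Fin M → B) : Prop where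
  datum : IsDatum t v
  ortho : ∀ k l, star (Ω k) * Ω l = if k = l then G else 0
  absorb_left : G * v = v
  absorb_right : v * G = v

/-- Adding one element to an orthogonal family using a commuting orthogonal pair. -/
theorem IsOrtho.step {M : ℕ} {t₁ v₁ G₁ t₂ v₂ G₂ : B} {Ω₁ : Fin (M + 1) → B} {Ω₂ : Fin 2 → B}
    (h₁ : IsOrtho t₁ v₁ G₁ Ω₁) (h₂ : IsOrtho t₂ v₂ G₂ Ω₂)
    (L R : Set B) (hLs : ∀ x ∈ L, star x ∈ L) (hRs : ∀ y ∈ R, star y ∈ R)
    (hLR : ∀ x ∈ L, ∀ y ∈ R, Commute x y)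
    (ht₁ : t₁ ∈ L) (hv₁ : v₁ ∈ L) (hz₁ : ∀ k, Ω₁ k ∈ L) (hG₁ : G₁ ∈ L)
    (ht₂ : t₂ ∈ R) (hv₂ : v₂ ∈ R) (hz₂ : ∀ k, Ω₂ k ∈ R) (hG₂ : G₂ ∈ R) :
    IsOrtho (t₁ + v₁ * t₂) (v₁ * v₂) (G₁ * G₂)
      (fun k : Fin (M + 2) => Fin.lastCases (Ω₁ 0 * Ω₂ 1) (fun i => Ω₁ i * Ω₂ 0) k) := by
  have hmc : ∀ x ∈ L, ∀ y ∈ R, MC x y := fun x hx y hy => ⟨hLR x hx y hy, hLR x hx _ (hRs y hy)⟩
  have key : ∀ i j a b, star (Ω₁ i * Ω₂ a) * (Ω₁ j * Ω₂ b)
      = (star (Ω₁ i) * Ω₁ j) * (star (Ω₂ a) * Ω₂ b) := by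
    intro i j a b
    have e1 := (hLR _ (hLs _ (hz₁ i)) _ (hRs _ (hz₂ a))).symm
    have e2 := (hLR _ (hz₁ j) _ (hRs _ (hz₂ a))).symm
    simp only [star_mul, mul_assoc, e1.left_comm, e2.left_comm]
  refine ⟨IsDatum.merge h₁.datum h₂.datum (hmc _ ht₁ _ ht₂) (hmc _ ht₁ _ hv₂) (hmc _ hv₁ _ ht₂)
    (hmc _ hv₁ _ hv₂), ?_, ?_, ?_⟩
  · intro k l
    induction k using Fin.lastCases with
    | last =>
      induction l using Fin.lastCases with
      | last =>
        simp only [Fin.lastCases_last, if_true]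
        rw [key, h₁.ortho, h₂.ortho]; simp
      | cast j =>
        simp only [Fin.lastCases_last, Fin.lastCases_castSucc]
        rw [key, h₂.ortho, if_neg (Fin.castSucc_lt_last j).ne', if_neg (by decide)]
        simp
    | cast i =>
      induction l using Fin.lastCases with
      | last =>
        simp only [Fin.lastCases_last, Fin.lastCases_castSucc]
        rw [key, h₂.ortho, if_neg (Fin.castSucc_lt_last i).ne, if_neg (by decide)]
        simp
      | cast j =>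
        simp only [Fin.lastCases_castSucc]
        rw [key, h₁.ortho, h₂.ortho]
        by_cases hij : i = j
        · subst hij; simp
        · rw [if_neg hij, zero_mul, if_neg (fun h => hij (Fin.castSucc_injective _ h))]
  · rw [mul_assoc, ← mul_assoc G₂, (hLR _ hv₁ _ hG₂).symm.eq, mul_assoc, h₂.absorb_left,
      ← mul_assoc, h₁.absorb_left]
  · rw [mul_assoc, ← mul_assoc v₂, (hLR _ hG₁ _ hv₂).symm.eq, mul_assoc, h₂.absorb_right,
      ← mul_assoc, h₁.absorb_right]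

/-- The final algebraic step. -/
theorem final_algebra {m : ℕ} {c v₀ θ g' T V G : B} {x Ω : Fin m → B}
    (hd : IsDatum c v₀) (h1 : star c * c * θ = θ) (h2 : v₀ * θ = 0) (h3 : star v₀ * θ = 0)
    (hθ : star θ = θ) (hg' : star g' = g')
    (hcert : ∑ k, star (x k) * (θ * θ) * x k = 1)
    (hgv : g' * g' * v₀ = v₀)
    (hO : IsOrtho T V G Ω)
    (L R : Set B) (hLs : ∀ x ∈ L, star x ∈ L) (hRs : ∀ y ∈ R, star y ∈ R)
    (hLR : ∀ x ∈ L, ∀ y ∈ R, Commute x y)
    (hcL : c ∈ L) (hvL : v₀ ∈ L) (hθL : θ ∈ L) (hgL : g' ∈ L) (hxL : ∀ k, x k ∈ L)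
    (hTR : T ∈ R) (hVR : V ∈ R) (hGR : G ∈ R) (hΩR : ∀ k, Ω k ∈ R) :
    ∃ t s : B, t * t = 0 ∧ star t * t + t * star t + star s * s = 1 ∧ star t * t * s = s := by
  have hmc : ∀ x ∈ L, ∀ y ∈ R, MC x y := fun x hx y hy => ⟨hLR x hx y hy, hLR x hx _ (hRs y hy)⟩
  have hD : IsDatum (c + v₀ * T) (v₀ * V) :=
    IsDatum.merge hd hO.datum (hmc _ hcL _ hTR) (hmc _ hcL _ hVR) (hmc _ hvL _ hTR)
      (hmc _ hvL _ hVR)
  have e1 := fun k => hLR _ hθL _ (hRs _ (hΩR k))
  have e2 := fun k l => hLR _ (hLs _ (hxL l)) _ (hRs _ (hΩR k))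
  have e3 := fun k => hLR _ hgL _ (hRs _ (hΩR k))
  have e4 := fun k l => hLR _ (hxL l) _ (hRs _ (hΩR k))
  -- the element s₀
  set s₀ : B := ∑ k, θ * x k * g' * Ω k with hs₀
  have hstar : star s₀ * s₀ = g' * g' * G := by
    have per : ∀ k l, star (θ * x k * g' * Ω k) * (θ * x l * g' * Ω l)
        = (g' * star (x k) * θ * (θ * x l * g')) * (star (Ω k) * Ω l) := by
      intro k l
      have r1 := (e3 k).symm
      have r2 := (e2 k k).symm
      have r3 := (e1 k).symm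
      have r4 := (e4 k l).symm
      simp only [star_mul, hθ, hg', mul_assoc, r1.left_comm, r2.left_comm, r3.left_comm,
        r4.left_comm]
    have : star s₀ * s₀ = ∑ k, (g' * star (x k) * θ * (θ * x k * g')) * G := by
      rw [hs₀, star_sum, Finset.sum_mul_sum]
      refine Finset.sum_congr rfl (fun k _ => ?_)
      rw [Finset.sum_eq_single k]
      · rw [per, hO.ortho, if_pos rfl]
      · intro l _ hl
        rw [per, hO.ortho, if_neg (Ne.symm hl), mul_zero]
      · simp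
    rw [this, ← Finset.sum_mul]
    congr 1
    have h4 : ∀ k, g' * star (x k) * θ * (θ * x k * g') = g' * (star (x k) * (θ * θ) * x k) * g' := by
      intro k; noncomm_ring
    simp only [h4]
    rw [← Finset.sum_mul, ← Finset.mul_sum, hcert, mul_one]
  have hGv : G * v₀ = v₀ * G := (hLR _ hvL _ hGR).symm.eq
  have hsv : (g' * g' * G) * (v₀ * V) = v₀ * V := by
    calc (g' * g' * G) * (v₀ * V) = (g' * g') * ((G * v₀) * V) := by noncomm_ring
      _ = (g' * g' * v₀) * (G * V) := by rw [hGv]; noncomm_ring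
      _ = v₀ * V := by rw [hO.absorb_left, hgv]
  refine ⟨c + v₀ * T, s₀ * (v₀ * V), hD.sq, ?_, ?_⟩
  · have : star (s₀ * (v₀ * V)) * (s₀ * (v₀ * V)) = star (v₀ * V) * (v₀ * V) := by
      rw [star_mul, mul_assoc, ← mul_assoc (star s₀), hstar, hsv]
    rw [this, hD.star_v_v]
    noncomm_ring
  · have hTθ : T * θ = θ * T := (hLR _ hθL _ hTR).symm.eq
    have hθt : star (c + v₀ * T) * (c + v₀ * T) * θ = θ := by
      have a1 : star c * (v₀ * T) * θ = 0 := by
        rw [mul_assoc, mul_assoc, hTθ, ← mul_assoc v₀, h2, zero_mul, mul_zero]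
      have a2 : star T * star v₀ * c * θ = 0 := by
        rw [mul_assoc, mul_assoc, ← mul_assoc (star v₀), hd.star_anti, neg_mul, mul_assoc, h3]
        simp
      have a3 : star T * star v₀ * (v₀ * T) * θ = 0 := by
        rw [mul_assoc, mul_assoc, mul_assoc, hTθ, ← mul_assoc v₀, h2]
        simp
      have : star (c + v₀ * T) * (c + v₀ * T) * θ
          = star c * c * θ + star c * (v₀ * T) * θ + star T * star v₀ * c * θ
            + star T * star v₀ * (v₀ * T) * θ := by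
        simp only [star_add, star_mul, add_mul, mul_add]
        abel
      rw [this, a1, a2, a3, h1]
      simp
    rw [← mul_assoc, hs₀, Finset.mul_sum]
    congr 1
    refine Finset.sum_congr rfl (fun k _ => ?_)
    simp only [← mul_assoc] at hθt ⊢
    rw [hθt]

end State

end Vale.Agent.Lib.P101
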