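import Vale.Agent.Lib.P101.Copies

set_option linter.unusedSimpArgs false
set_option linter.unusedVariables false
set_option linter.unusedSectionVars false
set_option linter.style.haveILetI false

open scoped CStarAlgebra

namespace Vale.Agent.Lib.P101

universe u

section Maps

variable {R S : Type*} [Ring R] [StarRing R] [Algebra ℂ R] [Ring S] [StarRing S] [Algebra ℂ S]

lemma map_gsum (f : R →⋆ₐ[ℂ] S) {N : ℕ} (z : Fin N → R) :
    f (Gsum z) = Gsum (fun k => f (z k)) := by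
  simp only [Gsum, map_sum, map_mul, map_star]

lemma IsState.map (f : R →⋆ₐ[ℂ] S) {N : ℕ} {t v : R} {z : Fin N → R} (h : IsState t v z) :
    IsState (f t) (f v) (fun k => f (z k)) where
  datum := h.datum.map f
  annih := fun k => by rw [← map_gsum, ← map_mul, h.annih, map_zero]
  absorb_left := by rw [← map_gsum, ← map_mul, h.absorb_left]
  absorb_right := by rw [← map_gsum, ← map_mul, h.absorb_right]

lemma IsOrtho.map (f : R →⋆ₐ[ℂ] S) {N : ℕ} {t v G : R} {Ω : Fin N → R} (h : IsOrtho t v G Ω) :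
    IsOrtho (f t) (f v) (f G) (fun k => f (Ω k)) where
  datum := h.datum.map f
  ortho := fun k l => by
    rw [← map_star, ← map_mul, h.ortho]
    split_ifs <;> simp
  absorb_left := by rw [← map_mul, h.absorb_left]
  absorb_right := by rw [← map_mul, h.absorb_right]

end Maps

variable {B : Type u} [CStarAlgebra B]

lemma IsDatum.lift {A : StarSubalgebra ℂ B} {t v : A} (h : IsDatum (t : B) (v : B)) :
    IsDatum t v where
  sq := Subtype.ext h.sq
  anti := Subtype.ext h.anti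
  anti_star := Subtype.ext h.anti_star
  star_v_v := Subtype.ext h.star_v_v
  v_star_v := Subtype.ext h.v_star_v

lemma coe_gsum {A : StarSubalgebra ℂ B} {N : ℕ} (z : Fin N → A) :
    ((Gsum z : A) : B) = Gsum (fun k => (z k : B)) :=
  map_gsum A.subtype z

lemma IsState.lift {A : StarSubalgebra ℂ B} {N : ℕ} {t v : A} {z : Fin N → A}
    (h : IsState (t : B) (v : B) (fun k => (z k : B))) : IsState t v z where
  datum := IsDatum.lift h.datum
  annih := fun k => Subtype.ext (by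
    have e : ((Gsum z * z k : A) : B) = ((Gsum z : A) : B) * (z k : B) := rfl
    rw [e, coe_gsum]
    exact h.annih k)
  absorb_left := Subtype.ext (by
    have e : ((Gsum z * v : A) : B) = ((Gsum z : A) : B) * (v : B) := rfl
    rw [e, coe_gsum]
    exact h.absorb_left)
  absorb_right := Subtype.ext (by
    have e : ((v * Gsum z : A) : B) = (v : B) * ((Gsum z : A) : B) := rfl
    rw [e, coe_gsum]
    exact h.absorb_right)

lemma IsOrtho.lift {A : StarSubalgebra ℂ B} {N : ℕ} {t v G : A} {Ω : Fin N → A}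
    (h : IsOrtho (t : B) (v : B) (G : B) (fun k => (Ω k : B))) : IsOrtho t v G Ω where
  datum := IsDatum.lift h.datum
  ortho := fun k l => Subtype.ext (by
    have := h.ortho k l
    split_ifs at this ⊢
    · exact this
    · exact this)
  absorb_left := Subtype.ext h.absorb_left
  absorb_right := Subtype.ext h.absorb_right

section CFacts

variable [PartialOrder B] [StarOrderedRing B]

lemma zz_of_annih {N : ℕ} {z : Fin N → B} (h : ∀ k, Gsum z * z k = 0) (k l : Fin N) :
    z k * z l = 0 := by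
  have h1 : ∑ i, star (z i * z l) * (z i * z l) = 0 := by
    have e : ∀ i, star (z i * z l) * (z i * z l) = star (z l) * (star (z i) * z i) * z l := by
      intro i
      simp only [star_mul, mul_assoc]
    simp only [e]
    rw [← Finset.sum_mul, ← Finset.mul_sum]
    have := h l
    rw [Gsum] at this
    rw [mul_assoc, this, mul_zero]
  have h2 := (Finset.sum_eq_zero_iff_of_nonneg (fun i _ => star_mul_self_nonneg _)).mp h1 k
    (Finset.mem_univ k)
  exact CStarRing.star_mul_self_eq_zero_iff _ |>.mp h2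

lemma gsum_nonneg {N : ℕ} (z : Fin N → B) : 0 ≤ Gsum z :=
  Finset.sum_nonneg (fun i _ => star_mul_self_nonneg _)

lemma sqrt_mul_zero {G z g : B} (hG : 0 ≤ G) (hg : g = CFC.sqrt G) (h : G * z = 0) : g * z = 0 := by
  have s : star g = g := by
    rw [hg]
    exact (IsSelfAdjoint.of_nonneg (CFC.sqrt_nonneg G)).star_eq
  have gg : g * g = G := by rw [hg]; exact CFC.sqrt_mul_sqrt_self G hG
  have : star (g * z) * (g * z) = 0 := by
    calc star (g * z) * (g * z) = star z * (g * g) * z := by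
          rw [star_mul, s]; noncomm_ring
      _ = 0 := by rw [gg, mul_assoc, h, mul_zero]
  exact CStarRing.star_mul_self_eq_zero_iff _ |>.mp this

end CFacts

/-- One reduction of a state. -/
theorem state_reduce (hR : HasCopies B) {N : ℕ} {t v : B} {z : Fin (N + 2) → B}
    (h : IsState t v z) : ∃ (t' v' : B) (z' : Fin (N + 1) → B), IsState t' v' z' := by
  classical
  letI : PartialOrder B := CStarAlgebra.spectralOrder B
  haveI : StarOrderedRing B := CStarAlgebra.spectralOrderedRing B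
  have hzz := zz_of_annih h.annih
  set G := Gsum z with hG
  have hG0 : 0 ≤ G := gsum_nonneg z
  set g := CFC.sqrt G with hg
  have hgs : star g = g := (IsSelfAdjoint.of_nonneg (CFC.sqrt_nonneg G)).star_eq
  have hgg : g * g = G := CFC.sqrt_mul_sqrt_self G hG0
  have hgz : ∀ k, g * z k = 0 := fun k => sqrt_mul_zero hG0 hg (h.annih k)
  set zl := z (Fin.last _) with hzl
  set b := CFC.sqrt (star zl * zl) with hb
  have hb0 : 0 ≤ star zl * zl := star_mul_self_nonneg _
  have hbs : star b = b := (IsSelfAdjoint.of_nonneg (CFC.sqrt_nonneg _)).star_eq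
  have hbb : b * b = star zl * zl := CFC.sqrt_mul_sqrt_self _ hb0
  have hbz : b * zl = 0 := sqrt_mul_zero hb0 hb (by rw [mul_assoc, hzz, mul_zero])
  set S : Set B := {t, v, g, b} ∪ Set.range z with hS
  have hSf : S.Finite := (by simp : ({t, v, g, b} : Set B).Finite).union (Set.finite_range _)
  obtain ⟨A, hA⟩ : ∃ A : StarSubalgebra ℂ B, A = StarAlgebra.adjoin ℂ S := ⟨_, rfl⟩
  have hmem : ∀ s ∈ S, s ∈ A := fun s hs => by
    rw [hA]
    exact StarAlgebra.subset_adjoin ℂ S hs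
  have mt : t ∈ A := hmem _ (Or.inl (by simp))
  have mv : v ∈ A := hmem _ (Or.inl (by simp))
  have mg : g ∈ A := hmem _ (Or.inl (by simp))
  have mb : b ∈ A := hmem _ (Or.inl (by simp))
  have mz : ∀ k, z k ∈ A := fun k => hmem _ (Or.inr ⟨k, rfl⟩)
  obtain ⟨ρ, hn, hc⟩ := hR A ⟨S, hSf, hA⟩
  let tA : A := ⟨t, mt⟩
  let vA : A := ⟨v, mv⟩
  let gA : A := ⟨g, mg⟩
  let zA : Fin (N + 2) → A := fun k => ⟨z k, mz k⟩
  have hsA : IsState tA vA zA := IsState.lift h
  have hgA : gA * gA = Gsum zA := Subtype.ext (by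
    rw [coe_gsum]
    exact hgg)
  have h2 := hsA.map ρ
  refine ⟨_, _, _, IsState.reduce h h2 (g₂ := ρ gA) (b := b) ?_ ?_ ?_ hbs hbb hbz (A : Set B)
    (Set.range ρ) (fun x hx => star_mem hx) ?_ ?_ mt mv mz mb ⟨_, rfl⟩ ⟨_, rfl⟩ (fun k => ⟨_, rfl⟩)
    ⟨_, rfl⟩⟩
  · rw [← map_star]
    congr 1
    exact Subtype.ext hgs
  · rw [← map_mul, hgA, map_gsum]
  · intro k
    rw [← map_mul]
    have : gA * zA k = 0 := Subtype.ext (hgz k)
    rw [this, map_zero]
  · rintro _ ⟨y, rfl⟩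
    exact ⟨star y, map_star _ _⟩
  · rintro x hx _ ⟨y, rfl⟩
    exact (hc y ⟨x, hx⟩).symm

/-- Reduction of a state to a single element. -/
theorem state_down (hR : HasCopies B) : ∀ (N : ℕ) (t v : B) (z : Fin (N + 1) → B),
    IsState t v z → ∃ (t' v' : B) (z' : Fin 1 → B), IsState t' v' z' := by
  intro N
  induction N with
  | zero =>
    intro t v z h
    exact ⟨t, v, z, h⟩
  | succ N ih =>
    intro t v z h
    obtain ⟨t', v', z', h'⟩ := state_reduce hR h
    exact ih t' v' z' h'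

/-- The base orthogonal pair. -/
theorem ortho_base {t v : B} {z : Fin 1 → B} (h : IsState t v z) :
    ∃ (G : B) (Ω : Fin 2 → B), IsOrtho t v G Ω := by
  letI : PartialOrder B := CStarAlgebra.spectralOrder B
  haveI : StarOrderedRing B := CStarAlgebra.spectralOrderedRing B
  have hG0 : 0 ≤ Gsum z := gsum_nonneg z
  set g := CFC.sqrt (Gsum z) with hg
  have hgs : star g = g := (IsSelfAdjoint.of_nonneg (CFC.sqrt_nonneg _)).star_eq
  have hgg : g * g = Gsum z := CFC.sqrt_mul_sqrt_self _ hG0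
  have hgz : g * z 0 = 0 := sqrt_mul_zero hG0 hg (h.annih 0)
  have hzg : star (z 0) * g = 0 := by
    have := congrArg star hgz
    simpa [star_mul, hgs] using this
  have hGz : star (z 0) * z 0 = Gsum z := by
    simp [Gsum]
  have fin2 : ∀ i : Fin 2, i = 0 ∨ i = 1 := by decide
  refine ⟨Gsum z, ![g, z 0], ⟨h.datum, ?_, h.absorb_left, h.absorb_right⟩⟩
  intro k l
  rcases fin2 k with rfl | rfl <;> rcases fin2 l with rfl | rfl
  · simp [hgs, hgg]
  · simp [hgs, hgz]
  · simp [hzg]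
  · simp [hGz]

/-- Orthogonal families of every size. -/
theorem ortho_family (hR : HasCopies B) {T V G : B} {Ω₂ : Fin 2 → B} (h₂ : IsOrtho T V G Ω₂) :
    ∀ M : ℕ, ∃ (T' V' G' : B) (Ω : Fin (M + 1) → B), IsOrtho T' V' G' Ω := by
  classical
  intro M
  induction M with
  | zero =>
    refine ⟨T, V, G, fun _ => Ω₂ 0, ⟨h₂.datum, ?_, h₂.absorb_left, h₂.absorb_right⟩⟩
    intro k l
    have e : k = l := Fin.ext (by have := k.2; have := l.2; omega)
    rw [if_pos e]
    have := h₂.ortho 0 0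
    simpa using this
  | succ M ih =>
    obtain ⟨T₁, V₁, G₁, Ω₁, h₁⟩ := ih
    set S : Set B := {T₁, V₁, G₁, T, V, G} ∪ Set.range Ω₁ ∪ Set.range Ω₂ with hS
    have hSf : S.Finite := ((by simp : ({T₁, V₁, G₁, T, V, G} : Set B).Finite).union
      (Set.finite_range _)).union (Set.finite_range _)
    obtain ⟨A, hA⟩ : ∃ A : StarSubalgebra ℂ B, A = StarAlgebra.adjoin ℂ S := ⟨_, rfl⟩
    have hmem : ∀ s ∈ S, s ∈ A := fun s hs => by
      rw [hA]
      exact StarAlgebra.subset_adjoin ℂ S hs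
    have m1 : T₁ ∈ A := hmem _ (Or.inl (Or.inl (by simp)))
    have m2 : V₁ ∈ A := hmem _ (Or.inl (Or.inl (by simp)))
    have m3 : G₁ ∈ A := hmem _ (Or.inl (Or.inl (by simp)))
    have m4 : T ∈ A := hmem _ (Or.inl (Or.inl (by simp)))
    have m5 : V ∈ A := hmem _ (Or.inl (Or.inl (by simp)))
    have m6 : G ∈ A := hmem _ (Or.inl (Or.inl (by simp)))
    have m7 : ∀ k, Ω₁ k ∈ A := fun k => hmem _ (Or.inl (Or.inr ⟨k, rfl⟩))
    have m8 : ∀ k, Ω₂ k ∈ A := fun k => hmem _ (Or.inr ⟨k, rfl⟩)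
    obtain ⟨ρ, hn, hc⟩ := hR A ⟨S, hSf, hA⟩
    let TA : A := ⟨T, m4⟩
    let VA : A := ⟨V, m5⟩
    let GA : A := ⟨G, m6⟩
    let ΩA : Fin 2 → A := fun k => ⟨Ω₂ k, m8 k⟩
    have hO : IsOrtho TA VA GA ΩA := IsOrtho.lift h₂
    exact ⟨_, _, _, _, IsOrtho.step h₁ (hO.map ρ) (A : Set B) (Set.range ρ)
      (fun x hx => star_mem hx) (by rintro _ ⟨y, rfl⟩; exact ⟨star y, map_star _ _⟩)
      (by rintro x hx _ ⟨y, rfl⟩; exact (hc y ⟨x, hx⟩).symm)
      m1 m2 m7 m3 ⟨_, rfl⟩ ⟨_, rfl⟩ (fun k => ⟨_, rfl⟩) ⟨_, rfl⟩⟩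

/-- The main theorem for an abstract algebra with copies and no characters. -/
theorem abstract_main (hR : HasCopies B) (hχ : IsEmpty (B →⋆ₐ[ℂ] ℂ)) :
    ∃ t s : B, t * t = 0 ∧ star t * t + t * star t + star s * s = 1 ∧ star t * t * s = s := by
  classical
  letI : PartialOrder B := CStarAlgebra.spectralOrder B
  haveI : StarOrderedRing B := CStarAlgebra.spectralOrderedRing B
  have triv : (0 : B) = 1 → ∃ t s : B, t * t = 0 ∧ star t * t + t * star t + star s * s = 1 ∧
      star t * t * s = s := fun h => ⟨0, 0, by simp, by simpa using h, by simp⟩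
  obtain ⟨m₀, c₀, x₀, hc₀, hx₀⟩ := cert_of_no_char hχ
  rcases m₀ with _ | M₀
  · exact triv (by simpa using hx₀)
  obtain ⟨c₁, m, x₁, hc₁, hx₁⟩ := reduce_labels hR M₀ c₀ hc₀ ⟨M₀ + 1, id, x₀, hx₀⟩
  rcases m with _ | M
  · exact triv (by simpa using hx₁)
  obtain ⟨c₂', x, hc₂', hx, hsm⟩ := scale_cert (fun _ : Fin 1 => c₁) (fun _ : Fin (M + 1) => 0) x₁
    (fun _ => hc₁) hx₁ (by norm_num : (0 : ℝ) < 1 / 2)
  set c := c₂' 0 with hc
  have hcc : c * c = 0 := hc₂' 0
  obtain ⟨ĉ, v, θ, g', w, hd, h1, h2, h3, hθ, hg', h6, h7, h8, h9, -, -⟩ := exists_datum c hcc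
  -- the positive element
  set T₁ : B := ∑ k, star (x k) * (θ * θ) * x k with hT₁
  have hlow : algebraMap ℝ B (1 / 2) ≤ T₁ := by
    have a1 : ∀ k, star (x k) * (star c * c) * x k - star (x k) * x k
        ≤ star (x k) * (θ * θ) * x k := by
      intro k
      have := star_left_conjugate_le_conjugate h9 (x k)
      have e : star (x k) * (star c * c - 1) * x k
          = star (x k) * (star c * c) * x k - star (x k) * x k := by noncomm_ring
      rwa [e] at this
    have a2 : ∀ k, star (x k) * x k ≤ algebraMap ℝ B (‖x k‖ ^ 2) := fun k =>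
      CStarAlgebra.star_mul_le_algebraMap_norm_sq
    have a3 : 1 - ∑ k, star (x k) * x k ≤ T₁ := by
      rw [← hx, ← Finset.sum_sub_distrib]
      exact Finset.sum_le_sum (fun k _ => a1 k)
    have a4 : ∑ k, star (x k) * x k ≤ algebraMap ℝ B (∑ k, ‖x k‖ ^ 2) := by
      rw [map_sum]
      exact Finset.sum_le_sum (fun k _ => a2 k)
    have a5 : algebraMap ℝ B (∑ k, ‖x k‖ ^ 2) ≤ algebraMap ℝ B (1 / 2) :=
      algebraMap_mono B hsm.le
    have a6 : algebraMap ℝ B (1 / 2) = 1 - algebraMap ℝ B (1 / 2) := by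
      rw [eq_sub_iff_add_eq, ← map_add]
      norm_num
    calc algebraMap ℝ B (1 / 2) = 1 - algebraMap ℝ B (1 / 2) := a6
      _ ≤ 1 - ∑ k, star (x k) * x k := sub_le_sub_left (a4.trans a5) _
      _ ≤ T₁ := a3
  have hhalf : IsStrictlyPositive (algebraMap ℝ B (1 / 2)) := by
    refine ⟨?_, ?_⟩
    · exact algebraMap_nonneg B (by norm_num : (0 : ℝ) ≤ 1 / 2)
    · exact IsUnit.map (algebraMap ℝ B) (isUnit_iff_ne_zero.mpr (by norm_num))
  have hT₁p : IsStrictlyPositive T₁ := hhalf.of_le hlow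
  set r : B := T₁ ^ (-(1 / 2) : ℝ) with hr
  have hrs : star r = r := (IsSelfAdjoint.of_nonneg (CFC.rpow_nonneg)).star_eq
  have hrT : r * T₁ * r = 1 := CFC.conjugate_rpow_neg_one_half T₁ hT₁p
  -- the normalised certificate
  set y : Fin (M + 1) → B := fun k => x k * r with hy
  have hcert : ∑ k, star (y k) * (θ * θ) * y k = 1 := by
    rw [← hrT, hT₁, Finset.mul_sum, Finset.sum_mul]
    refine Finset.sum_congr rfl (fun k _ => ?_)
    simp only [hy, star_mul, hrs]
    noncomm_ring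
  -- the base state
  set z : Fin (M + 1) → B := fun k => θ * y k * g' with hz
  have hGz : Gsum z = g' * g' := by
    have e : ∀ k, star (z k) * z k = g' * (star (y k) * (θ * θ) * y k) * g' := by
      intro k
      simp only [hz, star_mul, hθ, hg']
      noncomm_ring
    unfold Gsum
    simp only [e]
    rw [← Finset.sum_mul, ← Finset.mul_sum, hcert, mul_one]
  have hS : IsState ĉ v z := by
    refine ⟨hd, fun k => ?_, ?_, ?_⟩
    · rw [hGz]
      simp only [hz]
      calc g' * g' * (θ * y k * g') = g' * (g' * θ) * (y k * g') := by noncomm_ring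
        _ = 0 := by rw [h6]; simp
    · rw [hGz, h7]
    · rw [hGz, h8]
  obtain ⟨t₁, v₁, z₁, hS₁⟩ := state_down hR M ĉ v z hS
  obtain ⟨G₁, Ω₂, hO₂⟩ := ortho_base hS₁
  obtain ⟨T, V, G, Ω, hO⟩ := ortho_family hR hO₂ M
  -- the final copy
  set S : Set B := {ĉ, v, θ, g', T, V, G} ∪ Set.range y ∪ Set.range Ω with hSd
  have hSf : S.Finite := ((by simp : ({ĉ, v, θ, g', T, V, G} : Set B).Finite).union
    (Set.finite_range _)).union (Set.finite_range _)
  obtain ⟨A, hA⟩ : ∃ A : StarSubalgebra ℂ B, A = StarAlgebra.adjoin ℂ S := ⟨_, rfl⟩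
  have hmem : ∀ s ∈ S, s ∈ A := fun s hs => by
    rw [hA]
    exact StarAlgebra.subset_adjoin ℂ S hs
  have m1 : ĉ ∈ A := hmem _ (Or.inl (Or.inl (by simp)))
  have m2 : v ∈ A := hmem _ (Or.inl (Or.inl (by simp)))
  have m3 : θ ∈ A := hmem _ (Or.inl (Or.inl (by simp)))
  have m4 : g' ∈ A := hmem _ (Or.inl (Or.inl (by simp)))
  have m5 : T ∈ A := hmem _ (Or.inl (Or.inl (by simp)))
  have m6 : V ∈ A := hmem _ (Or.inl (Or.inl (by simp)))
  have m7 : G ∈ A := hmem _ (Or.inl (Or.inl (by simp)))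
  have m8 : ∀ k, y k ∈ A := fun k => hmem _ (Or.inl (Or.inr ⟨k, rfl⟩))
  have m9 : ∀ k, Ω k ∈ A := fun k => hmem _ (Or.inr ⟨k, rfl⟩)
  obtain ⟨ρ, hn, hcm⟩ := hR A ⟨S, hSf, hA⟩
  let TA : A := ⟨T, m5⟩
  let VA : A := ⟨V, m6⟩
  let GA : A := ⟨G, m7⟩
  let ΩA : Fin (M + 1) → A := fun k => ⟨Ω k, m9 k⟩
  have hOA : IsOrtho TA VA GA ΩA := IsOrtho.lift hO
  exact final_algebra hd h1 h2 h3 hθ hg' hcert h7 (hOA.map ρ) (A : Set B) (Set.range ρ)
    (fun x hx => star_mem hx) (by rintro _ ⟨y, rfl⟩; exact ⟨star y, map_star _ _⟩)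
    (by rintro x hx _ ⟨y, rfl⟩; exact (hcm y ⟨x, hx⟩).symm)
    m1 m2 m3 m4 m8 ⟨_, rfl⟩ ⟨_, rfl⟩ ⟨_, rfl⟩ (fun k => ⟨_, rfl⟩)

end Vale.Agent.Lib.P101
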