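import Mathlib

set_option linter.unusedSimpArgs false
set_option linter.unusedVariables false

namespace Vale.Agent.Lib.P101

/-- cut-off: `0` on `(-∞, 1/4]`, `1` on `[1/2, ∞)`. -/
noncomputable def nF (x : ℝ) : ℝ := max 0 (min 1 (4 * x - 1))
/-- `kF x ^ 2 * x⁺ = nF x`. -/
noncomputable def kF (x : ℝ) : ℝ := Real.sqrt (nF x / max x (1 / 8))
/-- phase angle: `0` on `(-∞, 1/8]`, `π` on `[1/4, ∞)`. -/
noncomputable def phF (x : ℝ) : ℝ := Real.pi * max 0 (min 1 (8 * x - 1))
/-- `rF x ^ 2 = 1 - nF |x|`. -/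
noncomputable def rF (x : ℝ) : ℝ := Real.sqrt (1 - nF |x|)
/-- real part of `v`. -/
noncomputable def v1F (x : ℝ) : ℝ := rF x * Real.cos (phF x)
/-- imaginary part of `v`. -/
noncomputable def v2F (x : ℝ) : ℝ := rF x * Real.sin (phF x)
/-- square root of `(x - 1)⁺`. -/
noncomputable def tF (x : ℝ) : ℝ := Real.sqrt (max 0 (x - 1))
/-- square root of a cut-off which is `1` on `|x| ≤ 1/2` and `0` on `|x| ≥ 1`. -/
noncomputable def gF (x : ℝ) : ℝ := Real.sqrt (max 0 (min 1 (2 - 2 * |x|)))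

lemma nF_cont : Continuous nF := by unfold nF; fun_prop
lemma nF_nonneg (x : ℝ) : 0 ≤ nF x := le_max_left _ _
lemma nF_le_one (x : ℝ) : nF x ≤ 1 := max_le zero_le_one (min_le_left _ _)
lemma nF_eq_zero {x : ℝ} (hx : x ≤ 1 / 4) : nF x = 0 := by
  unfold nF
  apply max_eq_left
  apply (min_le_right _ _).trans
  linarith
lemma nF_eq_one {x : ℝ} (hx : 1 / 2 ≤ x) : nF x = 1 := by
  unfold nF
  rw [min_eq_left (by linarith)]
  exact max_eq_right zero_le_one
lemma nF_add_neg (x : ℝ) : nF x + nF (-x) = nF |x| := by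
  rcases le_total 0 x with h | h
  · rw [abs_of_nonneg h, nF_eq_zero (x := -x) (by linarith), add_zero]
  · rw [abs_of_nonpos h, nF_eq_zero (x := x) (by linarith), zero_add]

lemma kF_cont : Continuous kF := by
  unfold kF
  refine Real.continuous_sqrt.comp (nF_cont.div (by fun_prop) (fun x => ?_))
  have : (1 / 8 : ℝ) ≤ max x (1 / 8) := le_max_right _ _
  positivity
lemma kF_eq_zero {x : ℝ} (hx : x ≤ 1 / 4) : kF x = 0 := by
  unfold kF
  rw [nF_eq_zero hx]; simp
lemma kF_sq_mul (x : ℝ) : kF x * kF x * max x 0 = nF x := by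
  unfold kF
  rcases le_or_gt x (1 / 4) with h | h
  · rw [nF_eq_zero h]; simp
  · have hx : 0 < x := by linarith
    rw [max_eq_left (by linarith : (1 / 8 : ℝ) ≤ x), max_eq_left hx.le,
      Real.mul_self_sqrt (div_nonneg (nF_nonneg x) hx.le)]
    field_simp

lemma phF_cont : Continuous phF := by unfold phF; fun_prop
lemma phF_of_le {x : ℝ} (hx : x ≤ 1 / 8) : phF x = 0 := by
  unfold phF
  rw [max_eq_left]
  · simp
  · apply (min_le_right _ _).trans
    linarith
lemma phF_of_ge {x : ℝ} (hx : 1 / 4 ≤ x) : phF x = Real.pi := by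
  unfold phF
  rw [min_eq_left (by linarith), max_eq_right zero_le_one, mul_one]

lemma rF_cont : Continuous rF := by
  unfold rF
  exact Real.continuous_sqrt.comp ((continuous_const).sub (nF_cont.comp continuous_abs))
lemma rF_sq (x : ℝ) : rF x * rF x = 1 - nF |x| := by
  unfold rF
  exact Real.mul_self_sqrt (sub_nonneg.mpr (nF_le_one _))
lemma rF_neg (x : ℝ) : rF (-x) = rF x := by unfold rF; rw [abs_neg]
lemma rF_eq_zero {x : ℝ} (hx : 1 / 2 ≤ |x|) : rF x = 0 := by
  unfold rF
  rw [nF_eq_one hx]; simp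

lemma v1F_cont : Continuous v1F := by
  unfold v1F
  exact rF_cont.mul (Real.continuous_cos.comp phF_cont)
lemma v2F_cont : Continuous v2F := by
  unfold v2F
  exact rF_cont.mul (Real.continuous_sin.comp phF_cont)
lemma v_sq (x : ℝ) : v1F x * v1F x + v2F x * v2F x = 1 - nF |x| := by
  unfold v1F v2F
  have := Real.sin_sq_add_cos_sq (phF x)
  rw [← rF_sq]
  calc rF x * Real.cos (phF x) * (rF x * Real.cos (phF x))
        + rF x * Real.sin (phF x) * (rF x * Real.sin (phF x))
      = rF x * rF x * (Real.sin (phF x) ^ 2 + Real.cos (phF x) ^ 2) := by ring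
    _ = rF x * rF x := by rw [this, mul_one]

lemma kF_v1F_neg (x : ℝ) : v1F (-x) * kF x = -(kF x * v1F x) := by
  rcases le_or_gt x (1 / 4) with h | h
  · rw [kF_eq_zero h]; simp
  · unfold v1F
    rw [rF_neg, phF_of_ge h.le, phF_of_le (by linarith), Real.cos_pi, Real.cos_zero]
    ring
lemma kF_v2F_neg (x : ℝ) : v2F (-x) * kF x = -(kF x * v2F x) := by
  rcases le_or_gt x (1 / 4) with h | h
  · rw [kF_eq_zero h]; simp
  · unfold v2F
    rw [rF_neg, phF_of_ge h.le, phF_of_le (by linarith), Real.sin_pi, Real.sin_zero]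
    ring

lemma tF_cont : Continuous tF := by unfold tF; fun_prop
lemma tF_eq_zero {x : ℝ} (hx : x ≤ 1) : tF x = 0 := by
  unfold tF
  rw [max_eq_left (by linarith)]; simp
lemma tF_sq (x : ℝ) : tF x * tF x = max 0 (x - 1) := by
  unfold tF
  exact Real.mul_self_sqrt (le_max_left _ _)
lemma tF_mul_nF (x : ℝ) : nF x * tF x = tF x := by
  rcases le_or_gt x 1 with h | h
  · rw [tF_eq_zero h]; simp
  · rw [nF_eq_one (by linarith)]; simp
lemma v1F_mul_tF (x : ℝ) : v1F x * tF x = 0 := by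
  rcases le_or_gt x 1 with h | h
  · rw [tF_eq_zero h]; simp
  · unfold v1F
    rw [rF_eq_zero (by rw [abs_of_pos (by linarith)]; linarith)]; simp
lemma v2F_mul_tF (x : ℝ) : v2F x * tF x = 0 := by
  rcases le_or_gt x 1 with h | h
  · rw [tF_eq_zero h]; simp
  · unfold v2F
    rw [rF_eq_zero (by rw [abs_of_pos (by linarith)]; linarith)]; simp

lemma gF_cont : Continuous gF := by unfold gF; fun_prop
lemma gF_eq_zero {x : ℝ} (hx : 1 ≤ |x|) : gF x = 0 := by
  unfold gF
  rw [max_eq_left]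
  · simp
  · apply (min_le_right _ _).trans
    linarith
lemma gF_eq_one {x : ℝ} (hx : |x| ≤ 1 / 2) : gF x = 1 := by
  unfold gF
  rw [min_eq_left (by linarith), max_eq_right zero_le_one, Real.sqrt_one]
lemma gF_mul_tF (x : ℝ) : gF x * tF x = 0 := by
  rcases le_or_gt x 1 with h | h
  · rw [tF_eq_zero h]; simp
  · rw [gF_eq_zero (by rw [abs_of_pos (by linarith)]; linarith)]; simp
lemma gF_sq_mul_v1F (x : ℝ) : gF x * gF x * v1F x = v1F x := by
  rcases le_or_gt (1 / 2) |x| with h | h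
  · unfold v1F
    rw [rF_eq_zero h]; simp
  · rw [gF_eq_one h.le]; simp
lemma gF_sq_mul_v2F (x : ℝ) : gF x * gF x * v2F x = v2F x := by
  rcases le_or_gt (1 / 2) |x| with h | h
  · unfold v2F
    rw [rF_eq_zero h]; simp
  · rw [gF_eq_one h.le]; simp

/-- `x⁺ ≤ 1 + nF |x| * x⁺`. -/
lemma dead_ineq (x : ℝ) : max x 0 ≤ 1 + nF |x| * max x 0 := by
  rcases le_or_gt x 0 with h | h
  · rw [max_eq_right h]; simp
  · rw [max_eq_left h.le, abs_of_pos h]
    rcases le_or_gt (1 / 2) x with h2 | h2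
    · rw [nF_eq_one h2]; linarith
    · have := mul_nonneg (nF_nonneg x) h.le
      linarith
/-- the square root of the defect in `dead_ineq`. -/
noncomputable def wF (x : ℝ) : ℝ := Real.sqrt (1 + nF |x| * max x 0 - max x 0)
lemma wF_cont : Continuous wF := by
  unfold wF
  refine Real.continuous_sqrt.comp ?_
  have := nF_cont
  fun_prop
lemma wF_sq (x : ℝ) : wF x * wF x = 1 + nF |x| * max x 0 - max x 0 := by
  unfold wF
  exact Real.mul_self_sqrt (sub_nonneg.mpr (dead_ineq x))
lemma thr_ineq (x : ℝ) : max x 0 - 1 ≤ max 0 (x - 1) := by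
  rcases le_total x 0 with h | h
  · rw [max_eq_right h]
    have := le_max_left 0 (x - 1)
    linarith
  · rw [max_eq_left h]
    exact le_max_right _ _

end Vale.Agent.Lib.P101
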