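import Mathlib

set_option linter.unusedSimpArgs false
set_option linter.unusedVariables false

namespace Vale.Agent.Lib.P101

open Polynomial

variable {D : Type*} [CStarAlgebra D]

/-- Functional calculus intertwines. -/
theorem cfc_intertwine {x y c : D} (hx : IsSelfAdjoint x) (hy : IsSelfAdjoint y)
    (h : x * c = c * y) (f : ℝ → ℝ) (hf : Continuous f) : cfc f x * c = c * cfc f y := by
  nontriviality D
  have hpoly : ∀ p : ℝ[X], aeval x p * c = c * aeval y p := by
    intro p
    induction p using Polynomial.induction_on' with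
    | add p q hp hq => simp only [map_add, add_mul, mul_add, hp, hq]
    | monomial n a =>
      have hpow : ∀ n : ℕ, x ^ n * c = c * y ^ n := by
        intro n
        induction n with
        | zero => simp
        | succ n ih =>
          rw [pow_succ, mul_assoc, h, ← mul_assoc, ih, mul_assoc, pow_succ]
      simp only [aeval_monomial]
      rw [mul_assoc, hpow, ← mul_assoc, ← mul_assoc, (Algebra.commutes a c).symm]
  set L : ℝ := max ‖x‖ ‖y‖ with hL
  have hsx : ∀ r ∈ spectrum ℝ x, r ∈ Set.Icc (-L) L := by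
    intro r hr
    have : ‖r‖ ≤ ‖x‖ := by
      exact spectrum.norm_le_norm_of_mem hr
    have h2 : |r| ≤ L := (by simpa using this : |r| ≤ ‖x‖).trans (le_max_left _ _)
    exact abs_le.mp h2
  have hsy : ∀ r ∈ spectrum ℝ y, r ∈ Set.Icc (-L) L := by
    intro r hr
    have : ‖r‖ ≤ ‖y‖ := by
      exact spectrum.norm_le_norm_of_mem hr
    have h2 : |r| ≤ L := (by simpa using this : |r| ≤ ‖y‖).trans (le_max_right _ _)
    exact abs_le.mp h2
  have happrox : ∀ ε > 0, ∃ p : ℝ[X], ‖cfc f x - aeval x p‖ ≤ ε ∧ ‖cfc f y - aeval y p‖ ≤ ε := by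
    intro ε hε
    obtain ⟨p, hp⟩ := exists_polynomial_near_of_continuousOn (-L) L f hf.continuousOn ε hε
    refine ⟨p, ?_, ?_⟩
    · rw [← cfc_polynomial p x hx, ← cfc_sub f (fun t => p.eval t) x]
      refine norm_cfc_le hε.le (fun t ht => ?_)
      have := hp t (hsx t ht)
      rw [Real.norm_eq_abs, abs_sub_comm]
      exact this.le
    · rw [← cfc_polynomial p y hy, ← cfc_sub f (fun t => p.eval t) y]
      refine norm_cfc_le hε.le (fun t ht => ?_)
      have := hp t (hsy t ht)
      rw [Real.norm_eq_abs, abs_sub_comm]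
      exact this.le
  rw [← sub_eq_zero, ← norm_le_zero_iff]
  refine le_of_forall_pos_le_add (fun ε hε => ?_)
  set δ : ℝ := ε / (2 * (‖c‖ + 1)) with hδ
  have hc1 : 0 < ‖c‖ + 1 := by positivity
  have hδpos : 0 < δ := by positivity
  obtain ⟨p, hp1, hp2⟩ := happrox δ hδpos
  have : cfc f x * c - c * cfc f y
      = (cfc f x - aeval x p) * c - c * (cfc f y - aeval y p) := by
    have := hpoly p
    simp only [sub_mul, mul_sub, this]
    abel
  rw [this]
  calc ‖(cfc f x - aeval x p) * c - c * (cfc f y - aeval y p)‖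
      ≤ ‖(cfc f x - aeval x p) * c‖ + ‖c * (cfc f y - aeval y p)‖ := norm_sub_le _ _
    _ ≤ ‖cfc f x - aeval x p‖ * ‖c‖ + ‖c‖ * ‖cfc f y - aeval y p‖ :=
        add_le_add (norm_mul_le _ _) (norm_mul_le _ _)
    _ ≤ δ * ‖c‖ + ‖c‖ * δ := by gcongr
    _ = δ * (2 * ‖c‖) := by ring
    _ ≤ δ * (2 * (‖c‖ + 1)) := by gcongr; linarith
    _ = ε := by rw [hδ]; field_simp
    _ ≤ 0 + ε := by linarith

end Vale.Agent.Lib.P101
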