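import Vale.Agent.Lib.P101.Algebra
import Vale.Agent.Lib.P101.Intertwine
import Vale.Agent.Lib.P101.Funcs

set_option linter.unusedSimpArgs false
set_option linter.unusedVariables false
set_option linter.unusedSectionVars false

namespace Vale.Agent.Lib.P101

variable {D : Type*} [CStarAlgebra D] [PartialOrder D] [StarOrderedRing D]

lemma cfc_mul_cont {a : D} (ha : IsSelfAdjoint a) {f g : ℝ → ℝ} (hf : Continuous f)
    (hg : Continuous g) : cfc f a * cfc g a = cfc (fun x => f x * g x) a :=
  (cfc_mul f g a hf.continuousOn hg.continuousOn).symm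

lemma cfc_add_cont (a : D) {f g : ℝ → ℝ} (hf : Continuous f)
    (hg : Continuous g) : cfc (fun x => f x + g x) a = cfc f a + cfc g a :=
  cfc_add a f g hf.continuousOn hg.continuousOn

lemma cfc_sub_cont (a : D) {f g : ℝ → ℝ} (hf : Continuous f)
    (hg : Continuous g) : cfc (fun x => f x - g x) a = cfc f a - cfc g a :=
  cfc_sub f g a hf.continuousOn hg.continuousOn

lemma cfc_sa (f : ℝ → ℝ) (a : D) : star (cfc f a) = cfc f a :=
  (cfc_predicate f a : IsSelfAdjoint (cfc f a)).star_eq

/-- The CFC construction of a datum out of a square-zero element. -/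
theorem exists_datum (c : D) (hc : c * c = 0) : ∃ ĉ v θ g' w : D,
    IsDatum ĉ v ∧ star ĉ * ĉ * θ = θ ∧ v * θ = 0 ∧ star v * θ = 0 ∧ star θ = θ ∧ star g' = g' ∧
    g' * θ = 0 ∧ g' * g' * v = v ∧ v * (g' * g') = v ∧
    star c * c - 1 ≤ θ * θ ∧
    star w = w ∧ star c * c + w * w = 1 + (star ĉ * ĉ + ĉ * star ĉ) * (star c * c) := by
  set a : D := star c * c - c * star c with ha
  have hsa : IsSelfAdjoint a := by
    rw [IsSelfAdjoint, ha]
    simp [star_sub, star_mul]
  have hnsa : IsSelfAdjoint (-a) := hsa.neg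
  have hP0 : 0 ≤ star c * c := star_mul_self_nonneg c
  have hM0 : 0 ≤ c * star c := mul_star_self_nonneg c
  have hPM : star c * c * (c * star c) = 0 := by
    rw [mul_assoc, ← mul_assoc c c, hc]; simp
  obtain ⟨hp, hm⟩ := CFC.posPart_negPart_unique (a := a) rfl hPM hP0 hM0
  have hmaxc : Continuous (fun x : ℝ => max x 0) := by fun_prop
  have hmaxn : Continuous (fun x : ℝ => max (-x) 0) := by fun_prop
  have hP : cfc (fun x : ℝ => max x 0) a = star c * c := by
    rw [← hp, CFC.posPart_def]
    have : cfcₙ (fun x : ℝ => x⁺) a = cfc (fun x : ℝ => x⁺) a :=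
      cfcₙ_eq_cfc (hf := by
        have : Continuous (fun x : ℝ => x⁺) := hmaxc
        exact this.continuousOn) (hf0 := by simp)
    rw [this]
    rfl
  have hM : cfc (fun x : ℝ => max (-x) 0) a = c * star c := by
    rw [← hm, CFC.negPart_def]
    have : cfcₙ (fun x : ℝ => x⁻) a = cfc (fun x : ℝ => x⁻) a :=
      cfcₙ_eq_cfc (hf := by
        have : Continuous (fun x : ℝ => x⁻) := hmaxn
        exact this.continuousOn) (hf0 := by simp)
    rw [this]
    rfl
  have hac : a * c = c * (-a) := by
    have h1 : star c * c * c = 0 := by rw [mul_assoc, hc, mul_zero]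
    have h2 : c * (c * star c) = 0 := by rw [← mul_assoc, hc, zero_mul]
    rw [ha, sub_mul, mul_neg, mul_sub, h1, h2, sub_zero, zero_sub, mul_assoc]
  have hac' : (-a) * c = c * a := by
    rw [neg_mul, hac, mul_neg, neg_neg]
  have has : a * star c = star c * (-a) := by
    have := congrArg star hac'
    simp only [star_mul, star_neg, hsa.star_eq] at this
    exact this.symm
  have has' : (-a) * star c = star c * a := by
    rw [neg_mul, has, mul_neg, neg_neg]
  have negfun : ∀ f : ℝ → ℝ, Continuous f → cfc f (-a) = cfc (fun x => f (-x)) a := by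
    intro f hf
    exact (cfc_comp_neg f a (hf.continuousOn) hsa).symm
  have L1 : ∀ f : ℝ → ℝ, Continuous f → cfc f a * c = c * cfc (fun x => f (-x)) a := by
    intro f hf
    rw [← negfun f hf]
    exact cfc_intertwine hsa hnsa hac f hf
  have L2 : ∀ f : ℝ → ℝ, Continuous f → c * cfc f a = cfc (fun x => f (-x)) a * c := by
    intro f hf
    rw [← negfun f hf]
    exact (cfc_intertwine hnsa hsa hac' f hf).symm
  have L3 : ∀ f : ℝ → ℝ, Continuous f → star c * cfc f a = cfc (fun x => f (-x)) a * star c := by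
    intro f hf
    rw [← negfun f hf]
    exact (cfc_intertwine hnsa hsa has' f hf).symm
  -- the functional calculus elements
  have M : ∀ {f g : ℝ → ℝ}, Continuous f → Continuous g →
      cfc f a * cfc g a = cfc (fun x => f x * g x) a := fun hf hg => cfc_mul_cont hsa hf hg
  have E : ∀ {f g : ℝ → ℝ}, (∀ x, f x = g x) → cfc f a = cfc g a := fun h => by
    rw [funext h]
  have CM : ∀ {f g : ℝ → ℝ}, Continuous f → Continuous g → Continuous (fun x => f x * g x) :=
    fun hf hg => hf.mul hg
  have kc : Continuous kF := kF_cont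
  have knc : Continuous (fun x => kF (-x)) := kF_cont.comp continuous_neg
  have v1c : Continuous v1F := v1F_cont
  have v2c : Continuous v2F := v2F_cont
  have v1nc : Continuous (fun x => v1F (-x)) := v1F_cont.comp continuous_neg
  have v2nc : Continuous (fun x => v2F (-x)) := v2F_cont.comp continuous_neg
  have tc : Continuous tF := tF_cont
  have gc : Continuous gF := gF_cont
  have wc : Continuous wF := wF_cont
  have nc : Continuous nF := nF_cont
  have nnc : Continuous (fun x => nF (-x)) := nF_cont.comp continuous_neg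
  have nac : Continuous (fun x => nF |x|) := nF_cont.comp continuous_abs
  set K := cfc kF a with hK
  set V₁ := cfc v1F a with hV₁
  set V₂ := cfc v2F a with hV₂
  set T := cfc tF a with hT
  set Gp := cfc gF a with hGp
  set W := cfc wF a with hW
  have sK : star K = K := cfc_sa _ _
  have sV₁ : star V₁ = V₁ := cfc_sa _ _
  have sV₂ : star V₂ = V₂ := cfc_sa _ _
  have sT : star T = T := cfc_sa _ _
  have sGp : star Gp = Gp := cfc_sa _ _
  have sW : star W = W := cfc_sa _ _
  set v : D := V₁ + Complex.I • V₂ with hv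
  have hsv : star v = V₁ - Complex.I • V₂ := by
    rw [hv, star_add, star_smul, sV₁, sV₂, Complex.star_def, Complex.conj_I, neg_smul, sub_eq_add_neg]
  -- the number element
  have hn1 : star (c * K) * (c * K) = cfc nF a := by
    rw [star_mul, sK]
    calc K * star c * (c * K) = K * (star c * c) * K := by noncomm_ring
      _ = cfc (fun x => kF x * max x 0 * kF x) a := by
          rw [← hP, M kc hmaxc, M (CM kc hmaxc) kc]
      _ = cfc nF a := E (fun x => by rw [← kF_sq_mul x]; ring)
  have hn2 : (c * K) * star (c * K) = cfc (fun x => nF (-x)) a := by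
    rw [star_mul, sK]
    calc c * K * (K * star c) = (c * (K * K)) * star c := by noncomm_ring
      _ = (c * cfc (fun x => kF x * kF x) a) * star c := by rw [M kc kc]
      _ = cfc (fun x => kF (-x) * kF (-x)) a * (c * star c) := by
          rw [L2 _ (CM kc kc), mul_assoc]
      _ = cfc (fun x => kF (-x) * kF (-x) * max (-x) 0) a := by
          rw [← hM, M (CM knc knc) hmaxn]
      _ = cfc (fun x => nF (-x)) a := E (fun x => by rw [kF_sq_mul])
  have hn : star (c * K) * (c * K) + (c * K) * star (c * K) = cfc (fun x => nF |x|) a := by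
    rw [hn1, hn2, ← cfc_add_cont a nc nnc]
    exact E nF_add_neg
  have hcomm : V₁ * V₂ = V₂ * V₁ := cfc_commute_cfc _ _ _
  have hJ : V₁ * (Complex.I • V₂) = (Complex.I • V₂) * V₁ := by
    rw [mul_smul_comm, smul_mul_assoc, hcomm]
  have hJJ : (Complex.I • V₂) * (Complex.I • V₂) = -(V₂ * V₂) := by
    rw [smul_mul_smul_comm, Complex.I_mul_I, neg_smul, one_smul]
  have e1 : (V₁ - Complex.I • V₂) * (V₁ + Complex.I • V₂) = V₁ * V₁ + V₂ * V₂ := by
    have exp1 : ∀ J : D, (V₁ - J) * (V₁ + J) = V₁ * V₁ + (V₁ * J - J * V₁) - J * J :=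
      fun J => by noncomm_ring
    rw [exp1, hJ, hJJ]; abel
  have e2 : (V₁ + Complex.I • V₂) * (V₁ - Complex.I • V₂) = V₁ * V₁ + V₂ * V₂ := by
    have exp1 : ∀ J : D, (V₁ + J) * (V₁ - J) = V₁ * V₁ - (V₁ * J - J * V₁) - J * J :=
      fun J => by noncomm_ring
    rw [exp1, hJ, hJJ]; abel
  have e3 : V₁ * V₁ + V₂ * V₂ = 1 - cfc (fun x => nF |x|) a := by
    rw [M v1c v1c, M v2c v2c, ← cfc_add_cont a (CM v1c v1c) (CM v2c v2c),
      E v_sq, cfc_sub_cont a continuous_const nac, cfc_const_one ℝ a hsa]
  have hvv : star v * v = 1 - (star (c * K) * (c * K) + (c * K) * star (c * K)) := by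
    rw [hn, hsv, hv, e1, e3]
  have hvv' : v * star v = 1 - (star (c * K) * (c * K) + (c * K) * star (c * K)) := by
    rw [hn, hsv, hv, e2, e3]
  -- anticommutation
  have hd : IsDatum (c * K) v := by
    refine ⟨?_, ?_, ?_, hvv, hvv'⟩
    · calc c * K * (c * K) = c * (K * c) * K := by noncomm_ring
        _ = c * (c * cfc (fun x => kF (-x)) a) * K := by rw [L1 _ kc]
        _ = (c * c) * (cfc (fun x => kF (-x)) a * K) := by noncomm_ring
        _ = 0 := by rw [hc, zero_mul]
    · have a1 : v * (c * K) = c * (cfc (fun x => v1F (-x)) a * K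
          + Complex.I • (cfc (fun x => v2F (-x)) a * K)) := by
        rw [hv, add_mul, smul_mul_assoc, ← mul_assoc, L1 _ v1c, ← mul_assoc V₂, L1 _ v2c]
        simp only [mul_add, mul_smul_comm, mul_assoc]
      have a2 : cfc (fun x => v1F (-x)) a * K = -(K * V₁) := by
        rw [M v1nc kc, M kc v1c, ← cfc_neg, E kF_v1F_neg]
      have a3 : cfc (fun x => v2F (-x)) a * K = -(K * V₂) := by
        rw [M v2nc kc, M kc v2c, ← cfc_neg, E kF_v2F_neg]
      rw [a1, a2, a3, hv]
      simp only [mul_add, mul_neg, mul_smul_comm, smul_neg, mul_assoc]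
      abel
    · have a1 : star (c * K) * v = (K * cfc (fun x => v1F (-x)) a
          + Complex.I • (K * cfc (fun x => v2F (-x)) a)) * star c := by
        rw [star_mul, sK, hv, mul_add, mul_smul_comm, mul_assoc, L3 _ v1c, mul_assoc, L3 _ v2c]
        simp only [add_mul, smul_mul_assoc, mul_assoc]
      have a2 : K * cfc (fun x => v1F (-x)) a = -(V₁ * K) := by
        rw [M kc v1nc, M v1c kc, ← cfc_neg]
        exact E (fun x => by
          have := kF_v1F_neg x
          linear_combination this)
      have a3 : K * cfc (fun x => v2F (-x)) a = -(V₂ * K) := by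
        rw [M kc v2nc, M v2c kc, ← cfc_neg]
        exact E (fun x => by
          have := kF_v2F_neg x
          linear_combination this)
      rw [a1, a2, a3, star_mul, sK, hv]
      simp only [add_mul, neg_mul, smul_neg, smul_mul_assoc, mul_assoc]
      abel
  -- relations with θ and g
  have h1 : star (c * K) * (c * K) * T = T := by
    rw [hn1, M nc tc]
    exact E tF_mul_nF
  have hV1T : V₁ * T = 0 := by
    rw [M v1c tc, E v1F_mul_tF]
    exact cfc_const_zero ℝ a
  have hV2T : V₂ * T = 0 := by
    rw [M v2c tc, E v2F_mul_tF]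
    exact cfc_const_zero ℝ a
  have h2 : v * T = 0 := by
    rw [hv, add_mul, smul_mul_assoc, hV1T, hV2T]; simp
  have h3 : star v * T = 0 := by
    rw [hsv, sub_mul, smul_mul_assoc, hV1T, hV2T]; simp
  have h4 : Gp * T = 0 := by
    rw [M gc tc, E gF_mul_tF]
    exact cfc_const_zero ℝ a
  have hgV1 : Gp * Gp * V₁ = V₁ := by
    rw [M gc gc, M (CM gc gc) v1c]
    exact E gF_sq_mul_v1F
  have hgV2 : Gp * Gp * V₂ = V₂ := by
    rw [M gc gc, M (CM gc gc) v2c]
    exact E gF_sq_mul_v2F
  have h5 : Gp * Gp * v = v := by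
    rw [hv, mul_add, mul_smul_comm, hgV1, hgV2]
  have h6 : v * (Gp * Gp) = v := by
    have cm1 : V₁ * (Gp * Gp) = Gp * Gp * V₁ := by
      rw [M gc gc]; exact cfc_commute_cfc _ _ _
    have cm2 : V₂ * (Gp * Gp) = Gp * Gp * V₂ := by
      rw [M gc gc]; exact cfc_commute_cfc _ _ _
    rw [hv, add_mul, smul_mul_assoc, cm1, cm2, hgV1, hgV2]
  have h7 : star c * c - 1 ≤ T * T := by
    rw [← hP, M tc tc]
    rw [← cfc_const_one ℝ a hsa, ← cfc_sub_cont a hmaxc continuous_const]
    refine cfc_mono (fun x _ => ?_) (hmaxc.sub continuous_const).continuousOn (CM tc tc).continuousOn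
    rw [tF_sq]
    exact thr_ineq x
  have h8 : star c * c + W * W = 1 + (star (c * K) * (c * K) + (c * K) * star (c * K)) * (star c * c) := by
    rw [hn, ← hP, M wc wc, M nac hmaxc, ← cfc_add_cont a hmaxc (CM wc wc),
      ← cfc_const_one ℝ a hsa, ← cfc_add_cont a continuous_const (CM nac hmaxc)]
    exact E (fun x => by rw [wF_sq]; ring)
  exact ⟨c * K, v, T, Gp, W, hd, h1, h2, h3, sT, sGp, h4, h5, h6, h7, sW, h8⟩

end Vale.Agent.Lib.P101
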