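import Vale.Agent.Lib.P101.PrimeRep

set_option linter.unusedSimpArgs false
set_option linter.unusedVariables false
set_option linter.unusedSectionVars false
set_option linter.style.haveILetI false

open scoped CStarAlgebra ComplexStarModule

namespace Vale.Agent.Lib.P101

universe u

variable {B : Type u} [CStarAlgebra B]

/-- A prime representation killing all square-zero elements has scalar values on self-adjoints. -/
theorem scalar_of_prime {Q : Type*} [CStarAlgebra Q] [Nontrivial Q] (π : B →⋆ₐ[ℂ] Q)
    (hπ : IsPrimeRep π) (hk : ∀ c : B, c * c = 0 → π c = 0) {a : B} (ha : IsSelfAdjoint a) :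
    ∃ r : ℝ, π a = algebraMap ℝ Q r := by
  have hy : IsSelfAdjoint (π a) := ha.map π
  have key : ∀ l : ℝ, (∀ t ∈ spectrum ℝ (π a), t ≤ l) ∨ (∀ t ∈ spectrum ℝ (π a), l ≤ t) := by
    intro l
    have hf : Continuous (fun t : ℝ => max (t - l) 0) := by fun_prop
    have hg : Continuous (fun t : ℝ => max (l - t) 0) := by fun_prop
    set P : B := cfc (fun t : ℝ => max (t - l) 0) a with hP
    set M : B := cfc (fun t : ℝ => max (l - t) 0) a with hM
    have hMP : M * P = 0 := by
      rw [hP, hM, ← cfc_mul _ _ a hg.continuousOn hf.continuousOn]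
      have : (fun t : ℝ => max (l - t) 0 * max (t - l) 0) = fun _ => 0 := by
        funext t
        rcases le_total t l with h | h
        · rw [max_eq_right (by linarith : t - l ≤ 0)]; simp
        · rw [max_eq_right (by linarith : l - t ≤ 0)]; simp
      rw [this]
      exact cfc_const_zero ℝ a
    have hz : ∀ z, π (P * z * M) = 0 := by
      intro z
      apply hk
      calc P * z * M * (P * z * M) = P * z * (M * P) * (z * M) := by noncomm_ring
        _ = 0 := by rw [hMP]; simp
    have e1 : π P = cfc (fun t : ℝ => max (t - l) 0) (π a) :=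
      StarAlgHom.map_cfc π _ a hf.continuousOn (map_continuous π) ha hy
    have e2 : π M = cfc (fun t : ℝ => max (l - t) 0) (π a) :=
      StarAlgHom.map_cfc π _ a hg.continuousOn (map_continuous π) ha hy
    rcases hπ P M hz with h | h
    · left
      intro t ht
      rw [e1, ← cfc_zero ℝ (π a)] at h
      have := (cfc_eq_cfc_iff_eqOn (R := ℝ) (a := π a) (f := fun t : ℝ => max (t - l) 0)
        (g := (0 : ℝ → ℝ)) hy hf.continuousOn continuousOn_const).mp h ht
      have h2 : max (t - l) 0 = 0 := by simpa using this
      have h3 := le_max_left (t - l) 0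
      linarith
    · right
      intro t ht
      rw [e2, ← cfc_zero ℝ (π a)] at h
      have := (cfc_eq_cfc_iff_eqOn (R := ℝ) (a := π a) (f := fun t : ℝ => max (l - t) 0)
        (g := (0 : ℝ → ℝ)) hy hg.continuousOn continuousOn_const).mp h ht
      have h2 : max (l - t) 0 = 0 := by simpa using this
      have h3 := le_max_left (l - t) 0
      linarith
  obtain ⟨r, hr⟩ : (spectrum ℝ (π a)).Nonempty :=
    ContinuousFunctionalCalculus.spectrum_nonempty (p := IsSelfAdjoint) (π a) hy
  refine ⟨r, CFC.eq_algebraMap_of_spectrum_subset_singleton (π a) r (fun s hs => ?_) hy⟩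
  by_contra hne
  have hne' : s ≠ r := hne
  rcases lt_or_gt_of_ne hne' with hlt | hlt
  · rcases key ((r + s) / 2) with h | h
    · have := h r hr; linarith
    · have := h s hs; linarith
  · rcases key ((r + s) / 2) with h | h
    · have := h s hs; linarith
    · have := h r hr; linarith

/-- A C*-algebra without characters has a certificate by square-zero elements. -/
theorem cert_of_no_char (hχ : IsEmpty (B →⋆ₐ[ℂ] ℂ)) : Cert {c : B | c * c = 0} := by
  rcases cert_or_prime {c : B | c * c = 0} with h | ⟨Q, iQ, π, hQ, hπ, hk⟩
  · exact h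
  exfalso
  haveI := hQ
  have hz : ∀ a : B, ∃ z : ℂ, π a = algebraMap ℂ Q z := by
    intro a
    obtain ⟨r, hr⟩ := scalar_of_prime π hπ hk (ℜ a).2
    obtain ⟨s, hs⟩ := scalar_of_prime π hπ hk (ℑ a).2
    refine ⟨(r : ℂ) + Complex.I * s, ?_⟩
    have e : a = (ℜ a : B) + Complex.I • (ℑ a : B) := (realPart_add_I_smul_imaginaryPart a).symm
    rw [e, map_add, map_smul, hr, hs, map_add, map_mul, Algebra.smul_def]
    simp [IsScalarTower.algebraMap_apply ℝ ℂ Q]
  choose χ hχ' using hz
  have inj : Function.Injective (algebraMap ℂ Q) := (algebraMap ℂ Q).injective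
  refine hχ.false
    { toFun := χ
      map_one' := inj (by rw [← hχ', map_one, map_one])
      map_mul' := fun a b => inj (by rw [← hχ', map_mul, map_mul, ← hχ', ← hχ'])
      map_zero' := inj (by rw [← hχ', map_zero, map_zero])
      map_add' := fun a b => inj (by rw [← hχ', map_add, map_add, ← hχ', ← hχ'])
      commutes' := fun r => inj (by
        rw [← hχ', AlgHomClass.commutes]
        rfl)
      map_star' := fun a => inj (by
        rw [← hχ', map_star, hχ', algebraMap_star_comm]) }

end Vale.Agent.Lib.P101
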