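import Vale.Agent.Lib.P101.Merge
import Vale.Agent.Lib.P101.Datum
import Vale.Agent.Lib.P101.Labels

set_option linter.unusedSimpArgs false
set_option linter.unusedVariables false
set_option linter.unusedSectionVars false
set_option linter.style.haveILetI false

open scoped CStarAlgebra

namespace Vale.Agent.Lib.P101

universe u

/-- A finitely generated star subalgebra. -/
def IsFGS {B : Type u} [CStarAlgebra B] (A : StarSubalgebra ℂ B) : Prop :=
  ∃ S : Set B, S.Finite ∧ A = StarAlgebra.adjoin ℂ S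

/-- Every finitely generated star subalgebra has a contractive unital star homomorphism into the
algebra with image commuting with the subalgebra. -/
def HasCopies (B : Type u) [CStarAlgebra B] : Prop :=
  ∀ A : StarSubalgebra ℂ B, IsFGS A → ∃ ρ : A →⋆ₐ[ℂ] B,
    (∀ x, ‖ρ x‖ ≤ ‖(x : B)‖) ∧ ∀ x y : A, Commute (ρ x) (y : B)

variable {B : Type u} [CStarAlgebra B]

lemma map_mem_adjoin {A A' : StarSubalgebra ℂ B} {S : Set B} (hA : A = StarAlgebra.adjoin ℂ S)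
    (φ : A →⋆ₐ[ℂ] B) (h : ∀ (s : B) (hs : s ∈ A), s ∈ S → φ ⟨s, hs⟩ ∈ A') (x : A) : φ x ∈ A' := by
  subst hA
  obtain ⟨x, hx⟩ := x
  induction hx using StarAlgebra.adjoin_induction with
  | mem x hx => exact h x _ hx
  | algebraMap r =>
    have : (⟨algebraMap ℂ B r, (StarAlgebra.adjoin ℂ S).algebraMap_mem r⟩ : StarAlgebra.adjoin ℂ S)
        = algebraMap ℂ _ r := rfl
    rw [this, AlgHomClass.commutes]
    exact A'.algebraMap_mem r
  | add x y hx hy ihx ihy =>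
    have : (⟨x + y, add_mem hx hy⟩ : StarAlgebra.adjoin ℂ S) = ⟨x, hx⟩ + ⟨y, hy⟩ := rfl
    rw [this, map_add]
    exact add_mem ihx ihy
  | mul x y hx hy ihx ihy =>
    have : (⟨x * y, mul_mem hx hy⟩ : StarAlgebra.adjoin ℂ S) = ⟨x, hx⟩ * ⟨y, hy⟩ := rfl
    rw [this, map_mul]
    exact mul_mem ihx ihy
  | star x hx ih =>
    have : (⟨star x, star_mem hx⟩ : StarAlgebra.adjoin ℂ S) = star ⟨x, hx⟩ := rfl
    rw [this, map_star]
    exact star_mem ih

/-- A further copy commuting with finitely many given copies. -/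
theorem next_copy (hR : HasCopies B) (A : StarSubalgebra ℂ B) (hA : IsFGS A)
    (Φ : Set (A →⋆ₐ[ℂ] B)) (hΦ : Φ.Finite) :
    ∃ ρ : A →⋆ₐ[ℂ] B, (∀ x, ‖ρ x‖ ≤ ‖(x : B)‖) ∧
      (∀ x y : A, Commute (ρ x) (y : B)) ∧
      ∀ φ ∈ Φ, ∀ x y, Commute (ρ x) (φ y) := by
  classical
  obtain ⟨S, hS, hAS⟩ := hA
  set S₀ : Set A := {x | (x : B) ∈ S} with hS₀
  have hS₀f : S₀.Finite := hS.preimage (Subtype.val_injective.injOn)
  set S' : Set B := S ∪ ⋃ φ ∈ Φ, φ '' S₀ with hS'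
  have hS'f : S'.Finite := hS.union (hΦ.biUnion (fun φ _ => hS₀f.image _))
  obtain ⟨A', hA'⟩ : ∃ A' : StarSubalgebra ℂ B, A' = StarAlgebra.adjoin ℂ S' := ⟨_, rfl⟩
  obtain ⟨ρ', hn, hc⟩ := hR A' ⟨S', hS'f, hA'⟩
  have hle : A ≤ A' := by
    rw [hAS, hA']
    exact StarAlgebra.adjoin_mono Set.subset_union_left
  let ι : A →⋆ₐ[ℂ] A' := StarSubalgebra.inclusion hle
  have hι : ∀ x, ((ι x : A') : B) = (x : B) := fun x => rfl
  refine ⟨ρ'.comp ι, fun x => ?_, fun x y => ?_, fun φ hφ x y => ?_⟩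
  · exact hn (ι x)
  · exact hc (ι x) (ι y)
  have hmem : φ y ∈ A' := by
    refine map_mem_adjoin hAS φ (fun s hs hsS => ?_) y
    rw [hA']
    refine StarAlgebra.subset_adjoin ℂ S' (Or.inr ?_)
    simp only [Set.mem_iUnion]
    exact ⟨φ, hφ, ⟨s, hs⟩, hsS, rfl⟩
  exact hc (ι x) ⟨φ y, hmem⟩

/-- Three mutually commuting copies. -/
theorem exists_three (hR : HasCopies B) (A : StarSubalgebra ℂ B) (hA : IsFGS A) :
    ∃ ρ : Fin 3 → A →⋆ₐ[ℂ] B, (∀ i x, ‖ρ i x‖ ≤ ‖(x : B)‖) ∧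
      ∀ i j, i ≠ j → ∀ x y, Commute (ρ i x) (ρ j y) := by
  obtain ⟨ρ₀, n0, -⟩ := hR A hA
  have fin3 : ∀ i : Fin 3, i = 0 ∨ i = 1 ∨ i = 2 := by decide
  obtain ⟨ρ₁, n1, -, c1⟩ := next_copy hR A hA {ρ₀} (Set.finite_singleton _)
  obtain ⟨ρ₂, n2, -, c2⟩ := next_copy hR A hA {ρ₀, ρ₁} (by simp)
  have c10 : ∀ x y, Commute (ρ₁ x) (ρ₀ y) := c1 ρ₀ rfl
  have c20 : ∀ x y, Commute (ρ₂ x) (ρ₀ y) := c2 ρ₀ (by simp)
  have c21 : ∀ x y, Commute (ρ₂ x) (ρ₁ y) := c2 ρ₁ (by simp)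
  refine ⟨![ρ₀, ρ₁, ρ₂], ?_, ?_⟩
  · intro i x
    rcases fin3 i with rfl | rfl | rfl
    · exact n0 x
    · exact n1 x
    · exact n2 x
  · intro i j hij x y
    rcases fin3 i with rfl | rfl | rfl <;>
    rcases fin3 j with rfl | rfl | rfl <;>
    first
    | exact absurd rfl hij
    | exact (c10 _ _).symm
    | exact (c20 _ _).symm
    | exact (c21 _ _).symm
    | exact c10 _ _
    | exact c20 _ _
    | exact c21 _ _

/-- A certificate with labels. -/
def CertF {N : ℕ} (c : Fin N → B) : Prop :=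
  ∃ (m : ℕ) (lab : Fin m → Fin N) (x : Fin m → B),
    ∑ k, star (x k) * (star (c (lab k)) * c (lab k)) * x k = 1

/-- Rescaling a certificate. -/
lemma scale_cert {N m : ℕ} (c : Fin N → B) (lab : Fin m → Fin N) (x : Fin m → B)
    (hc : ∀ j, c j * c j = 0)
    (hx : ∑ k, star (x k) * (star (c (lab k)) * c (lab k)) * x k = 1) {ε : ℝ} (hε : 0 < ε) :
    ∃ (c₁ : Fin N → B) (x₁ : Fin m → B), (∀ j, c₁ j * c₁ j = 0) ∧
      ∑ k, star (x₁ k) * (star (c₁ (lab k)) * c₁ (lab k)) * x₁ k = 1 ∧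
      ∑ k, ‖x₁ k‖ ^ 2 < ε := by
  set A : ℝ := ∑ k, ‖x k‖ ^ 2 with hA
  have hA0 : 0 ≤ A := Finset.sum_nonneg (fun k _ => by positivity)
  set K : ℝ := (A + 1) / ε + 1 with hK
  have hK1 : 1 ≤ K := by
    have : 0 ≤ (A + 1) / ε := by positivity
    linarith
  have hK0 : 0 < K := by linarith
  refine ⟨fun j => K • c j, fun k => K⁻¹ • x k, ?_, ?_, ?_⟩
  · intro j
    simp only [smul_mul_assoc, mul_smul_comm, hc, smul_zero]
  · have e : ∀ k, star (K⁻¹ • x k) * (star (K • c (lab k)) * (K • c (lab k))) * (K⁻¹ • x k)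
        = star (x k) * (star (c (lab k)) * c (lab k)) * x k := by
      intro k
      simp only [star_smul, star_trivial, smul_mul_assoc, mul_smul_comm, smul_smul]
      have : K⁻¹ * (K * K * K⁻¹) = 1 := by field_simp
      rw [this, one_smul]
    simp only [e]
    exact hx
  · have e : ∀ k, ‖K⁻¹ • x k‖ ^ 2 = (K⁻¹) ^ 2 * ‖x k‖ ^ 2 := by
      intro k
      rw [norm_smul, mul_pow, Real.norm_eq_abs, sq_abs]
    simp only [e]
    rw [← Finset.mul_sum, ← hA]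
    have h1 : (A + 1) / ε ≤ K := by rw [hK]; linarith
    have h2 : K ≤ K ^ 2 := by nlinarith
    have h3 : A < ε * K ^ 2 := by
      have : A + 1 ≤ ε * K := by
        rw [div_le_iff₀ hε] at h1
        linarith
      nlinarith
    rw [inv_pow, inv_mul_lt_iff₀ (by positivity)]
    linarith

/-- Generation in a closed star subalgebra generated by star-closed ranges. -/
lemma gen_closure {T : Type*} [Ring T] [StarRing T] [Algebra ℂ T] (ρ' : Fin 3 → T →⋆ₐ[ℂ] B)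
    (E₀ : StarSubalgebra ℂ B)
    (hE₀ : (E₀ : Set B) = closure (StarAlgebra.adjoin ℂ (⋃ i, Set.range (ρ' i)) : Set B))
    (ρ : Fin 3 → T →⋆ₐ[ℂ] E₀) (hρ : ∀ i x, (ρ i x : B) = ρ' i x) (z : E₀) :
    z ∈ closure (Algebra.adjoin ℂ (⋃ i, Set.range (ρ i)) : Set E₀) := by
  rw [closure_subtype]
  have hz : (z : B) ∈ closure (StarAlgebra.adjoin ℂ (⋃ i, Set.range (ρ' i)) : Set B) := by
    rw [← hE₀]
    exact z.2
  refine closure_mono ?_ hz
  set U : Set B := ⋃ i, Set.range (ρ' i) with hU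
  set U' : Set E₀ := ⋃ i, Set.range (ρ i) with hU'
  have h1 : (StarAlgebra.adjoin ℂ U).toSubalgebra
      ≤ (Algebra.adjoin ℂ U').map (E₀.subtype : E₀ →⋆ₐ[ℂ] B).toAlgHom := by
    rw [StarAlgebra.adjoin_toSubalgebra]
    refine Algebra.adjoin_le (fun w hw => ?_)
    have key : ∀ i x, ρ' i x ∈ (Algebra.adjoin ℂ U').map (E₀.subtype : E₀ →⋆ₐ[ℂ] B).toAlgHom := by
      intro i x
      refine Subalgebra.mem_map.mpr ⟨ρ i x, Algebra.subset_adjoin ?_, hρ i x⟩
      exact Set.mem_iUnion.mpr ⟨i, x, rfl⟩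
    rcases hw with hw | hw
    · obtain ⟨i, x, rfl⟩ := Set.mem_iUnion.mp hw
      exact key i x
    · obtain ⟨i, x, hx⟩ := Set.mem_iUnion.mp (Set.mem_star.mp hw)
      have : w = ρ' i (star x) := by rw [map_star, hx, star_star]
      rw [this]
      exact key i _
  intro w hw
  obtain ⟨y, hy, rfl⟩ := Subalgebra.mem_map.mp (h1 hw)
  exact ⟨y, hy, rfl⟩

/-- The merging step in an algebra with copies: one label fewer. -/
theorem merge_step (hR : HasCopies B) {N : ℕ} (c : Fin (N + 2) → B) (hc : ∀ j, c j * c j = 0)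
    (h : CertF c) : ∃ c' : Fin (N + 1) → B, (∀ j, c' j * c' j = 0) ∧ CertF c' := by
  classical
  obtain ⟨m, lab, x, hx⟩ := h
  letI : PartialOrder B := CStarAlgebra.spectralOrder B
  haveI : StarOrderedRing B := CStarAlgebra.spectralOrderedRing B
  obtain ⟨c₁, x₁, hc₁, hx₁, hsm⟩ := scale_cert c lab x hc hx (one_pos)
  have hdat := fun j => exists_datum (c₁ j) (hc₁ j)
  choose ĉ v θ g' w hd h1 h2 h3 h4 h5 h6 h7 h8 h9 h10 h11 using hdat
  set S : Set B := Set.range c₁ ∪ Set.range ĉ ∪ Set.range v ∪ Set.range w ∪ Set.range x₁ with hS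
  have hSf : S.Finite :=
    (((((Set.finite_range _).union (Set.finite_range _)).union (Set.finite_range _)).union
      (Set.finite_range _)).union (Set.finite_range _))
  obtain ⟨A, hA⟩ : ∃ A : StarSubalgebra ℂ B, A = StarAlgebra.adjoin ℂ S := ⟨_, rfl⟩
  have hmem : ∀ s ∈ S, s ∈ A := fun s hs => by
    rw [hA]
    exact StarAlgebra.subset_adjoin ℂ S hs
  have mc : ∀ j, c₁ j ∈ A := fun j => hmem _ (Or.inl (Or.inl (Or.inl (Or.inl ⟨j, rfl⟩))))
  have mĉ : ∀ j, ĉ j ∈ A := fun j => hmem _ (Or.inl (Or.inl (Or.inl (Or.inr ⟨j, rfl⟩))))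
  have mv : ∀ j, v j ∈ A := fun j => hmem _ (Or.inl (Or.inl (Or.inr ⟨j, rfl⟩)))
  have mw : ∀ j, w j ∈ A := fun j => hmem _ (Or.inl (Or.inr ⟨j, rfl⟩))
  have mx : ∀ k, x₁ k ∈ A := fun k => hmem _ (Or.inr ⟨k, rfl⟩)
  obtain ⟨ρ', hn, hcomm'⟩ := exists_three hR A ⟨S, hSf, hA⟩
  obtain ⟨E₀, hE₀⟩ : ∃ E₀ : StarSubalgebra ℂ B,
      E₀ = (StarAlgebra.adjoin ℂ (⋃ i, Set.range (ρ' i))).topologicalClosure := ⟨_, rfl⟩
  haveI hE₀c : IsClosed (E₀ : Set B) := by
    rw [hE₀]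
    exact StarSubalgebra.isClosed_topologicalClosure _
  have hE₀' : (E₀ : Set B) = closure (StarAlgebra.adjoin ℂ (⋃ i, Set.range (ρ' i)) : Set B) := by
    rw [hE₀]
    rfl
  have hmemE : ∀ i y, ρ' i y ∈ E₀ := fun i y => by
    rw [hE₀]
    exact StarSubalgebra.le_topologicalClosure _
      (StarAlgebra.subset_adjoin ℂ _ (Set.mem_iUnion.mpr ⟨i, y, rfl⟩))
  let ρ : Fin 3 → A →⋆ₐ[ℂ] E₀ := fun i => (ρ' i).codRestrict E₀ (hmemE i)
  have hρ : ∀ i y, (ρ i y : B) = ρ' i y := fun i y => rfl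
  let cA : Fin (N + 2) → A := fun j => ⟨c₁ j, mc j⟩
  let dA : Fin (N + 2) → A := fun j => ⟨ĉ j, mĉ j⟩
  let vA : Fin (N + 2) → A := fun j => ⟨v j, mv j⟩
  let wA : Fin (N + 2) → A := fun j => ⟨w j, mw j⟩
  let xA : Fin m → A := fun k => ⟨x₁ k, mx k⟩
  have hdA : ∀ j, IsDatum (dA j) (vA j) := fun j =>
    { sq := Subtype.ext (hd j).sq
      anti := Subtype.ext (hd j).anti
      anti_star := Subtype.ext (hd j).anti_star
      star_v_v := Subtype.ext (hd j).star_v_v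
      v_star_v := Subtype.ext (hd j).v_star_v }
  have hcomm : ∀ i j, i ≠ j → ∀ a b, Commute (ρ i a) (ρ j b) := fun i j hij a b =>
    Subtype.ext (hcomm' i j hij a b)
  have hcert : ∑ k, star (xA k) * (star (cA (lab k)) * cA (lab k)) * xA k = 1 := by
    apply Subtype.ext
    have : ((∑ k, star (xA k) * (star (cA (lab k)) * cA (lab k)) * xA k : A) : B)
        = ∑ k, star (x₁ k) * (star (c₁ (lab k)) * c₁ (lab k)) * x₁ k :=
      map_sum A.subtype _ _
    rw [this, hx₁]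
    rfl
  have hsmall : ∀ i, ∑ k, ‖ρ i (xA k)‖ ^ 2 < 1 := fun i =>
    lt_of_le_of_lt (Finset.sum_le_sum (fun k _ => by
      have e : ‖ρ i (xA k)‖ = ‖ρ' i (xA k)‖ := rfl
      have := hn i (xA k)
      rw [e]
      gcongr)) hsm
  obtain ⟨c', hc'sq, hcert'⟩ := merge_core ρ hcomm (gen_closure ρ' E₀ hE₀' ρ hρ) cA
    (fun j => Subtype.ext (hc₁ j)) dA vA wA hdA (fun j => Subtype.ext (h10 j))
    (fun j => Subtype.ext (h11 j)) lab xA hcert hsmall
  refine ⟨fun j => (c' j : B), fun j => congrArg Subtype.val (hc'sq j), ?_⟩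
  obtain ⟨m', c'', x'', hc'', hsum⟩ := hcert'
  choose lab' hlab' using hc''
  refine ⟨m', lab', fun k => (x'' k : B), ?_⟩
  have := congrArg E₀.subtype hsum
  simp only [map_sum, map_mul, map_star, map_one] at this
  simp only [hlab']
  exact this

/-- Reducing the number of labels to one. -/
theorem reduce_labels (hR : HasCopies B) : ∀ (N : ℕ) (c : Fin (N + 1) → B),
    (∀ j, c j * c j = 0) → CertF c →
    ∃ (c₀ : B) (m : ℕ) (x : Fin m → B), c₀ * c₀ = 0 ∧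
      ∑ k, star (x k) * (star c₀ * c₀) * x k = 1 := by
  intro N
  induction N with
  | zero =>
    rintro c hc ⟨m, lab, x, hx⟩
    refine ⟨c 0, m, x, hc 0, ?_⟩
    rw [← hx]
    refine Finset.sum_congr rfl (fun k _ => ?_)
    have e : lab k = 0 := Fin.ext (by have := (lab k).2; simp only [Fin.val_zero]; omega)
    rw [e]
  | succ N ih =>
    intro c hc hcert
    obtain ⟨c', hc', hcert'⟩ := merge_step hR c hc hcert
    exact ih c' hc' hcert'

end Vale.Agent.Lib.P101
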