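import Mathlib

open Filter Topology
open scoped BoundedContinuousFunction

namespace Vale.Agent.Lib.P101

universe u

variable (A : Type u) [CStarAlgebra A] (ω : Ultrafilter ℕ)

/-- Two bounded sequences in `A` are related when the norm of their difference tends to zero
along `ω`. -/
def NullRel (a b : ℕ →ᵇ A) : Prop := Tendsto (fun n => ‖a n - b n‖) ω (𝓝 0)

theorem nullRel_equiv : Equivalence (NullRel A ω) where
  refl := fun a => by simp [NullRel]
  symm := fun {a b} h => by simpa [NullRel, norm_sub_rev] using h
  trans := fun {a b c} h₁ h₂ => by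
    refine squeeze_zero (fun _ => norm_nonneg _) (fun n => ?_) (by simpa using h₁.add h₂)
    simpa using norm_sub_le_norm_sub_add_norm_sub (a n) (b n) (c n)

theorem nullRel_add {a b c d : ℕ →ᵇ A} (h₁ : NullRel A ω a b) (h₂ : NullRel A ω c d) :
    NullRel A ω (a + c) (b + d) := by
  refine squeeze_zero (fun _ => norm_nonneg _) (fun n => ?_) (by simpa using h₁.add h₂)
  have e : (a + c) n - (b + d) n = (a n - b n) + (c n - d n) := by
    simp only [BoundedContinuousFunction.coe_add, Pi.add_apply]
    abel
  rw [e]
  exact norm_add_le _ _

theorem nullRel_mul {a b c d : ℕ →ᵇ A} (h₁ : NullRel A ω a b) (h₂ : NullRel A ω c d) :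
    NullRel A ω (a * c) (b * d) := by
  have h₃ : Tendsto (fun n => ‖a‖ * ‖c n - d n‖ + ‖d‖ * ‖a n - b n‖) ω (𝓝 0) := by
    simpa using (h₂.const_mul ‖a‖).add (h₁.const_mul ‖d‖)
  refine squeeze_zero (fun _ => norm_nonneg _) (fun n => ?_) h₃
  have e : (a * c) n - (b * d) n = a n * (c n - d n) + (a n - b n) * d n := by
    simp only [BoundedContinuousFunction.coe_mul, Pi.mul_apply]
    noncomm_ring
  rw [e]
  refine (norm_add_le _ _).trans (add_le_add ?_ ?_)
  · refine (norm_mul_le _ _).trans ?_
    gcongr
    exact a.norm_coe_le_norm n
  · refine (norm_mul_le _ _).trans ?_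
    rw [mul_comm]
    gcongr
    exact d.norm_coe_le_norm n

theorem nullRel_star {a b : ℕ →ᵇ A} (h : NullRel A ω a b) : NullRel A ω (star a) (star b) := by
  have e : ∀ n, ‖(star a) n - (star b) n‖ = ‖a n - b n‖ := fun n => by
    rw [BoundedContinuousFunction.star_apply, BoundedContinuousFunction.star_apply, ← star_sub,
      norm_star]
  simpa only [NullRel, e] using h

/-- The relation `NullRel` as a ring congruence on the ring of bounded sequences. -/
def nullCon : RingCon (ℕ →ᵇ A) where
  r := NullRel A ω
  iseqv := nullRel_equiv A ω
  add' := nullRel_add A ω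
  mul' := nullRel_mul A ω

/-- The algebra `A_ω`: bounded sequences modulo sequences with norm tending to zero along `ω`. -/
abbrev Aω : Type u := (nullCon A ω).Quotient

/-- The involution of `A_ω` induced by the pointwise involution of sequences. -/
noncomputable instance : Star (Aω A ω) where
  star := Quotient.map' star (fun _ _ h => nullRel_star A ω h)

theorem Aω_star_star (x : Aω A ω) : star (star x) = x :=
  Quotient.inductionOn' x fun a => congrArg RingCon.toQuotient (star_star a)

theorem Aω_star_mul (x y : Aω A ω) : star (x * y) = star y * star x :=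
  Quotient.inductionOn₂' x y fun a b => congrArg RingCon.toQuotient (star_mul a b)

theorem Aω_star_add (x y : Aω A ω) : star (x + y) = star x + star y :=
  Quotient.inductionOn₂' x y fun a b => congrArg RingCon.toQuotient (star_add a b)

theorem Aω_star_smul (r : ℂ) (x : Aω A ω) : star (r • x) = star r • star x :=
  Quotient.inductionOn' x fun a => congrArg RingCon.toQuotient (star_smul r a)

noncomputable instance : StarRing (Aω A ω) where
  star_involutive := Aω_star_star A ω
  star_mul := Aω_star_mul A ω
  star_add := Aω_star_add A ω

noncomputable instance : StarModule ℂ (Aω A ω) where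
  star_smul := Aω_star_smul A ω

/-- The central sequence algebra `F_ω(A)`: the commutant in `A_ω` of the constant sequences. -/
noncomputable def Fω : StarSubalgebra ℂ (Aω A ω) :=
  StarSubalgebra.centralizer ℂ
    (Set.range fun a : A => ((BoundedContinuousFunction.const ℕ a : ℕ →ᵇ A) : Aω A ω))

/-- `F_ω(A)` as a type of its own, with the algebra structure it has as a star subalgebra. -/
def FωAlg : Type u := Fω A ω

noncomputable instance : Ring (FωAlg A ω) := (inferInstance : Ring (Fω A ω))

noncomputable instance : StarRing (FωAlg A ω) := (inferInstance : StarRing (Fω A ω))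

noncomputable instance : Algebra ℂ (FωAlg A ω) := (inferInstance : Algebra ℂ (Fω A ω))

end Vale.Agent.Lib.P101
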