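import Mathlib

open scoped Kronecker

namespace Vale.Agent.Lib.P101

/-- The algebra `M_2 ⊗ M_3`, as matrices indexed by pairs. -/
abbrev M6 : Type := Matrix (Fin 2 × Fin 3) (Fin 2 × Fin 3) ℂ

/-- The condition defining the dimension drop algebra `Z_{2,3}` inside `C([0,1], M_2 ⊗ M_3)`:
`f 0` lies in `M_2 ⊗ 1` and `f 1` lies in `1 ⊗ M_3`. -/
def IsDimDrop (f : C(unitInterval, M6)) : Prop :=
  (∃ a : Matrix (Fin 2) (Fin 2) ℂ, f 0 = a ⊗ₖ (1 : Matrix (Fin 3) (Fin 3) ℂ)) ∧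
    ∃ b : Matrix (Fin 3) (Fin 3) ℂ, f 1 = (1 : Matrix (Fin 2) (Fin 2) ℂ) ⊗ₖ b

theorem isDimDrop_mul {f g : C(unitInterval, M6)} (hf : IsDimDrop f) (hg : IsDimDrop g) :
    IsDimDrop (f * g) := by
  obtain ⟨⟨a, ha⟩, ⟨b, hb⟩⟩ := hf
  obtain ⟨⟨c, hc⟩, ⟨d, hd⟩⟩ := hg
  refine ⟨⟨a * c, ?_⟩, ⟨b * d, ?_⟩⟩
  · rw [ContinuousMap.mul_apply, ha, hc, ← Matrix.mul_kronecker_mul, mul_one]
  · rw [ContinuousMap.mul_apply, hb, hd, ← Matrix.mul_kronecker_mul, mul_one]

theorem isDimDrop_add {f g : C(unitInterval, M6)} (hf : IsDimDrop f) (hg : IsDimDrop g) :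
    IsDimDrop (f + g) := by
  obtain ⟨⟨a, ha⟩, ⟨b, hb⟩⟩ := hf
  obtain ⟨⟨c, hc⟩, ⟨d, hd⟩⟩ := hg
  refine ⟨⟨a + c, ?_⟩, ⟨b + d, ?_⟩⟩
  · rw [ContinuousMap.add_apply, ha, hc, Matrix.add_kronecker]
  · rw [ContinuousMap.add_apply, hb, hd, Matrix.kronecker_add]

theorem isDimDrop_algebraMap (r : ℂ) :
    IsDimDrop (algebraMap ℂ C(unitInterval, M6) r) := by
  refine ⟨⟨algebraMap ℂ _ r, ?_⟩, ⟨algebraMap ℂ _ r, ?_⟩⟩
  · change algebraMap ℂ M6 r = _
    rw [Algebra.algebraMap_eq_smul_one, Algebra.algebraMap_eq_smul_one, Matrix.smul_kronecker,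
      Matrix.one_kronecker_one]
  · change algebraMap ℂ M6 r = _
    rw [Algebra.algebraMap_eq_smul_one, Algebra.algebraMap_eq_smul_one, Matrix.kronecker_smul,
      Matrix.one_kronecker_one]

theorem isDimDrop_star {f : C(unitInterval, M6)} (hf : IsDimDrop f) : IsDimDrop (star f) := by
  obtain ⟨⟨a, ha⟩, ⟨b, hb⟩⟩ := hf
  refine ⟨⟨star a, ?_⟩, ⟨star b, ?_⟩⟩
  · rw [ContinuousMap.star_apply, ha, Matrix.star_eq_conjTranspose, Matrix.star_eq_conjTranspose,
      Matrix.conjTranspose_kronecker, Matrix.conjTranspose_one]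
  · rw [ContinuousMap.star_apply, hb, Matrix.star_eq_conjTranspose, Matrix.star_eq_conjTranspose,
      Matrix.conjTranspose_kronecker, Matrix.conjTranspose_one]

/-- The dimension drop algebra `Z_{2,3}`. -/
def Z23 : StarSubalgebra ℂ C(unitInterval, M6) where
  carrier := {f | IsDimDrop f}
  mul_mem' := isDimDrop_mul
  add_mem' := isDimDrop_add
  algebraMap_mem' := isDimDrop_algebraMap
  star_mem' := isDimDrop_star

/-- `Z_{2,3}` as a type of its own, with the algebra structure it has as a star subalgebra. -/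
def Z23Alg : Type := Z23

noncomputable instance : Ring Z23Alg := (inferInstance : Ring Z23)

noncomputable instance : StarRing Z23Alg := (inferInstance : StarRing Z23)

noncomputable instance : Algebra ℂ Z23Alg := (inferInstance : Algebra ℂ Z23)

end Vale.Agent.Lib.P101
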