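import Vale.Agent.Lib.P101.Frame
import Vale.Agent.Lib.P101.DefsZ

set_option linter.unusedSimpArgs false
set_option linter.unusedVariables false
set_option linter.unusedSectionVars false
set_option linter.style.haveILetI false

namespace Vale.Agent.Lib.P101

section Gen

variable {Q : Type*} [CStarAlgebra Q]

/-- The relations of the generators. -/
structure IsGen (t s : Q) : Prop where
  sq : t * t = 0
  sum : star t * t + t * star t + star s * s = 1
  abs : star t * t * s = s

/-- The element that turns out to be central in the algebra generated by `t, s`. -/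
def zEl (t s : Q) : Q := star s * s + s * star s + t * (s * star s) * star t

lemma zEl_sa (t s : Q) : star (zEl t s) = zEl t s := by
  simp only [zEl, star_add, star_mul, star_star, mul_assoc]

namespace IsGen

variable {t s : Q}

lemma sq' (h : IsGen t s) : star t * star t = 0 := by
  have := congrArg star h.sq
  simpa [star_mul] using this

lemma abs' (h : IsGen t s) : star s * (star t * t) = star s := by
  have := congrArg star h.abs
  simpa [star_mul, mul_assoc] using this

lemma ts (h : IsGen t s) : star t * s = 0 := by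
  have h1 : t * star t * s = 0 := by
    calc t * star t * s = t * star t * (star t * t * s) := by rw [h.abs]
      _ = t * (star t * star t) * (t * s) := by noncomm_ring
      _ = 0 := by rw [h.sq']; simp
  have h2 : star (star t * s) * (star t * s) = 0 := by
    calc star (star t * s) * (star t * s) = star s * (t * star t * s) := by
          simp only [star_mul, star_star, mul_assoc]
      _ = 0 := by rw [h1, mul_zero]
  exact CStarRing.star_mul_self_eq_zero_iff _ |>.mp h2

lemma st (h : IsGen t s) : star s * t = 0 := by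
  have := congrArg star h.ts
  simpa [star_mul] using this

lemma Cs (h : IsGen t s) : star s * s * s = 0 := by
  have e : star s * s = 1 - star t * t - t * star t := by
    rw [← h.sum]
    abel
  rw [e, sub_mul, sub_mul, h.abs, mul_assoc t, h.ts, mul_zero]
  simp

lemma ss (h : IsGen t s) : s * s = 0 := by
  have h2 : star (s * s) * (s * s) = 0 := by
    calc star (s * s) * (s * s) = star s * (star s * s * s) := by
          simp only [star_mul, mul_assoc]
      _ = 0 := by rw [h.Cs, mul_zero]
  exact CStarRing.star_mul_self_eq_zero_iff _ |>.mp h2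

lemma ss' (h : IsGen t s) : star s * star s = 0 := by
  have := congrArg star h.ss
  simpa [star_mul] using this

lemma comm_t (h : IsGen t s) : star s * s * t = t * (star s * s) := by
  have e : star s * s = 1 - star t * t - t * star t := by
    rw [← h.sum]
    abel
  rw [e]
  have h1 : (1 - star t * t - t * star t) * t = t - t * star t * t := by
    rw [sub_mul, sub_mul, one_mul, mul_assoc (star t), h.sq, mul_zero, sub_zero]
  have h2 : t * (1 - star t * t - t * star t) = t - t * star t * t := by
    rw [mul_sub, mul_sub, mul_one, ← mul_assoc t t, h.sq, zero_mul, sub_zero, mul_assoc]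
  rw [h1, h2]

lemma comm_t' (h : IsGen t s) : star s * s * star t = star t * (star s * s) := by
  have := congrArg star h.comm_t
  simpa [star_mul, mul_assoc] using this.symm

lemma sts (h : IsGen t s) : s * t * s = 0 := by
  have h1 : star (s * t * s) * (s * t * s) = 0 := by
    calc star (s * t * s) * (s * t * s)
        = star s * star t * (star s * s * t) * s := by
          simp only [star_mul, mul_assoc]
      _ = star s * star t * (t * (star s * s)) * s := by rw [h.comm_t]
      _ = star s * star t * t * (star s * s * s) := by noncomm_ring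
      _ = 0 := by rw [h.Cs, mul_zero]
  exact CStarRing.star_mul_self_eq_zero_iff _ |>.mp h1

lemma sts' (h : IsGen t s) : star s * star t * star s = 0 := by
  have := congrArg star h.sts
  simpa [star_mul, mul_assoc] using this

/-- `zEl` commutes with `t`. -/
lemma z_t (h : IsGen t s) : Commute (zEl t s) t := by
  have a1 : s * star s * t = 0 := by rw [mul_assoc, h.st, mul_zero]
  have a2 : t * (s * star s) * star t * t = t * (s * star s) := by
    calc t * (s * star s) * star t * t = t * s * (star s * (star t * t)) := by noncomm_ring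
      _ = t * (s * star s) := by rw [h.abs']; noncomm_ring
  have a3 : t * (t * (s * star s) * star t) = 0 := by
    rw [← mul_assoc, ← mul_assoc, h.sq]; simp
  change zEl t s * t = t * zEl t s
  unfold zEl
  rw [add_mul, add_mul, mul_add, mul_add, h.comm_t, a1, a2, a3]
  simp

/-- `zEl` commutes with `s`. -/
lemma z_s (h : IsGen t s) : Commute (zEl t s) s := by
  have a1 : t * (s * star s) * star t * s = 0 := by rw [mul_assoc, h.ts, mul_zero]
  have a2 : s * (s * star s) = 0 := by rw [← mul_assoc, h.ss, zero_mul]
  have a3 : s * (t * (s * star s) * star t) = 0 := by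
    calc s * (t * (s * star s) * star t) = s * t * s * (star s * star t) := by noncomm_ring
      _ = 0 := by rw [h.sts, zero_mul]
  change zEl t s * s = s * zEl t s
  unfold zEl
  rw [add_mul, add_mul, mul_add, mul_add, h.Cs, a1, a2, a3]
  simp only [zero_add, add_zero, mul_assoc]

end IsGen

section Fibre

variable {t s : Q} {x : ℝ}

namespace IsGen

lemma s_C (h : IsGen t s) (hz : zEl t s = x • (1 : Q)) : s * (star s * s) = x • s := by
  have h1 : s * zEl t s = s * (star s * s) := by
    unfold zEl
    have a2 : s * (s * star s) = 0 := by rw [← mul_assoc, h.ss, zero_mul]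
    have a3 : s * (t * (s * star s) * star t) = 0 := by
      calc s * (t * (s * star s) * star t) = s * t * s * (star s * star t) := by noncomm_ring
        _ = 0 := by rw [h.sts, zero_mul]
    rw [mul_add, mul_add, a2, a3]
    simp
  rw [← h1, hz]
  simp

lemma C_s' (h : IsGen t s) (hz : zEl t s = x • (1 : Q)) : star s * s * star s = x • star s := by
  have := congrArg star (h.s_C hz)
  simpa [star_mul, mul_assoc, star_smul] using this

lemma CC (h : IsGen t s) (hz : zEl t s = x • (1 : Q)) :
    star s * s * (star s * s) = x • (star s * s) := by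
  rw [← mul_assoc, h.C_s' hz, smul_mul_assoc]

lemma AA (h : IsGen t s) (hz : zEl t s = x • (1 : Q)) :
    s * star s * (s * star s) = x • (s * star s) := by
  rw [← mul_assoc, mul_assoc s, h.s_C hz, smul_mul_assoc]

lemma A_t (h : IsGen t s) : s * star s * t = 0 := by rw [mul_assoc, h.st, mul_zero]

lemma ts_C (h : IsGen t s) : t * (s * star s) * star t
    = zEl t s - star s * s - s * star s := by
  unfold zEl
  abel

/-- The decomposition of `t` in a fibre. -/
lemma t_decomp (h : IsGen t s) (hz : zEl t s = x • (1 : Q)) :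
    x • t = t * (s * star s) + t * (star s * s) := by
  have h1 : t * zEl t s = t * (star s * s) + t * (s * star s) := by
    have a3 : t * (t * (s * star s) * star t) = 0 := by
      rw [← mul_assoc, ← mul_assoc, h.sq]; simp
    unfold zEl
    rw [mul_add, mul_add, a3, add_zero]
  have h2 : t * zEl t s = x • t := by rw [hz]; simp
  rw [← h2, h1, add_comm]

end IsGen

/-- A frame of two partial isometries inside the corner of `e`. -/
structure IsCorner (G : Fin 2 → Q) (e e' : Q) : Prop where
  orth : ∀ k l, star (G k) * G l = if k = l then e' else 0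
  sum : ∑ k, G k * star (G k) = e
  left : ∀ k, e * G k = G k

lemma pi_of_corner {τ e : Q} (h1 : τ * τ = 0) (h2 : star τ * τ + τ * star τ = e) (h4 : τ * e = τ) :
    τ * star τ * τ = τ := by
  have e1 : τ * e = τ * (star τ * τ) := by
    rw [← h2, mul_add, ← mul_assoc τ τ, h1, zero_mul, add_zero]
  rw [← mul_assoc] at e1
  rw [← e1, h4]

lemma corner_of_pi {τ e : Q} (h1 : τ * τ = 0) (h2 : star τ * τ + τ * star τ = e) (h3 : e * τ = τ)
    (h4 : τ * e = τ) : IsCorner (![star τ * τ, τ] : Fin 2 → Q) e (star τ * τ) := by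
  have h1' : star τ * star τ = 0 := by
    have := congrArg star h1
    simpa [star_mul] using this
  have hp := pi_of_corner h1 h2 h4
  have h3' : e * star τ = star τ := by
    have := congrArg star h4
    have hes : star e = e := by
      rw [← h2]
      simp [star_mul]
    simpa [star_mul, hes] using this
  have hpp : star τ * τ * (star τ * τ) = star τ * τ := by
    calc star τ * τ * (star τ * τ) = star τ * (τ * star τ * τ) := by noncomm_ring
      _ = star τ * τ := by rw [hp]
  have fin2 : ∀ i : Fin 2, i = 0 ∨ i = 1 := by decide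
  refine ⟨fun k l => ?_, ?_, fun k => ?_⟩
  · rcases fin2 k with rfl | rfl <;> rcases fin2 l with rfl | rfl
    · simpa [star_mul] using hpp
    · simp only [Matrix.cons_val_zero, Matrix.cons_val_one, star_mul, star_star]
      rw [if_neg (by decide), mul_assoc, h1, mul_zero]
    · simp only [Matrix.cons_val_zero, Matrix.cons_val_one]
      rw [if_neg (by decide), ← mul_assoc, h1', zero_mul]
    · simp
  · rw [Fin.sum_univ_two]
    simp only [Matrix.cons_val_zero, Matrix.cons_val_one, star_mul, star_star]
    rw [hpp, h2]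
  · rcases fin2 k with rfl | rfl
    · simp only [Matrix.cons_val_zero]
      rw [← mul_assoc, h3']
    · simpa using h3

/-- Composition of a frame with a frame in its corner. -/
lemma IsFrame.comp {F : Fin 3 → Q} {e e' : Q} {G : Fin 2 → Q} (hF : IsFrame F e)
    (hG : IsCorner G e e') : IsFrame (fun p : Fin 2 × Fin 3 => F p.2 * G p.1) e' where
  orth := by
    rintro ⟨k, j⟩ ⟨l, i⟩
    simp only [star_mul, Prod.mk.injEq]
    have a1 : star (G k) * star (F j) * (F i * G l)
        = star (G k) * (star (F j) * F i) * G l := by noncomm_ring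
    rw [a1, hF.orth]
    by_cases hji : j = i
    · rw [if_pos hji, mul_assoc, hG.left, hG.orth]
      by_cases hkl : k = l
      · rw [if_pos hkl, if_pos ⟨hkl, hji⟩]
      · rw [if_neg hkl, if_neg (fun h => hkl h.1)]
    · rw [if_neg hji, if_neg (fun h => hji h.2)]
      simp
  sum := by
    rw [Fintype.sum_prod_type_right]
    rw [← hF.sum]
    refine Finset.sum_congr rfl (fun j _ => ?_)
    have a1 : ∀ k, F j * G k * star (F j * G k) = F j * (G k * star (G k)) * star (F j) := by
      intro k
      simp only [star_mul]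
      noncomm_ring
    simp only [a1]
    rw [← Finset.sum_mul, ← Finset.mul_sum, hG.sum, hF.mul_e]

/-- The frame of a fibre with `x > 0`. -/
lemma m3_frame {t s : Q} {x : ℝ} (h : IsGen t s) (hz : zEl t s = x • (1 : Q)) (hx : 0 < x) :
    IsFrame (![x⁻¹ • (s * star s), x⁻¹ • (t * (s * star s)), (√x)⁻¹ • star s] : Fin 3 → Q)
      (x⁻¹ • (s * star s)) := by
  have hr : √x ≠ 0 := (Real.sqrt_pos.mpr hx).ne'
  have hrr : (√x) * (√x) = x := Real.mul_self_sqrt hx.le
  have hx0 : x ≠ 0 := hx.ne'
  have sA : star (s * star s) = s * star s := by simp [star_mul]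
  have hAA := h.AA hz
  have t1 : s * star s * (t * (s * star s)) = 0 := by
    rw [← mul_assoc, h.A_t, zero_mul]
  have t2 : s * star s * star s = 0 := by rw [mul_assoc, h.ss', mul_zero]
  have t3 : s * star s * star t * (s * star s) = 0 := by
    rw [mul_assoc (s * star s), ← mul_assoc (star t), h.ts, zero_mul, mul_zero]
  have t4 : s * star s * star t * (t * (s * star s)) = x • (s * star s) := by
    calc s * star s * star t * (t * (s * star s)) = s * (star s * (star t * t)) * (s * star s) := by
          noncomm_ring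
      _ = s * star s * (s * star s) := by rw [h.abs']
      _ = x • (s * star s) := hAA
  have t5 : s * star s * star t * star s = 0 := by
    calc s * star s * star t * star s = s * (star s * star t * star s) := by noncomm_ring
      _ = 0 := by rw [h.sts', mul_zero]
  have t6 : s * (s * star s) = 0 := by rw [← mul_assoc, h.ss, zero_mul]
  have t7 : s * (t * (s * star s)) = 0 := by
    rw [← mul_assoc, ← mul_assoc, h.sts, zero_mul]
  have fin3 : ∀ i : Fin 3, i = 0 ∨ i = 1 ∨ i = 2 := by decide
  refine ⟨fun i j => ?_, ?_⟩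
  · rcases fin3 i with rfl | rfl | rfl <;> rcases fin3 j with rfl | rfl | rfl
    · simp only [Matrix.cons_val_zero, star_smul, star_trivial, sA, smul_mul_smul_comm, hAA,
        smul_smul, if_true]
      congr 1
      field_simp
    · simp [star_smul, sA, smul_mul_smul_comm, t1]
    · simp [star_smul, sA, smul_mul_smul_comm, t2]
    · simp [star_smul, star_mul, sA, smul_mul_smul_comm, t3]
    · simp only [Matrix.cons_val_one, Matrix.cons_val_zero, star_smul, star_trivial, star_mul, sA,
        smul_mul_smul_comm, t4, smul_smul, if_true]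
      congr 1
      field_simp
    · simp [star_smul, star_mul, sA, smul_mul_smul_comm, t5]
    · simp [star_smul, smul_mul_smul_comm, t6]
    · simp [star_smul, smul_mul_smul_comm, t7]
    · simp only [Matrix.cons_val, star_smul, star_trivial, star_star, smul_mul_smul_comm, smul_smul,
        if_true]
      congr 1
      field_simp
      rw [Real.sq_sqrt hx.le]
  · rw [Fin.sum_univ_three]
    simp only [Matrix.cons_val_zero, Matrix.cons_val_one, Matrix.cons_val, star_smul, star_trivial,
      star_mul, star_star, smul_mul_smul_comm]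
    have e1 : s * star s * (s * star s) = x • (s * star s) := hAA
    have e2 : t * (s * star s) * (s * star s * star t) = x • (t * (s * star s) * star t) := by
      calc t * (s * star s) * (s * star s * star t) = t * (s * star s * (s * star s)) * star t := by
            noncomm_ring
        _ = x • (t * (s * star s) * star t) := by
            rw [hAA, mul_smul_comm, smul_mul_assoc]
    have hzz : star s * s + s * star s + t * (s * star s) * star t = x • (1 : Q) := hz
    rw [e1, e2, smul_smul, smul_smul]
    have c1 : x⁻¹ * x⁻¹ * x = x⁻¹ := by field_simp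
    have c2 : (√x)⁻¹ * (√x)⁻¹ = x⁻¹ := by
      rw [← mul_inv, hrr]
    rw [c1, c2]
    have : x⁻¹ • (s * star s) + x⁻¹ • (t * (s * star s) * star t) + x⁻¹ • (star s * s)
        = x⁻¹ • (star s * s + s * star s + t * (s * star s) * star t) := by
      rw [smul_add, smul_add]
      abel
    rw [this, hzz, smul_smul, inv_mul_cancel₀ hx0, one_smul]

/-- Transport of a corner frame along a partial isometry. -/
lemma corner_transport {K τ₃ e e₃ : Q} (h1 : K * star K = e) (h2 : star K * K = e₃) (h3 : e * K = K)
    (h4 : K * e₃ = K) (t1 : τ₃ * τ₃ = 0) (t2 : star τ₃ * τ₃ + τ₃ * star τ₃ = e₃)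
    (t3 : e₃ * τ₃ = τ₃) (t4 : τ₃ * e₃ = τ₃) :
    (K * τ₃ * star K) * (K * τ₃ * star K) = 0 ∧
    star (K * τ₃ * star K) * (K * τ₃ * star K) + (K * τ₃ * star K) * star (K * τ₃ * star K) = e ∧
    e * (K * τ₃ * star K) = K * τ₃ * star K ∧ (K * τ₃ * star K) * e = K * τ₃ * star K ∧
    star K * (K * τ₃ * star K) * K = τ₃ := by
  have a1 : star K * e = star K := by
    have := congrArg star h3
    have hes : star e = e := by rw [← h1]; simp [star_mul]
    simpa [star_mul, hes] using this
  refine ⟨?_, ?_, ?_, ?_, ?_⟩
  · calc (K * τ₃ * star K) * (K * τ₃ * star K) = K * (τ₃ * (star K * K) * τ₃) * star K := by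
          noncomm_ring
      _ = 0 := by rw [h2, t4, t1]; simp
  · have b1 : star (K * τ₃ * star K) * (K * τ₃ * star K) = K * (star τ₃ * (star K * K) * τ₃) * star K := by
      simp only [star_mul, star_star]
      noncomm_ring
    have b2 : (K * τ₃ * star K) * star (K * τ₃ * star K) = K * (τ₃ * (star K * K) * star τ₃) * star K := by
      simp only [star_mul, star_star]
      noncomm_ring
    have t3' : star τ₃ * e₃ = star τ₃ := by
      have := congrArg star t3
      have hes : star e₃ = e₃ := by rw [← h2]; simp [star_mul]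
      simpa [star_mul, hes] using this
    rw [b1, b2, h2, mul_assoc (star τ₃) e₃ τ₃, t3, t4]
    rw [← add_mul, ← mul_add, t2, h4, h1]
  · rw [← mul_assoc e, ← mul_assoc e, h3]
  · rw [mul_assoc, a1]
  · calc star K * (K * τ₃ * star K) * K = (star K * K) * τ₃ * (star K * K) := by noncomm_ring
      _ = τ₃ := by rw [h2, t3, t4]

/-- The base matrix for `t`. -/
noncomputable def baseT (q : ℝ) : M6 :=
  Matrix.single (0, 1) (0, 0) 1 + Matrix.single (1, 1) (1, 0) 1 + Matrix.single (1, 2) (0, 2) (q : ℂ)

/-- The base matrix for `s`. -/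
noncomputable def baseS (r : ℝ) : M6 :=
  Matrix.single (0, 0) (0, 2) (r : ℂ) + Matrix.single (1, 0) (1, 2) (r : ℂ)

lemma sub_one_smul_aux {E : Type*} [AddCommGroup E] [Module ℝ E] (x : ℝ) (C : E) :
    (1 - x) • C = C - x • C := by
  rw [sub_smul, one_smul]

lemma smul_real_eq {E : Type*} [AddCommGroup E] [Module ℂ E] (r : ℝ) (y : E) :
    (r : ℂ) • y = r • y := by
  rw [Complex.coe_smul]

/-- Basic values in a fibre with `x > 0`. -/
lemma fibre_vals {t s : Q} {x : ℝ} (h : IsGen t s) (hz : zEl t s = x • (1 : Q)) (hx : 0 < x) :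
    (x⁻¹ • (t * (s * star s))) * star (x⁻¹ • (s * star s)) = x⁻¹ • (t * (s * star s)) ∧
    (x⁻¹ • (s * star s)) * star ((√x)⁻¹ • star s) = (√x)⁻¹ • s := by
  have hr : √x ≠ 0 := (Real.sqrt_pos.mpr hx).ne'
  have hx0 : x ≠ 0 := hx.ne'
  have sA : star (s * star s) = s * star s := by simp [star_mul]
  have hAA := h.AA hz
  constructor
  · rw [star_smul, star_trivial x⁻¹, sA, smul_mul_smul_comm, mul_assoc t, hAA, mul_smul_comm, smul_smul]
    congr 1
    field_simp
  · rw [star_smul, star_trivial (√x)⁻¹, star_star, smul_mul_smul_comm, mul_assoc s, h.s_C hz,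
      smul_smul]
    congr 1
    field_simp

lemma corner_sum {F : Fin 3 → Q} {e e' : Q} {G : Fin 2 → Q} (hF : IsFrame F e)
    (hG : IsCorner G e e') (i j : Fin 3) :
    F i * G 0 * star (F j * G 0) + F i * G 1 * star (F j * G 1) = F i * star (F j) := by
  have a1 : ∀ k, F i * G k * star (F j * G k) = F i * (G k * star (G k)) * star (F j) := by
    intro k
    simp only [star_mul]
    noncomm_ring
  rw [a1, a1, ← add_mul, ← mul_add]
  have := hG.sum
  rw [Fin.sum_univ_two] at this
  rw [this, hF.mul_e]

/-- The corner calculations of the element `τ₃` in a fibre (abstract version). -/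
lemma tau_core {t C : Q} {x q : ℝ} (hx : 0 < x) (hq : 0 < q) (hqq : q * q = 1 - x)
    (ht : t * t = 0) (hCC : C * C = x • C) (c1 : C * t = t * C) (c2 : C * star t = star t * C)
    (hsum : star t * t + t * star t = 1 - C) (sC : star C = C) :
    (x⁻¹ * q⁻¹) • (t * C) * (x⁻¹ * q⁻¹) • (t * C) = 0 ∧
    star ((x⁻¹ * q⁻¹) • (t * C)) * (x⁻¹ * q⁻¹) • (t * C)
      + (x⁻¹ * q⁻¹) • (t * C) * star ((x⁻¹ * q⁻¹) • (t * C)) = x⁻¹ • C ∧
    x⁻¹ • C * (x⁻¹ * q⁻¹) • (t * C) = (x⁻¹ * q⁻¹) • (t * C) ∧
    (x⁻¹ * q⁻¹) • (t * C) * x⁻¹ • C = (x⁻¹ * q⁻¹) • (t * C) := by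
  have hx0 : x ≠ 0 := hx.ne'
  have hq0 : q ≠ 0 := hq.ne'
  generalize ha : x⁻¹ * q⁻¹ = a
  have sτ : star (a • (t * C)) = a • (star t * C) := by
    rw [star_smul, star_mul, sC, c2, star_trivial]
  have a1 : C * (t * C) = x • (t * C) := by
    rw [← mul_assoc, c1, mul_assoc, hCC, mul_smul_comm]
  have a2 : t * C * C = x • (t * C) := by
    rw [mul_assoc, hCC, mul_smul_comm]
  refine ⟨?_, ?_, ?_, ?_⟩
  · rw [smul_mul_smul_comm]
    have : t * C * (t * C) = t * t * (C * C) := by
      calc t * C * (t * C) = t * (C * t) * C := by noncomm_ring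
        _ = t * (t * C) * C := by rw [c1]
        _ = t * t * (C * C) := by noncomm_ring
    rw [this, ht, zero_mul, smul_zero]
  · rw [sτ, smul_mul_smul_comm, smul_mul_smul_comm]
    have b1 : star t * C * (t * C) = x • (star t * t * C) := by
      calc star t * C * (t * C) = star t * (C * t) * C := by noncomm_ring
        _ = star t * (t * C) * C := by rw [c1]
        _ = star t * t * (C * C) := by noncomm_ring
        _ = x • (star t * t * C) := by rw [hCC, mul_smul_comm]
    have b2 : t * C * (star t * C) = x • (t * star t * C) := by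
      calc t * C * (star t * C) = t * (C * star t) * C := by noncomm_ring
        _ = t * (star t * C) * C := by rw [c2]
        _ = t * star t * (C * C) := by noncomm_ring
        _ = x • (t * star t * C) := by rw [hCC, mul_smul_comm]
    rw [b1, b2, ← smul_add, ← smul_add, ← add_mul, hsum, sub_mul, one_mul, hCC]
    rw [← sub_one_smul_aux x C, smul_smul, smul_smul]
    congr 1
    subst ha
    field_simp
    nlinarith
  · rw [smul_mul_smul_comm, a1, smul_smul]
    congr 1
    subst ha
    field_simp
  · rw [smul_mul_smul_comm, a2, smul_smul]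
    congr 1
    subst ha
    field_simp

lemma tau_facts {t s : Q} {x q : ℝ} (h : IsGen t s) (hz : zEl t s = x • (1 : Q)) (hx : 0 < x)
    (hq : 0 < q) (hqq : q * q = 1 - x) :
    (x⁻¹ * q⁻¹) • (t * (star s * s)) * (x⁻¹ * q⁻¹) • (t * (star s * s)) = 0 ∧
    star ((x⁻¹ * q⁻¹) • (t * (star s * s))) * (x⁻¹ * q⁻¹) • (t * (star s * s))
      + (x⁻¹ * q⁻¹) • (t * (star s * s)) * star ((x⁻¹ * q⁻¹) • (t * (star s * s)))
        = x⁻¹ • (star s * s) ∧
    x⁻¹ • (star s * s) * (x⁻¹ * q⁻¹) • (t * (star s * s)) = (x⁻¹ * q⁻¹) • (t * (star s * s)) ∧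
    (x⁻¹ * q⁻¹) • (t * (star s * s)) * x⁻¹ • (star s * s) = (x⁻¹ * q⁻¹) • (t * (star s * s)) := by
  refine tau_core hx hq hqq h.sq (h.CC hz) h.comm_t h.comm_t' ?_ (by simp [star_mul])
  rw [← h.sum]
  abel

/-- The facts about the partial isometry `(√x)⁻¹ • s`. -/
lemma K_facts {t s : Q} {x : ℝ} (h : IsGen t s) (hz : zEl t s = x • (1 : Q)) (hx : 0 < x) :
    ((√x)⁻¹ • s) * star ((√x)⁻¹ • s) = x⁻¹ • (s * star s) ∧
    star ((√x)⁻¹ • s) * ((√x)⁻¹ • s) = x⁻¹ • (star s * s) ∧
    (x⁻¹ • (s * star s)) * ((√x)⁻¹ • s) = (√x)⁻¹ • s ∧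
    ((√x)⁻¹ • s) * (x⁻¹ • (star s * s)) = (√x)⁻¹ • s := by
  have hr : √x ≠ 0 := (Real.sqrt_pos.mpr hx).ne'
  have hrr : (√x)⁻¹ * (√x)⁻¹ = x⁻¹ := by
    rw [← mul_inv, Real.mul_self_sqrt hx.le]
  have hx0 : x ≠ 0 := hx.ne'
  have ss : s * (star s * s) = x • s := h.s_C hz
  refine ⟨?_, ?_, ?_, ?_⟩
  · rw [star_smul, star_trivial (√x)⁻¹, smul_mul_smul_comm, hrr]
  · rw [star_smul, star_trivial (√x)⁻¹, smul_mul_smul_comm, hrr]
  · rw [smul_mul_smul_comm, mul_assoc s, ss, smul_smul]
    congr 1
    field_simp
  · rw [smul_mul_smul_comm, ss, smul_smul]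
    congr 1
    field_simp

/-- The fibre homomorphism from `M_2 ⊗ M_3` for `0 < x < 1`. -/
theorem fibre_m6 {t s : Q} {x : ℝ} (h : IsGen t s) (hz : zEl t s = x • (1 : Q)) (hx0 : 0 < x)
    (hx1 : x < 1) :
    ∃ Θ : M6 →⋆ₐ[ℂ] Q, Θ (baseT (√(1 - x))) = t ∧ Θ (baseS (√x)) = s := by
  have hq0 : 0 < √(1 - x) := Real.sqrt_pos.mpr (by linarith)
  have hqq : √(1 - x) * √(1 - x) = 1 - x := Real.mul_self_sqrt (by linarith)
  generalize hq : √(1 - x) = q at hq0 hqq ⊢
  have hr0 : 0 < √x := Real.sqrt_pos.mpr hx0
  have hxne : x ≠ 0 := hx0.ne'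
  obtain ⟨t1, t2, t3, t4⟩ := tau_facts h hz hx0 hq0 hqq
  obtain ⟨k1, k2, k3, k4⟩ := K_facts h hz hx0
  obtain ⟨p1, p2, p3, p4, p5⟩ := corner_transport k1 k2 k3 k4 t1 t2 t3 t4
  have hF := m3_frame h hz hx0
  have hc := corner_of_pi p1 p2 p3 p4
  have hv := fibre_vals h hz hx0
  have hpi := pi_of_corner p1 p2 p4
  have hK : (√x)⁻¹ • star s = star ((√x)⁻¹ • s) := by
    rw [star_smul, star_trivial (√x)⁻¹]
  refine ⟨frameHom (hF.comp hc), ?_, ?_⟩
  · unfold baseT
    rw [map_add, map_add, frameHom_single, frameHom_single, frameHom_single, one_smul, one_smul]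
    simp only [Matrix.cons_val_zero, Matrix.cons_val_one, Matrix.cons_val]
    have e1 := corner_sum hF hc 1 0
    simp only [Matrix.cons_val_zero, Matrix.cons_val_one] at e1
    rw [e1, hv.1, hK]
    rw [smul_real_eq]
    generalize hKK : (√x)⁻¹ • s = K at *
    generalize hτ : (x⁻¹ * q⁻¹) • (t * (star s * s)) = τ₃ at *
    have e2 : star K * (K * τ₃ * star K) * star (star K * (star (K * τ₃ * star K) * (K * τ₃ * star K))) = τ₃ := by
      rw [star_mul, star_mul, star_star, star_star]
      have : star K * (K * τ₃ * star K) * (star (K * τ₃ * star K) * (K * τ₃ * star K) * K)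
          = star K * ((K * τ₃ * star K) * star (K * τ₃ * star K) * (K * τ₃ * star K)) * K := by
        noncomm_ring
      rw [this, hpi, p5]
    rw [e2, ← hτ, smul_smul]
    have : q * (x⁻¹ * q⁻¹) = x⁻¹ := by
      have := hq0.ne'
      field_simp
    rw [this, ← smul_add, ← h.t_decomp hz, smul_smul, inv_mul_cancel₀ hxne, one_smul]
  · unfold baseS
    rw [map_add, frameHom_single, frameHom_single]
    simp only [Matrix.cons_val_zero, Matrix.cons_val_one, Matrix.cons_val]
    have e1 := corner_sum hF hc 0 2
    simp only [Matrix.cons_val_zero, Matrix.cons_val_one, Matrix.cons_val] at e1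
    rw [← smul_add, e1, hv.2, smul_real_eq, smul_smul, mul_inv_cancel₀ hr0.ne', one_smul]

open scoped ComplexOrder in
/-- In the fibre at `x = 1`, `t` is absorbed by `s * star s`. -/
lemma tC_zero {t s : Q} (h : IsGen t s) (hz : zEl t s = (1 : ℝ) • (1 : Q)) :
    t * (star s * s) = 0 := by
  letI : PartialOrder Q := CStarAlgebra.spectralOrder Q
  haveI : StarOrderedRing Q := CStarAlgebra.spectralOrderedRing Q
  generalize hC : star s * s = C at *
  have hCC : C * C = C := by
    have := h.CC hz
    rw [hC, one_smul] at this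
    exact this
  have c1 : C * t = t * C := by rw [← hC]; exact h.comm_t
  have c2 : C * star t = star t * C := by rw [← hC]; exact h.comm_t'
  have sC : star C = C := by rw [← hC]; simp [star_mul]
  have hsum : star t * t + t * star t = 1 - C := by
    rw [← h.sum, hC]; abel
  have b1 : star (t * C) * (t * C) = star t * t * C := by
    rw [star_mul, sC, c2]
    calc star t * C * (t * C) = star t * (C * t) * C := by noncomm_ring
      _ = star t * (t * C) * C := by rw [c1]
      _ = star t * t * (C * C) := by noncomm_ring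
      _ = star t * t * C := by rw [hCC]
  have b2 : (t * C) * star (t * C) = t * star t * C := by
    rw [star_mul, sC, c2]
    calc t * C * (star t * C) = t * (C * star t) * C := by noncomm_ring
      _ = t * (star t * C) * C := by rw [c2]
      _ = t * star t * (C * C) := by noncomm_ring
      _ = t * star t * C := by rw [hCC]
  have hs : star (t * C) * (t * C) + (t * C) * star (t * C) = 0 := by
    rw [b1, b2, ← add_mul, hsum, sub_mul, one_mul, hCC, sub_self]
  have := (add_eq_zero_iff_of_nonneg (star_mul_self_nonneg (t * C)) (mul_star_self_nonneg (t * C))).mp hs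
  exact CStarRing.star_mul_self_eq_zero_iff _ |>.mp this.1

/-- The fibre homomorphism from `M_3` at `x = 1`. -/
theorem fibre_m3 {t s : Q} (h : IsGen t s) (hz : zEl t s = (1 : ℝ) • (1 : Q)) :
    ∃ θ : Matrix (Fin 3) (Fin 3) ℂ →⋆ₐ[ℂ] Q,
      θ (Matrix.single 1 0 1) = t ∧ θ (Matrix.single 0 2 1) = s := by
  have hF := m3_frame h hz one_pos
  have hv := fibre_vals h hz one_pos
  refine ⟨frameHom hF, ?_, ?_⟩
  · rw [frameHom_single, one_smul]
    simp only [Matrix.cons_val_zero, Matrix.cons_val_one]
    rw [hv.1, inv_one, one_smul]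
    have := h.t_decomp hz
    rw [tC_zero h hz, add_zero, one_smul] at this
    exact this.symm
  · rw [frameHom_single, one_smul]
    simp only [Matrix.cons_val_zero, Matrix.cons_val_one, Matrix.cons_val]
    rw [hv.2]
    simp

open scoped ComplexOrder in
/-- In the fibre at `x = 0`, `s` vanishes. -/
lemma s_zero {t s : Q} (h : IsGen t s) (hz : zEl t s = (0 : ℝ) • (1 : Q)) : s = 0 := by
  letI : PartialOrder Q := CStarAlgebra.spectralOrder Q
  haveI : StarOrderedRing Q := CStarAlgebra.spectralOrderedRing Q
  rw [zero_smul] at hz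
  unfold zEl at hz
  have n1 : 0 ≤ star s * s := star_mul_self_nonneg s
  have n2 : 0 ≤ s * star s := mul_star_self_nonneg s
  have n3 : 0 ≤ t * (s * star s) * star t := star_right_conjugate_nonneg n2 t
  have := (add_eq_zero_iff_of_nonneg (add_nonneg n1 n2) n3).mp hz
  have := (add_eq_zero_iff_of_nonneg n1 n2).mp this.1
  exact CStarRing.star_mul_self_eq_zero_iff _ |>.mp this.1

/-- The fibre homomorphism from `M_2` at `x = 0`. -/
theorem fibre_m2 {t s : Q} (h : IsGen t s) (hz : zEl t s = (0 : ℝ) • (1 : Q)) :
    s = 0 ∧ ∃ θ : Matrix (Fin 2) (Fin 2) ℂ →⋆ₐ[ℂ] Q, θ (Matrix.single 1 0 1) = t := by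
  have hs := s_zero h hz
  refine ⟨hs, ?_⟩
  have hsum : star t * t + t * star t = 1 := by
    have := h.sum
    rw [hs] at this
    simpa using this
  have hc := corner_of_pi h.sq hsum (one_mul t) (mul_one t)
  have hF : IsFrame (![star t * t, t] : Fin 2 → Q) (star t * t) := ⟨hc.orth, hc.sum⟩
  refine ⟨frameHom hF, ?_⟩
  rw [frameHom_single, one_smul]
  simp only [Matrix.cons_val_zero, Matrix.cons_val_one, star_mul, star_star]
  rw [← mul_assoc]
  exact pi_of_corner h.sq hsum (mul_one t)

open scoped ComplexOrder in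
/-- The possible values of the central parameter in a fibre. -/
theorem fibre_range [Nontrivial Q] {t s : Q} {x : ℝ} (h : IsGen t s) (hz : zEl t s = x • (1 : Q)) :
    x = 0 ∨ x = 1 ∨ (0 < x ∧ x < 1) := by
  letI : PartialOrder Q := CStarAlgebra.spectralOrder Q
  haveI : StarOrderedRing Q := CStarAlgebra.spectralOrderedRing Q
  have n1 : 0 ≤ star s * s := star_mul_self_nonneg s
  have n2 : 0 ≤ s * star s := mul_star_self_nonneg s
  have n3 : 0 ≤ t * (s * star s) * star t := star_right_conjugate_nonneg n2 t
  have hz0 : 0 ≤ x • (1 : Q) := by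
    rw [← hz]
    exact add_nonneg (add_nonneg n1 n2) n3
  have hx0 : 0 ≤ x := by
    by_contra hneg
    push Not at hneg
    have h1 : (1 : Q) ≤ 0 := by
      have h2 : (-x)⁻¹ • (x • (1 : Q)) = -(1 : Q) := by
        rw [smul_smul, inv_neg, neg_mul, inv_mul_cancel₀ hneg.ne, neg_smul, one_smul]
      have h3 : 0 ≤ (-x)⁻¹ • (x • (1 : Q)) :=
        smul_nonneg (inv_nonneg.mpr (by linarith)) hz0
      rw [h2] at h3
      simpa using h3
    have h4 : (1 : Q) = 0 := le_antisymm h1 zero_le_one
    exact one_ne_zero h4
  rcases hx0.eq_or_lt with hx | hx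
  · exact Or.inl hx.symm
  right
  have hC : star s * s ≠ 0 := by
    intro hC0
    have hs : s = 0 := CStarRing.star_mul_self_eq_zero_iff _ |>.mp hC0
    have : x • (1 : Q) = 0 := by
      rw [← hz, hs]
      simp [zEl]
    rcases smul_eq_zero.mp this with h0 | h0
    · exact hx.ne' h0
    · exact one_ne_zero h0
  have hn : ‖star s * s‖ = x := by
    have h1 : ‖star s * s‖ * ‖star s * s‖ = x * ‖star s * s‖ := by
      have := congrArg norm (h.CC hz)
      rw [norm_smul, Real.norm_eq_abs, abs_of_pos hx] at this
      rw [← this]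
      have h2 : star (star s * s) = star s * s := by simp [star_mul]
      have h3 := CStarRing.norm_star_mul_self (x := star s * s)
      rw [h2] at h3
      exact h3.symm
    exact mul_right_cancel₀ (norm_ne_zero_iff.mpr hC) h1
  have hle : ‖star s * s‖ ≤ 1 := by
    rw [CStarAlgebra.norm_le_one_iff_of_nonneg _ n1]
    have : 1 - star s * s = star t * t + t * star t := by
      rw [← h.sum]; abel
    rw [← sub_nonneg, this]
    exact add_nonneg (star_mul_self_nonneg t) (mul_star_self_nonneg t)
  rw [hn] at hle
  rcases hle.eq_or_lt with h1 | h1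
  · exact Or.inl h1
  · exact Or.inr ⟨hx, h1⟩

end Fibre

end Gen

end Vale.Agent.Lib.P101
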