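import Mathlib

set_option linter.unusedSimpArgs false
set_option linter.unusedVariables false
set_option linter.unusedSectionVars false

namespace Vale.Agent.Lib.P101

variable {n : Type*} [Fintype n] [DecidableEq n]
variable {Q : Type*} [Ring Q] [StarRing Q] [Algebra ℂ Q] [StarModule ℂ Q]

/-- A frame of partial isometries with common initial projection `e`. -/
structure IsFrame (F : n → Q) (e : Q) : Prop where
  orth : ∀ i j, star (F i) * F j = if i = j then e else 0
  sum : ∑ i, F i * star (F i) = 1

namespace IsFrame

variable {F : n → Q} {e : Q}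

lemma mul_e (h : IsFrame F e) (i : n) : F i * e = F i := by
  have h1 : (∑ j, F j * star (F j)) * F i = F i := by rw [h.sum, one_mul]
  rw [Finset.sum_mul, Finset.sum_eq_single i] at h1
  · have h2 := h.orth i i
    rw [if_pos rfl] at h2
    rw [← h2, ← mul_assoc]
    exact h1
  · intro j _ hj
    rw [mul_assoc, h.orth, if_neg hj, mul_zero]
  · simp

end IsFrame

/-- The linear map underlying the homomorphism attached to a frame. -/
noncomputable def frameMap (F : n → Q) (m : Matrix n n ℂ) : Q :=
  ∑ i, ∑ j, m i j • (F i * star (F j))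

lemma frameMap_add (F : n → Q) (m m' : Matrix n n ℂ) :
    frameMap F (m + m') = frameMap F m + frameMap F m' := by
  simp only [frameMap, Matrix.add_apply, add_smul, Finset.sum_add_distrib]

lemma frameMap_smul (F : n → Q) (r : ℂ) (m : Matrix n n ℂ) :
    frameMap F (r • m) = r • frameMap F m := by
  simp only [frameMap, Matrix.smul_apply, smul_eq_mul, mul_smul, Finset.smul_sum]

lemma frameMap_star (F : n → Q) (m : Matrix n n ℂ) :
    frameMap F (star m) = star (frameMap F m) := by
  simp only [frameMap, star_sum, star_smul, star_mul, star_star, Matrix.star_apply]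
  rw [Finset.sum_comm]

lemma frameMap_one {F : n → Q} {e : Q} (h : IsFrame F e) : frameMap F 1 = 1 := by
  rw [← h.sum]
  unfold frameMap
  refine Finset.sum_congr rfl (fun i _ => ?_)
  rw [Finset.sum_eq_single i]
  · simp
  · intro j _ hj
    simp [Matrix.one_apply_ne (Ne.symm hj)]
  · simp

lemma frameMap_mul {F : n → Q} {e : Q} (h : IsFrame F e) (m m' : Matrix n n ℂ) :
    frameMap F (m * m') = frameMap F m * frameMap F m' := by
  have key : frameMap F m * frameMap F m'
      = ∑ i, ∑ j, ∑ l, (m i j * m' j l) • (F i * star (F l)) := by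
    unfold frameMap
    rw [Finset.sum_mul]
    refine Finset.sum_congr rfl (fun i _ => ?_)
    rw [Finset.sum_mul]
    refine Finset.sum_congr rfl (fun j _ => ?_)
    rw [Finset.mul_sum]
    rw [Finset.sum_eq_single j]
    · rw [Finset.mul_sum]
      refine Finset.sum_congr rfl (fun l _ => ?_)
      rw [smul_mul_smul_comm]
      congr 1
      rw [mul_assoc, ← mul_assoc (star (F j)), h.orth, if_pos rfl, ← mul_assoc, h.mul_e]
    · intro k _ hk
      rw [Finset.mul_sum]
      refine Finset.sum_eq_zero (fun l _ => ?_)
      rw [smul_mul_smul_comm, mul_assoc, ← mul_assoc (star (F j)), h.orth, if_neg (Ne.symm hk)]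
      simp
    · simp
  rw [key]
  unfold frameMap
  refine Finset.sum_congr rfl (fun i _ => ?_)
  rw [Finset.sum_comm]
  refine Finset.sum_congr rfl (fun l _ => ?_)
  rw [Matrix.mul_apply, Finset.sum_smul]

/-- The unital star homomorphism attached to a frame. -/
noncomputable def frameHom {F : n → Q} {e : Q} (h : IsFrame F e) : Matrix n n ℂ →⋆ₐ[ℂ] Q where
  toFun := frameMap F
  map_one' := frameMap_one h
  map_mul' := frameMap_mul h
  map_zero' := by simp [frameMap]
  map_add' := frameMap_add F
  commutes' := fun r => by
    change frameMap F (algebraMap ℂ (Matrix n n ℂ) r) = algebraMap ℂ Q r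
    rw [Algebra.algebraMap_eq_smul_one, frameMap_smul, frameMap_one h,
      Algebra.algebraMap_eq_smul_one]
  map_star' := frameMap_star F

lemma frameHom_apply {F : n → Q} {e : Q} (h : IsFrame F e) (m : Matrix n n ℂ) :
    frameHom h m = ∑ i, ∑ j, m i j • (F i * star (F j)) := rfl

lemma frameHom_single {F : n → Q} {e : Q} (h : IsFrame F e) (i j : n) (c : ℂ) :
    frameHom h (Matrix.single i j c) = c • (F i * star (F j)) := by
  rw [frameHom_apply]
  rw [Finset.sum_eq_single i]
  · rw [Finset.sum_eq_single j]
    · simp
    · intro k _ hk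
      simp [Matrix.single_apply, Ne.symm hk]
    · simp
  · intro k _ hk
    refine Finset.sum_eq_zero (fun l _ => ?_)
    simp [Matrix.single_apply, Ne.symm hk]
  · simp

end Vale.Agent.Lib.P101
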