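import Mathlib

set_option linter.unusedSimpArgs false
set_option linter.unusedVariables false
set_option linter.unusedSectionVars false
set_option linter.style.haveILetI false

namespace Vale.Agent.Lib.P101

variable {Q : Type*} [CStarAlgebra Q] [PartialOrder Q] [StarOrderedRing Q]

/-- Two commuting star subalgebras of `Q`, closed under the functional calculus and with the
Schlieder property. -/
structure Slice (Q₁ Q₂ : StarSubalgebra ℂ Q) : Prop where
  comm : ∀ x ∈ Q₁, ∀ y ∈ Q₂, Commute x y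
  cfc₁ : ∀ x ∈ Q₁, IsSelfAdjoint x → ∀ f : ℝ → ℝ, Continuous f → cfc f x ∈ Q₁
  cfc₂ : ∀ x ∈ Q₂, IsSelfAdjoint x → ∀ f : ℝ → ℝ, Continuous f → cfc f x ∈ Q₂
  sch : ∀ x ∈ Q₁, ∀ y ∈ Q₂, x * y = 0 → x = 0 ∨ y = 0

lemma Slice.symm {Q₁ Q₂ : StarSubalgebra ℂ Q} (h : Slice Q₁ Q₂) : Slice Q₂ Q₁ where
  comm x hx y hy := (h.comm y hy x hx).symm
  cfc₁ := h.cfc₂
  cfc₂ := h.cfc₁
  sch x hx y hy hxy := by
    rw [(h.comm y hy x hx).symm.eq] at hxy
    exact (h.sch y hy x hx hxy).symm

/-- Bump function at a point of the spectrum. -/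
noncomputable def bumpF (τ ε : ℝ) (t : ℝ) : ℝ := max 0 (1 - |t - τ| / ε)

lemma bumpF_cont (τ ε : ℝ) : Continuous (bumpF τ ε) := by
  unfold bumpF
  fun_prop

lemma bumpF_nonneg (τ ε t : ℝ) : 0 ≤ bumpF τ ε t := le_max_left _ _

lemma bumpF_self {τ ε : ℝ} (hε : 0 < ε) : bumpF τ ε τ = 1 := by
  simp [bumpF]

lemma bumpF_eq_zero {τ ε t : ℝ} (hε : 0 < ε) (ht : ε ≤ |t - τ|) : bumpF τ ε t = 0 := by
  unfold bumpF
  apply max_eq_left
  have : 1 ≤ |t - τ| / ε := (one_le_div hε).mpr ht
  linarith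

/-- The bump element. -/
lemma exists_bump {x : Q} (hx : IsSelfAdjoint x) {τ : ℝ} (hτ : τ ∈ spectrum ℝ x) {ε : ℝ}
    (hε : 0 < ε) : ∃ g : ℝ → ℝ, Continuous g ∧ 0 ≤ cfc g x ∧ cfc g x ≠ 0 ∧
      (τ - ε) • (cfc g x * cfc g x) ≤ cfc g x * x * cfc g x ∧
      cfc g x * x * cfc g x ≤ (τ + ε) • (cfc g x * cfc g x) := by
  have hc := bumpF_cont τ ε
  have hid : Continuous (fun t : ℝ => t) := continuous_id
  have CM : ∀ {f g : ℝ → ℝ}, Continuous f → Continuous g → Continuous (fun x => f x * g x) :=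
    fun hf hg => hf.mul hg
  have e1 : cfc (bumpF τ ε) x * cfc (bumpF τ ε) x = cfc (fun t => bumpF τ ε t * bumpF τ ε t) x :=
    (cfc_mul _ _ x hc.continuousOn hc.continuousOn).symm
  have e2 : cfc (bumpF τ ε) x * x * cfc (bumpF τ ε) x
      = cfc (fun t => bumpF τ ε t * t * bumpF τ ε t) x := by
    calc cfc (bumpF τ ε) x * x * cfc (bumpF τ ε) x
        = cfc (bumpF τ ε) x * cfc (fun t => t) x * cfc (bumpF τ ε) x := by rw [cfc_id' ℝ x hx]
      _ = cfc (fun t => bumpF τ ε t * t * bumpF τ ε t) x := by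
        rw [← cfc_mul _ _ x hc.continuousOn hid.continuousOn,
          ← cfc_mul _ _ x (CM hc hid).continuousOn hc.continuousOn]
  refine ⟨bumpF τ ε, hc, cfc_nonneg (fun t _ => bumpF_nonneg _ _ _), ?_, ?_, ?_⟩
  · intro h0
    have hmem : bumpF τ ε τ ∈ spectrum ℝ (cfc (bumpF τ ε) x) := by
      rw [cfc_map_spectrum (bumpF τ ε) x hx hc.continuousOn]
      exact ⟨τ, hτ, rfl⟩
    rw [h0, bumpF_self hε] at hmem
    have hnt : Nontrivial Q := by
      by_contra hn
      rw [not_nontrivial_iff_subsingleton] at hn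
      have : spectrum ℝ x = ∅ := by
        ext r
        simp [spectrum.mem_iff, Subsingleton.elim (algebraMap ℝ Q r - x) 1]
      rw [this] at hτ
      exact hτ
    rw [spectrum.zero_eq] at hmem
    simp at hmem
  · rw [e1, e2, ← cfc_const_mul (τ - ε) _ x (CM hc hc).continuousOn]
    refine cfc_mono (fun t _ => ?_) (CM continuous_const (CM hc hc)).continuousOn
      (CM (CM hc hid) hc).continuousOn
    rcases le_or_gt ε |t - τ| with h | h
    · rw [bumpF_eq_zero hε h]; simp
    · have h2 := (abs_lt.mp h).1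
      have : 0 ≤ bumpF τ ε t * bumpF τ ε t := mul_self_nonneg _
      nlinarith
  · rw [e1, e2, ← cfc_const_mul (τ + ε) _ x (CM hc hc).continuousOn]
    refine cfc_mono (fun t _ => ?_) (CM (CM hc hid) hc).continuousOn
      (CM continuous_const (CM hc hc)).continuousOn
    rcases le_or_gt ε |t - τ| with h | h
    · rw [bumpF_eq_zero hε h]; simp
    · have h2 := (abs_lt.mp h).2
      have : 0 ≤ bumpF τ ε t * bumpF τ ε t := mul_self_nonneg _
      nlinarith


lemma conj_le {x y f : Q} (hf : star f = f) (h : x ≤ y) : f * x * f ≤ f * y * f := by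
  have := star_left_conjugate_le_conjugate h f
  rwa [hf] at this

lemma le_nrm {x : Q} (hx : IsSelfAdjoint x) : x ≤ ‖x‖ • (1 : Q) := by
  have := IsSelfAdjoint.le_algebraMap_norm_self hx
  rwa [Algebra.algebraMap_eq_smul_one] at this

lemma neg_nrm_le {x : Q} (hx : IsSelfAdjoint x) : -(‖x‖ • (1 : Q)) ≤ x := by
  have := IsSelfAdjoint.neg_algebraMap_norm_le_self hx
  rwa [Algebra.algebraMap_eq_smul_one] at this

lemma sa_of_nonneg {x : Q} (hx : 0 ≤ x) : star x = x := hx.isSelfAdjoint.star_eq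

lemma mul_self_ne_zero_of_sa {f : Q} (hf : star f = f) (hne : f ≠ 0) : f * f ≠ 0 := by
  intro h
  apply hne
  have : star f * f = 0 := by rw [hf, h]
  exact CStarRing.star_mul_self_eq_zero_iff _ |>.mp this

lemma eq_zero_of_cube {P : Q} (hP : star P = P) (h : P * P * P = 0) : P = 0 := by
  have h4 : (P * P) * (P * P) = 0 := by
    rw [← mul_assoc, h, zero_mul]
  have h2 : P * P = 0 := by
    have : star (P * P) * (P * P) = 0 := by
      rw [star_mul, hP, h4]
    exact CStarRing.star_mul_self_eq_zero_iff _ |>.mp this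
  by_contra hne
  exact mul_self_ne_zero_of_sa hP hne h2

lemma sa_smul (r : ℝ) {x : Q} (hx : IsSelfAdjoint x) : IsSelfAdjoint (r • x) := by
  rw [IsSelfAdjoint, star_smul, hx.star_eq, star_trivial]

lemma real_smul_mem (S : StarSubalgebra ℂ Q) (r : ℝ) {x : Q} (hx : x ∈ S) : r • x ∈ S := by
  rw [← Complex.coe_smul]
  exact S.smul_mem hx _

namespace Slice

variable {Q₁ Q₂ : StarSubalgebra ℂ Q}

/-- The bump in the first algebra. -/
lemma bump₁ (h : Slice Q₁ Q₂) {x : Q} (hx : x ∈ Q₁) (hs : IsSelfAdjoint x) {τ : ℝ}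
    (hτ : τ ∈ spectrum ℝ x) {ε : ℝ} (hε : 0 < ε) : ∃ e ∈ Q₁, 0 ≤ e ∧ e ≠ 0 ∧
      (τ - ε) • (e * e) ≤ e * x * e ∧ e * x * e ≤ (τ + ε) • (e * e) := by
  obtain ⟨g, hg, h1, h2, h3, h4⟩ := exists_bump hs hτ hε
  exact ⟨cfc g x, h.cfc₁ x hx hs g hg, h1, h2, h3, h4⟩

/-- Cancellation of a positive factor from the other algebra. -/
lemma cancel (h : Slice Q₁ Q₂) {X R : Q} (hX : X ∈ Q₁) (hXs : IsSelfAdjoint X) (hR : R ∈ Q₂)
    (hR0 : 0 ≤ R) (hRne : R ≠ 0) (hle : X * R ≤ 0) : X ≤ 0 := by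
  have hc1 : Continuous (fun t : ℝ => max t 0) := by fun_prop
  have hc2 : Continuous (fun t : ℝ => max (-t) 0) := by fun_prop
  set P := cfc (fun t : ℝ => max t 0) X with hP
  set M := cfc (fun t : ℝ => max (-t) 0) X with hM
  have hPQ : P ∈ Q₁ := h.cfc₁ X hX hXs _ hc1
  have hP0 : 0 ≤ P := cfc_nonneg (fun t _ => le_max_right _ _)
  have hM0 : 0 ≤ M := cfc_nonneg (fun t _ => le_max_right _ _)
  have hX' : X = P - M := by
    rw [hP, hM, ← cfc_sub _ _ X hc1.continuousOn hc2.continuousOn]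
    nth_rw 1 [← cfc_id' ℝ X hXs]
    refine cfc_congr (fun t _ => ?_)
    rcases le_total t 0 with ht | ht
    · rw [max_eq_right ht, max_eq_left (by linarith)]; ring
    · rw [max_eq_left ht, max_eq_right (by linarith)]; ring
  have hPM : P * M = 0 := by
    rw [hP, hM, ← cfc_mul _ _ X hc1.continuousOn hc2.continuousOn]
    have : (spectrum ℝ X).EqOn (fun t : ℝ => max t 0 * max (-t) 0) (fun _ => 0) := by
      intro t _
      rcases le_total t 0 with ht | ht
      · simp [max_eq_right ht]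
      · show max t 0 * max (-t) 0 = 0
        rw [max_eq_right (by linarith : -t ≤ 0)]; simp
    rw [cfc_congr this]
    exact cfc_const_zero ℝ X
  have hPs := sa_of_nonneg hP0
  have hcomm : Commute P R := h.comm P hPQ R hR
  have hcube0 : 0 ≤ P * P * P := by
    have := star_left_conjugate_nonneg hP0 P
    rwa [hPs] at this
  have hprod0 : 0 ≤ (P * P * P) * R :=
    Commute.mul_nonneg hcube0 hR0 ((hcomm.mul_left hcomm).mul_left hcomm)
  have hprod1 : (P * P * P) * R ≤ 0 := by
    have h1 := conj_le hPs hle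
    have e : P * (X * R) * P = (P * P * P) * R := by
      rw [hX']
      have : P * ((P - M) * R) * P = (P * P - P * M) * (R * P) := by noncomm_ring
      rw [this, hPM, sub_zero, hcomm.symm.eq]
      noncomm_ring
    rw [e] at h1
    simpa using h1
  have hz : (P * P * P) * R = 0 := le_antisymm hprod1 hprod0
  have hz2 : P * P * P = 0 := by
    rcases h.sch _ (Q₁.mul_mem (Q₁.mul_mem hPQ hPQ) hPQ) R hR hz with h0 | h0
    · exact h0
    · exact absurd h0 hRne
  have hP00 : P = 0 := eq_zero_of_cube hPs hz2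
  rw [hX', hP00, zero_sub]
  simpa using hM0

/-- The commuting trick. -/
lemma mul_ge (h : Slice Q₁ Q₂) {E F₁ H F₂ : Q} (hE : E ∈ Q₁) (hF₁ : F₁ ∈ Q₁) (hH : H ∈ Q₂)
    (hF₂ : F₂ ∈ Q₂) (h1 : -F₁ ≤ E) (h2 : E ≤ F₁) (h3 : -F₂ ≤ H) (h4 : H ≤ F₂) :
    -(F₁ * F₂) ≤ E * H := by
  have p1 : 0 ≤ F₁ + E := by
    have := add_le_add_right h1 F₁
    simpa [add_comm] using this
  have p2 : 0 ≤ F₁ - E := sub_nonneg.mpr h2
  have p3 : 0 ≤ F₂ + H := by
    have := add_le_add_right h3 F₂
    simpa [add_comm] using this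
  have p4 : 0 ≤ F₂ - H := sub_nonneg.mpr h4
  have c1 : Commute (F₁ + E) (F₂ + H) :=
    h.comm _ (Q₁.add_mem hF₁ hE) _ (Q₂.add_mem hF₂ hH)
  have c2 : Commute (F₁ - E) (F₂ - H) :=
    h.comm _ (Q₁.sub_mem hF₁ hE) _ (Q₂.sub_mem hF₂ hH)
  have q1 := Commute.mul_nonneg p1 p3 c1
  have q2 := Commute.mul_nonneg p2 p4 c2
  have hsum : (F₁ + E) * (F₂ + H) + (F₁ - E) * (F₂ - H) = (2 : ℝ) • (F₁ * F₂ + E * H) := by
    rw [two_smul]; noncomm_ring
  have q3 : 0 ≤ (2 : ℝ) • (F₁ * F₂ + E * H) := by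
    rw [← hsum]
    exact add_nonneg q1 q2
  have q4 : 0 ≤ F₁ * F₂ + E * H := by
    have := smul_le_smul_of_nonneg_left q3 (by norm_num : (0 : ℝ) ≤ 1 / 2)
    simpa [smul_smul] using this
  have := add_le_add_left q4 (-(F₁ * F₂))
  simpa using this


/-- The slice inequality. -/
theorem slice (h : Slice Q₁ Q₂) {u u' y y' : Q} (hu : u ∈ Q₁) (hu' : u' ∈ Q₁) (hy : y ∈ Q₂)
    (hy' : y' ∈ Q₂) (su : IsSelfAdjoint u) (su' : IsSelfAdjoint u') (sy : IsSelfAdjoint y)
    (sy' : IsSelfAdjoint y') (hS : u + y' + u' * y ≤ 0) {τ : ℝ} (hτ : τ ∈ spectrum ℝ y) :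
    u + τ • u' ≤ ‖y'‖ • (1 : Q) := by
  have key : ∀ ε > 0, u + τ • u' - (‖y'‖ + ε * ‖u'‖) • (1 : Q) ≤ 0 := by
    intro ε hε
    obtain ⟨f, hf, hf0, hfne, hf1, hf2⟩ := h.symm.bump₁ hy sy hτ hε
    have sf := sa_of_nonneg hf0
    have cfu : Commute f u := (h.comm u hu f hf).symm
    have cfu' : Commute f u' := (h.comm u' hu' f hf).symm
    have hff : f * f ∈ Q₂ := Q₂.mul_mem hf hf
    have hff0 : 0 ≤ f * f := by
      have := star_mul_self_nonneg f
      rwa [sf] at this
    set w := f * y * f - τ • (f * f) with hw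
    have hwQ : w ∈ Q₂ := Q₂.sub_mem (Q₂.mul_mem (Q₂.mul_mem hf hy) hf) (real_smul_mem Q₂ _ hff)
    have hw1 : -(ε • (f * f)) ≤ w := by
      rw [hw, le_sub_iff_add_le, neg_add_eq_sub, ← sub_smul]
      exact hf1
    have hw2 : w ≤ ε • (f * f) := by
      rw [hw, sub_le_iff_le_add, ← add_smul, add_comm ε τ]
      exact hf2
    have hnu1 : ‖u'‖ • (1 : Q) ∈ Q₁ := real_smul_mem Q₁ _ Q₁.one_mem
    have hmg := h.mul_ge hu' hnu1 hwQ (real_smul_mem Q₂ ε hff) (neg_nrm_le su') (le_nrm su') hw1 hw2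
    have hb : -(‖y'‖ • (f * f)) ≤ f * y' * f := by
      have := conj_le sf (neg_nrm_le sy')
      have e : f * -(‖y'‖ • (1 : Q)) * f = -(‖y'‖ • (f * f)) := by
        simp only [mul_neg, neg_mul, mul_smul_comm, smul_mul_assoc, mul_one]
      rwa [e] at this
    have hconj : f * (u + y' + u' * y) * f ≤ 0 := by
      have := conj_le sf hS
      simpa using this
    have hexp : f * (u + y' + u' * y) * f = u * (f * f) + f * y' * f + u' * (f * y * f) := by
      have e1 : f * u * f = u * (f * f) := by rw [cfu.eq, mul_assoc]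
      have e2 : f * (u' * y) * f = u' * (f * y * f) := by
        rw [← mul_assoc, cfu'.eq]; simp only [mul_assoc]
      simp only [mul_add, add_mul, e1, e2]
    set X := u + τ • u' - (‖y'‖ + ε * ‖u'‖) • (1 : Q) with hX
    have hXQ : X ∈ Q₁ := Q₁.sub_mem (Q₁.add_mem hu (real_smul_mem Q₁ _ hu'))
      (real_smul_mem Q₁ _ Q₁.one_mem)
    have hXs : IsSelfAdjoint X := (su.add (sa_smul _ su')).sub (sa_smul _ (IsSelfAdjoint.one Q))
    have hle : X * (f * f) ≤ 0 := by
      have hdiff : f * (u + y' + u' * y) * f - X * (f * f)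
          = (f * y' * f + ‖y'‖ • (f * f)) + (u' * w + (‖u'‖ * ε) • (f * f)) := by
        rw [hexp, hX, hw]
        simp only [sub_mul, add_mul, mul_sub, smul_mul_assoc, mul_smul_comm, one_mul, mul_assoc]
        module
      have hnn : 0 ≤ (f * y' * f + ‖y'‖ • (f * f)) + (u' * w + (‖u'‖ * ε) • (f * f)) := by
        refine add_nonneg ?_ ?_
        · have := add_le_add_left hb (‖y'‖ • (f * f))
          simpa using this
        · have := add_le_add_left hmg ((‖u'‖ * ε) • (f * f))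
          have e : (‖u'‖ • (1 : Q)) * (ε • (f * f)) = (‖u'‖ * ε) • (f * f) := by
            rw [smul_mul_assoc, one_mul, smul_smul]
          rw [e] at this
          simpa using this
      rw [← hdiff] at hnn
      have := sub_nonneg.mp hnn
      exact this.trans hconj
    exact h.cancel hXQ hXs hff hff0 (mul_self_ne_zero_of_sa sf hfne) hle
  -- let ε tend to zero
  set Z := u + τ • u' - ‖y'‖ • (1 : Q) with hZ
  have hZs : IsSelfAdjoint Z := (su.add (sa_smul _ su')).sub (sa_smul _ (IsSelfAdjoint.one Q))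
  have hZle : ∀ r > 0, Z ≤ algebraMap ℝ Q r := by
    intro r hr
    have hpos : 0 < ‖u'‖ + 1 := by positivity
    have := key (r / (‖u'‖ + 1)) (by positivity)
    rw [Algebra.algebraMap_eq_smul_one]
    have e : u + τ • u' - (‖y'‖ + r / (‖u'‖ + 1) * ‖u'‖) • (1 : Q)
        = Z - (r / (‖u'‖ + 1) * ‖u'‖) • (1 : Q) := by
      rw [hZ, add_smul]; abel
    rw [e, sub_nonpos] at this
    refine this.trans ?_
    refine smul_le_smul_of_nonneg_right ?_ zero_le_one
    rw [div_mul_eq_mul_div, div_le_iff₀ hpos]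
    nlinarith [norm_nonneg u']
  have hZ0 : Z ≤ 0 := by
    have : Z ≤ algebraMap ℝ Q 0 := by
      rw [le_algebraMap_iff_spectrum_le hZs]
      intro t ht
      by_contra hpos
      push Not at hpos
      have := (le_algebraMap_iff_spectrum_le hZs).mp (hZle (t / 2) (by linarith)) t ht
      linarith
    simpa using this
  exact sub_nonpos.mp hZ0


/-- Conjugation of the triple sum by a product of bumps. -/
lemma conj_expand (h : Slice Q₁ Q₂) {e f a b a' b' : Q} (he : e ∈ Q₁) (hf : f ∈ Q₂) (ha : a ∈ Q₁)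
    (hb : b ∈ Q₁) (ha' : a' ∈ Q₂) (hb' : b' ∈ Q₂) :
    (e * f) * (a + b' + b * a') * (e * f)
      = (e * a * e) * (f * f) + (e * e) * (f * b' * f) + (e * b * e) * (f * a' * f) := by
  have c1 := (h.comm a ha f hf).symm
  have c2 := (h.comm b hb f hf).symm
  have c3 := (h.comm e he f hf).symm
  have c4 := (h.comm e he a' ha').symm
  have c5 := (h.comm e he b' hb').symm
  simp only [mul_add, add_mul, mul_assoc, c1.eq, c1.left_comm, c2.eq, c2.left_comm, c3.eq,
    c3.left_comm, c4.eq, c4.left_comm, c5.eq, c5.left_comm]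

/-- The main lemma: a balanced triple sum cannot be nonpositive unless it vanishes termwise. -/
theorem lemma_N (h : Slice Q₁ Q₂) {a b a' b' : Q} (ha : a ∈ Q₁) (hb : b ∈ Q₁) (ha' : a' ∈ Q₂)
    (hb' : b' ∈ Q₂) (sa : IsSelfAdjoint a) (sb : IsSelfAdjoint b) (sa' : IsSelfAdjoint a')
    (sb' : IsSelfAdjoint b') (baa : ‖a‖ ∈ spectrum ℝ a ∧ -‖a‖ ∈ spectrum ℝ a)
    (bab : ‖b‖ ∈ spectrum ℝ b ∧ -‖b‖ ∈ spectrum ℝ b)
    (baa' : ‖a'‖ ∈ spectrum ℝ a' ∧ -‖a'‖ ∈ spectrum ℝ a')
    (bab' : ‖b'‖ ∈ spectrum ℝ b' ∧ -‖b'‖ ∈ spectrum ℝ b')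
    (hS : a + b' + b * a' ≤ 0) : a = 0 ∧ b' = 0 ∧ (b = 0 ∨ a' = 0) := by
  have s1p := h.slice ha hb ha' hb' sa sb sa' sb' hS baa'.1
  have s1m := h.slice ha hb ha' hb' sa sb sa' sb' hS baa'.2
  have hS' : b' + a + a' * b ≤ 0 := by
    rw [(h.comm b hb a' ha').symm.eq, add_comm b' a]
    exact hS
  have s2p := h.symm.slice hb' ha' hb ha sb' sa' sb sa hS' bab.1
  have s2m := h.symm.slice hb' ha' hb ha sb' sa' sb sa hS' bab.2
  have halve : ∀ {x y : Q}, (2 : ℝ) • x ≤ (2 : ℝ) • y → x ≤ y := by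
    intro x y hxy
    have := smul_le_smul_of_nonneg_left hxy (by norm_num : (0 : ℝ) ≤ 1 / 2)
    simpa [smul_smul] using this
  have le1 : a ≤ ‖b'‖ • (1 : Q) := by
    apply halve
    have := add_le_add s1p s1m
    have e : a + ‖a'‖ • b + (a + (-‖a'‖) • b) = (2 : ℝ) • a := by module
    rw [e, ← two_smul ℝ] at this
    exact this
  have le2 : b' ≤ ‖a‖ • (1 : Q) := by
    apply halve
    have := add_le_add s2p s2m
    have e : b' + ‖b‖ • a' + (b' + (-‖b‖) • a') = (2 : ℝ) • b' := by module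
    rw [e, ← two_smul ℝ] at this
    exact this
  have n1 : ‖a‖ ≤ ‖b'‖ := by
    have : a ≤ algebraMap ℝ Q ‖b'‖ := by rwa [Algebra.algebraMap_eq_smul_one]
    exact (le_algebraMap_iff_spectrum_le sa).mp this _ baa.1
  have n2 : ‖b'‖ ≤ ‖a‖ := by
    have : b' ≤ algebraMap ℝ Q ‖a‖ := by rwa [Algebra.algebraMap_eq_smul_one]
    exact (le_algebraMap_iff_spectrum_le sb').mp this _ bab'.1
  have nn : ‖a‖ = ‖b'‖ := le_antisymm n1 n2
  -- the case of a nonzero top
  have hα : ‖a‖ = 0 := by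
    by_contra hne
    have hpos : 0 < ‖a‖ := lt_of_le_of_ne (norm_nonneg _) (Ne.symm hne)
    set α := ‖a‖ with hαdef
    set ε := α / 3 with hε
    have hεpos : 0 < ε := by positivity
    obtain ⟨e, heQ, he0, hene, he1, he2⟩ := h.bump₁ ha sa baa.1 hεpos
    have hbb : α ∈ spectrum ℝ b' := by rw [nn]; exact bab'.1
    obtain ⟨f, hfQ, hf0, hfne, hf1, hf2⟩ := h.symm.bump₁ hb' sb' hbb hεpos
    have se := sa_of_nonneg he0
    have sf := sa_of_nonneg hf0
    have hee0 : 0 ≤ e * e := by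
      have := star_mul_self_nonneg e
      rwa [se] at this
    have hff0 : 0 ≤ f * f := by
      have := star_mul_self_nonneg f
      rwa [sf] at this
    have heeQ : e * e ∈ Q₁ := Q₁.mul_mem heQ heQ
    have hffQ : f * f ∈ Q₂ := Q₂.mul_mem hfQ hfQ
    have hT0 : 0 ≤ (e * e) * (f * f) := Commute.mul_nonneg hee0 hff0 (h.comm _ heeQ _ hffQ)
    set E := e * b * e with hE
    set H := f * a' * f with hH
    have hEQ : E ∈ Q₁ := Q₁.mul_mem (Q₁.mul_mem heQ hb) heQ
    have hHQ : H ∈ Q₂ := Q₂.mul_mem (Q₂.mul_mem hfQ ha') hfQ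
    set c := ‖a'‖ with hc
    -- the estimate on E
    have conj1 : ∀ s : ℝ, a + s • b ≤ α • (1 : Q) → s • E ≤ ε • (e * e) := by
      intro s hs
      have h1 := conj_le se hs
      have e1 : e * (a + s • b) * e = e * a * e + s • E := by
        rw [hE]
        simp only [mul_add, add_mul, mul_smul_comm, smul_mul_assoc]
      have e2 : e * (α • (1 : Q)) * e = α • (e * e) := by
        simp only [mul_smul_comm, smul_mul_assoc, mul_one]
      rw [e1, e2] at h1
      have h2 : (α - ε) • (e * e) + s • E ≤ α • (e * e) :=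
        (add_le_add_left he1 _).trans h1
      have h3 : s • E ≤ α • (e * e) - (α - ε) • (e * e) := le_sub_iff_add_le'.mpr h2
      have e3 : α • (e * e) - (α - ε) • (e * e) = ε • (e * e) := by module
      rwa [e3] at h3
    have hEp : c • E ≤ ε • (e * e) := conj1 c (by rw [nn]; exact s1p)
    have hEm : (-c) • E ≤ ε • (e * e) := conj1 (-c) (by rw [nn]; exact s1m)
    have hHp : H ≤ c • (f * f) := by
      have := conj_le sf (le_nrm sa')
      simpa only [mul_smul_comm, smul_mul_assoc, mul_one] using this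
    have hHm : -(c • (f * f)) ≤ H := by
      have := conj_le sf (neg_nrm_le sa')
      simpa only [mul_neg, neg_mul, mul_smul_comm, smul_mul_assoc, mul_one] using this
    have hEH : -(ε • ((e * e) * (f * f))) ≤ E * H := by
      by_cases hc0 : c = 0
      · have ha'0 : a' = 0 := norm_eq_zero.mp hc0
        have : H = 0 := by rw [hH, ha'0]; simp
        rw [this, mul_zero]
        have := smul_nonneg hεpos.le hT0
        simpa using this
      · have hcpos : 0 < c := lt_of_le_of_ne (norm_nonneg _) (Ne.symm hc0)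
        have e1 : E ≤ (ε / c) • (e * e) := by
          have := smul_le_smul_of_nonneg_left hEp (inv_nonneg.mpr hcpos.le)
          rw [smul_smul, smul_smul, inv_mul_cancel₀ hc0, one_smul, inv_mul_eq_div] at this
          exact this
        have e2 : -((ε / c) • (e * e)) ≤ E := by
          have := smul_le_smul_of_nonneg_left hEm (inv_nonneg.mpr hcpos.le)
          rw [smul_smul, smul_smul, mul_neg, inv_mul_cancel₀ hc0, neg_smul, one_smul,
            inv_mul_eq_div] at this
          exact neg_le.mp this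
        have hm := h.mul_ge hEQ (real_smul_mem Q₁ _ heeQ) hHQ (real_smul_mem Q₂ c hffQ) e2 e1 hHm hHp
        have e3 : ((ε / c) • (e * e)) * (c • (f * f)) = ε • ((e * e) * (f * f)) := by
          rw [smul_mul_smul_comm, div_mul_cancel₀ _ hc0]
        rwa [e3] at hm
    -- conjugating the sum
    have sg : star (e * f) = e * f := by
      rw [star_mul, se, sf]
      exact (h.comm e heQ f hfQ).symm.eq
    have hconj : (e * f) * (a + b' + b * a') * (e * f) ≤ 0 := by
      have := conj_le sg hS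
      simpa using this
    rw [h.conj_expand heQ hfQ ha hb ha' hb'] at hconj
    have hdiff : (e * a * e) * (f * f) + (e * e) * (f * b' * f) + E * H
        - (2 * α - 3 * ε) • ((e * e) * (f * f))
        = (e * a * e - (α - ε) • (e * e)) * (f * f)
          + (e * e) * (f * b' * f - (α - ε) • (f * f))
          + (E * H + ε • ((e * e) * (f * f))) := by
      simp only [sub_mul, mul_sub, smul_mul_assoc, mul_smul_comm]
      module
    have hnn : 0 ≤ (e * a * e) * (f * f) + (e * e) * (f * b' * f) + E * H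
        - (2 * α - 3 * ε) • ((e * e) * (f * f)) := by
      rw [hdiff]
      refine add_nonneg (add_nonneg ?_ ?_) ?_
      · refine Commute.mul_nonneg (sub_nonneg.mpr he1) hff0 (h.comm _ ?_ _ hffQ)
        exact Q₁.sub_mem (Q₁.mul_mem (Q₁.mul_mem heQ ha) heQ) (real_smul_mem Q₁ _ heeQ)
      · refine Commute.mul_nonneg hee0 (sub_nonneg.mpr ?_) (h.comm _ heeQ _ ?_)
        · exact hf1
        · exact Q₂.sub_mem (Q₂.mul_mem (Q₂.mul_mem hfQ hb') hfQ) (real_smul_mem Q₂ _ hffQ)
      · have := add_le_add_left hEH (ε • ((e * e) * (f * f)))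
        simpa using this
    have h0 : (2 * α - 3 * ε) • ((e * e) * (f * f)) ≤ 0 := (sub_nonneg.mp hnn).trans hconj
    have hcoef : 2 * α - 3 * ε = α := by rw [hε]; ring
    rw [hcoef] at h0
    have hT : (e * e) * (f * f) = 0 := by
      have := smul_le_smul_of_nonneg_left h0 (inv_nonneg.mpr hpos.le)
      rw [smul_smul, inv_mul_cancel₀ hpos.ne', one_smul, smul_zero] at this
      exact le_antisymm this hT0
    rcases h.sch _ heeQ _ hffQ hT with h1 | h1
    · exact mul_self_ne_zero_of_sa se hene h1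
    · exact mul_self_ne_zero_of_sa sf hfne h1
  have ha0 : a = 0 := norm_eq_zero.mp hα
  have hb'0 : b' = 0 := norm_eq_zero.mp (by rw [← nn]; exact hα)
  refine ⟨ha0, hb'0, ?_⟩
  -- the product term
  by_contra hcon
  push Not at hcon
  obtain ⟨hbne, ha'ne⟩ := hcon
  rw [ha0, hb'0] at hS
  have hβ : 0 < ‖b‖ := norm_pos_iff.mpr hbne
  have hμ : 0 < ‖a'‖ := norm_pos_iff.mpr ha'ne
  set ε := min ‖b‖ ‖a'‖ / 2 with hε
  have hεpos : 0 < ε := by
    have := lt_min hβ hμ
    positivity
  have hε1 : 0 < ‖b‖ - ε := by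
    have := min_le_left ‖b‖ ‖a'‖
    have := lt_min hβ hμ
    rw [hε]; linarith
  have hε2 : 0 < ‖a'‖ - ε := by
    have := min_le_right ‖b‖ ‖a'‖
    have := lt_min hβ hμ
    rw [hε]; linarith
  obtain ⟨e, heQ, he0, hene, he1, he2⟩ := h.bump₁ hb sb bab.1 hεpos
  obtain ⟨f, hfQ, hf0, hfne, hf1, hf2⟩ := h.symm.bump₁ ha' sa' baa'.1 hεpos
  have se := sa_of_nonneg he0
  have sf := sa_of_nonneg hf0
  have hee0 : 0 ≤ e * e := by
    have := star_mul_self_nonneg e
    rwa [se] at this
  have hff0 : 0 ≤ f * f := by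
    have := star_mul_self_nonneg f
    rwa [sf] at this
  have heeQ : e * e ∈ Q₁ := Q₁.mul_mem heQ heQ
  have hffQ : f * f ∈ Q₂ := Q₂.mul_mem hfQ hfQ
  have hT0 : 0 ≤ (e * e) * (f * f) := Commute.mul_nonneg hee0 hff0 (h.comm _ heeQ _ hffQ)
  set E := e * b * e with hE
  set H := f * a' * f with hH
  have hEQ : E ∈ Q₁ := Q₁.mul_mem (Q₁.mul_mem heQ hb) heQ
  have hHQ : H ∈ Q₂ := Q₂.mul_mem (Q₂.mul_mem hfQ ha') hfQ
  have sg : star (e * f) = e * f := by
    rw [star_mul, se, sf]
    exact (h.comm e heQ f hfQ).symm.eq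
  have hconj : (e * f) * ((0 : Q) + 0 + b * a') * (e * f) ≤ 0 := by
    have := conj_le sg hS
    simpa using this
  rw [h.conj_expand heQ hfQ Q₁.zero_mem hb ha' Q₂.zero_mem] at hconj
  simp only [mul_zero, zero_mul, zero_add] at hconj
  set l := ‖b‖ - ε with hl
  set n := ‖a'‖ - ε with hn
  have hH0 : 0 ≤ H := by
    refine le_trans ?_ hf1
    exact smul_nonneg hε2.le hff0
  have hdiff : E * H - (l * n) • ((e * e) * (f * f))
      = (E - l • (e * e)) * H + l • ((e * e) * (H - n • (f * f))) := by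
    simp only [sub_mul, mul_sub, smul_mul_assoc, mul_smul_comm, smul_sub, smul_smul]
    abel
  have hnn : 0 ≤ E * H - (l * n) • ((e * e) * (f * f)) := by
    rw [hdiff]
    refine add_nonneg ?_ (smul_nonneg hε1.le ?_)
    · exact Commute.mul_nonneg (sub_nonneg.mpr he1) hH0
        (h.comm _ (Q₁.sub_mem hEQ (real_smul_mem Q₁ _ heeQ)) _ hHQ)
    · exact Commute.mul_nonneg hee0 (sub_nonneg.mpr hf1)
        (h.comm _ heeQ _ (Q₂.sub_mem hHQ (real_smul_mem Q₂ _ hffQ)))
  have h0 : (l * n) • ((e * e) * (f * f)) ≤ 0 := (sub_nonneg.mp hnn).trans hconj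
  have hpos : 0 < l * n := mul_pos hε1 hε2
  have hT : (e * e) * (f * f) = 0 := by
    have := smul_le_smul_of_nonneg_left h0 (inv_nonneg.mpr hpos.le)
    rw [smul_smul, inv_mul_cancel₀ hpos.ne', one_smul, smul_zero] at this
    exact le_antisymm this hT0
  rcases h.sch _ heeQ _ hffQ hT with h1 | h1
  · exact mul_self_ne_zero_of_sa se hene h1
  · exact mul_self_ne_zero_of_sa sf hfne h1


end Slice

/-- Positive and negative part of `star c * c - c * star c` when `c * c = 0`. -/
lemma cfc_pos_neg {c : Q} (hc : c * c = 0) :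
    cfc (fun x : ℝ => max x 0) (star c * c - c * star c) = star c * c ∧
    cfc (fun x : ℝ => max (-x) 0) (star c * c - c * star c) = c * star c := by
  set a : Q := star c * c - c * star c with ha
  have hP0 : 0 ≤ star c * c := star_mul_self_nonneg c
  have hM0 : 0 ≤ c * star c := mul_star_self_nonneg c
  have hPM : star c * c * (c * star c) = 0 := by
    rw [mul_assoc, ← mul_assoc c c, hc]; simp
  obtain ⟨hp, hm⟩ := CFC.posPart_negPart_unique (a := a) rfl hPM hP0 hM0
  have hmaxc : Continuous (fun x : ℝ => max x 0) := by fun_prop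
  have hmaxn : Continuous (fun x : ℝ => max (-x) 0) := by fun_prop
  constructor
  · rw [← hp, CFC.posPart_def]
    have : cfcₙ (fun x : ℝ => x⁺) a = cfc (fun x : ℝ => x⁺) a :=
      cfcₙ_eq_cfc (hf := by
        have : Continuous (fun x : ℝ => x⁺) := hmaxc
        exact this.continuousOn) (hf0 := by simp)
    rw [this]
    rfl
  · rw [← hm, CFC.negPart_def]
    have : cfcₙ (fun x : ℝ => x⁻) a = cfc (fun x : ℝ => x⁻) a :=
      cfcₙ_eq_cfc (hf := by
        have : Continuous (fun x : ℝ => x⁻) := hmaxn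
        exact this.continuousOn) (hf0 := by simp)
    rw [this]
    rfl

/-- The difference `star c * c - c * star c` of a square-zero element is balanced. -/
lemma balanced_of_sq_zero [Nontrivial Q] {c : Q} (hc : c * c = 0) :
    ‖star c * c - c * star c‖ ∈ spectrum ℝ (star c * c - c * star c) ∧
    -‖star c * c - c * star c‖ ∈ spectrum ℝ (star c * c - c * star c) := by
  set a : Q := star c * c - c * star c with ha
  obtain ⟨hp, hm⟩ := cfc_pos_neg hc
  rw [← ha] at hp hm
  have hsa : IsSelfAdjoint a := by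
    rw [IsSelfAdjoint, ha]
    simp [star_sub, star_mul]
  have hmaxc : Continuous (fun x : ℝ => max x 0) := by fun_prop
  have hmaxn : Continuous (fun x : ℝ => max (-x) 0) := by fun_prop
  have hP0 : 0 ≤ star c * c := star_mul_self_nonneg c
  have hM0 : 0 ≤ c * star c := mul_star_self_nonneg c
  set N := ‖star c * c‖ with hN
  have hNM : ‖c * star c‖ = N := by
    rw [hN, CStarRing.norm_star_mul_self, CStarRing.norm_self_mul_star]
  have hN0 : 0 ≤ N := norm_nonneg _
  have h1 : N ∈ spectrum ℝ (star c * c) := CStarAlgebra.norm_mem_spectrum_of_nonneg hP0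
  have h2 : N ∈ spectrum ℝ (c * star c) := by
    rw [← hNM]; exact CStarAlgebra.norm_mem_spectrum_of_nonneg hM0
  have specP : spectrum ℝ (star c * c) = (fun x : ℝ => max x 0) '' spectrum ℝ a := by
    rw [← hp, cfc_map_spectrum _ a hsa hmaxc.continuousOn]
  have specM : spectrum ℝ (c * star c) = (fun x : ℝ => max (-x) 0) '' spectrum ℝ a := by
    rw [← hm, cfc_map_spectrum _ a hsa hmaxn.continuousOn]
  rw [specP] at h1
  rw [specM] at h2
  obtain ⟨t₁, ht₁, ht₁e⟩ := h1
  obtain ⟨t₂, ht₂, ht₂e⟩ := h2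
  change max t₁ 0 = N at ht₁e
  change max (-t₂) 0 = N at ht₂e
  by_cases hNz : N = 0
  · have hc0 : c = 0 := by
      have : ‖c‖ * ‖c‖ = 0 := by rw [← CStarRing.norm_star_mul_self]; exact hNz
      have : ‖c‖ = 0 := by simpa using this
      exact norm_eq_zero.mp this
    have ha0 : a = 0 := by rw [ha, hc0]; simp
    rw [ha0]
    simp [spectrum.zero_eq]
  · have hNpos : 0 < N := lt_of_le_of_ne hN0 (Ne.symm hNz)
    have ht1 : t₁ = N := by
      rcases le_total t₁ 0 with h | h
      · rw [max_eq_right h] at ht₁e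
        linarith
      · rw [max_eq_left h] at ht₁e
        exact ht₁e
    have ht2 : t₂ = -N := by
      rcases le_total (-t₂) 0 with h | h
      · rw [max_eq_right h] at ht₂e
        linarith
      · rw [max_eq_left h] at ht₂e
        linarith
    rw [ht1] at ht₁
    rw [ht2] at ht₂
    have hle : ‖a‖ ≤ N := by
      rcases CStarAlgebra.norm_or_neg_norm_mem_spectrum hsa with h | h
      · have hm : max ‖a‖ 0 ∈ spectrum ℝ (star c * c) := by
          rw [specP]; exact ⟨_, h, rfl⟩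
        rw [max_eq_left (norm_nonneg a)] at hm
        have := spectrum.norm_le_norm_of_mem hm
        simpa using this
      · have hm : max (- -‖a‖) 0 ∈ spectrum ℝ (c * star c) := by
          rw [specM]; exact ⟨_, h, rfl⟩
        rw [neg_neg, max_eq_left (norm_nonneg a)] at hm
        have := spectrum.norm_le_norm_of_mem hm
        rw [hNM] at this
        simpa using this
    have hge : N ≤ ‖a‖ := by
      have := spectrum.norm_le_norm_of_mem ht₁
      simpa [abs_of_nonneg hN0] using this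
    have hne : ‖a‖ = N := le_antisymm hle hge
    rw [hne]
    exact ⟨ht₁, ht₂⟩

end Vale.Agent.Lib.P101
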