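import Vale.Agent.Lib.P101.Reindex
import Vale.Agent.Lib.P101.Assemble

set_option linter.unusedSimpArgs false
set_option linter.unusedVariables false
set_option linter.unusedSectionVars false

open Filter Topology
open scoped BoundedContinuousFunction CStarAlgebra

namespace Vale.Agent.Lib.P101

universe u

/-- The forward direction: no characters gives the generators. -/
theorem exists_generators {A : Type u} [CStarAlgebra A] [TopologicalSpace.SeparableSpace A]
    (ω : Ultrafilter ℕ) (hω : (ω : Filter ℕ) ≤ cofinite)
    (hχ : IsEmpty (Fω A ω →⋆ₐ[ℂ] ℂ)) :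
    ∃ t s : Fω A ω, t * t = 0 ∧ star t * t + t * star t + star s * s = 1 ∧ star t * t * s = s := by
  haveI : IsClosed (Fω A ω : Set (Aω A ω)) := isClosed_central isCentralAlg_Fω
  exact abstract_main (hasCopies_of hω isCentralAlg_Fω) hχ

/-- The easy converse direction. -/
theorem no_char_of_generators {R : Type*} [Ring R] [StarRing R] [Algebra ℂ R] {t s : R}
    (h1 : t * t = 0) (h2 : star t * t + t * star t + star s * s = 1) (h3 : star t * t * s = s) :
    IsEmpty (R →⋆ₐ[ℂ] ℂ) := by
  refine ⟨fun χ => ?_⟩
  have a1 : χ t = 0 := by
    have := congrArg χ h1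
    simpa using this
  have a2 : χ s = 0 := by
    have := congrArg χ h3
    simp only [map_mul, a1, mul_zero, zero_mul] at this
    exact this.symm
  have a3 := congrArg χ h2
  simp [a1, a2] at a3

end Vale.Agent.Lib.P101
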