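import Mathlib

set_option linter.unusedSimpArgs false
set_option linter.unusedVariables false
set_option linter.unusedSectionVars false
set_option linter.style.haveILetI false

open scoped ComplexOrder CStarAlgebra

namespace Vale.Agent.Lib.P101

universe u

variable {E : Type u} [CStarAlgebra E]

/-- A closed two-sided star ideal, as a submodule. -/
structure IsCSI (J : Submodule ℂ E) : Prop where
  closed : IsClosed (J : Set E)
  left : ∀ a x, x ∈ J → a * x ∈ J
  right : ∀ a x, x ∈ J → x * a ∈ J
  star_mem : ∀ x, x ∈ J → star x ∈ J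

lemma one_mem_of_unit {J : Submodule ℂ E} (hJ : IsCSI J) {y : E} (hy : y ∈ J) (hu : IsUnit y) :
    (1 : E) ∈ J := by
  obtain ⟨w, rfl⟩ := hu
  have := hJ.left (↑w⁻¹ : E) _ hy
  simpa using this

/-- Every proper closed star ideal lies in a maximal one. -/
theorem exists_maximal_csi (J₀ : Submodule ℂ E) (h₀ : IsCSI J₀) (h1 : (1 : E) ∉ J₀) :
    ∃ J : Submodule ℂ E, J₀ ≤ J ∧ IsCSI J ∧ (1 : E) ∉ J ∧
      ∀ J' : Submodule ℂ E, IsCSI J' → (1 : E) ∉ J' → J ≤ J' → J' ≤ J := by
  let s : Set (Submodule ℂ E) := {J | IsCSI J ∧ (1 : E) ∉ J}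
  have hz : ∀ c ⊆ s, IsChain (· ≤ ·) c → ∀ y ∈ c, ∃ ub ∈ s, ∀ z ∈ c, z ≤ ub := by
    intro c hcs hc y hy
    have hdir : DirectedOn (· ≤ ·) c := hc.directedOn
    have hne : c.Nonempty := ⟨y, hy⟩
    have hmem : ∀ {x}, x ∈ sSup c → ∃ J ∈ c, x ∈ J := fun {x} hx =>
      (Submodule.mem_sSup_of_directed hne hdir).mp hx
    have hsub : ∀ J ∈ c, J ≤ sSup c := fun J hJ => le_sSup hJ
    refine ⟨(sSup c).topologicalClosure, ⟨⟨Submodule.isClosed_topologicalClosure _, ?_, ?_, ?_⟩, ?_⟩,
      fun z hz => (hsub z hz).trans (Submodule.le_topologicalClosure _)⟩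
    · intro a x hx
      refine map_mem_closure (f := fun b => a * b) (continuous_const.mul continuous_id) hx (fun w hw => ?_)
      obtain ⟨J, hJ, hwJ⟩ := hmem hw
      exact hsub J hJ ((hcs hJ).1.left a w hwJ)
    · intro a x hx
      refine map_mem_closure (f := fun b => b * a) (continuous_id.mul continuous_const) hx (fun w hw => ?_)
      obtain ⟨J, hJ, hwJ⟩ := hmem hw
      exact hsub J hJ ((hcs hJ).1.right a w hwJ)
    · intro x hx
      refine map_mem_closure continuous_star hx (fun w hw => ?_)
      obtain ⟨J, hJ, hwJ⟩ := hmem hw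
      exact hsub J hJ ((hcs hJ).1.star_mem w hwJ)
    · intro hone
      obtain ⟨w, hw, hd⟩ := Metric.mem_closure_iff.mp hone 1 one_pos
      obtain ⟨J, hJ, hwJ⟩ := hmem hw
      refine (hcs hJ).2 (one_mem_of_unit (hcs hJ).1 hwJ ?_)
      have : IsUnit (1 - (1 - w)) := isUnit_one_sub_of_norm_lt_one (by
        rwa [dist_eq_norm] at hd)
      simpa using this
  obtain ⟨J, hJ₀, hJ⟩ := zorn_le_nonempty₀ s hz J₀ ⟨h₀, h1⟩
  exact ⟨J, hJ₀, hJ.prop.1, hJ.prop.2, fun J' h1' h2' hle => hJ.le_of_ge ⟨h1', h2'⟩ hle⟩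

section Positive

variable [PartialOrder E] [StarOrderedRing E]

/-- A norm-one unital linear functional on a unital C*-algebra is positive. -/
theorem nonneg_of_norm_le (f : E →ₗ[ℂ] ℂ) (h1 : f 1 = 1) (hf : ∀ x, ‖f x‖ ≤ ‖x‖) {x : E}
    (hx : 0 ≤ x) : 0 ≤ f x := by
  rcases subsingleton_or_nontrivial E with hE | hE
  · have : (1 : E) = 0 := Subsingleton.elim _ _
    rw [this, map_zero] at h1
    exact absurd h1 zero_ne_one
  have hsa : IsSelfAdjoint x := hx.isSelfAdjoint
  -- the imaginary part vanishes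
  have him : (f x).im = 0 := by
    by_contra hne
    set β := (f x).im with hβ
    set α := (f x).re with hα
    set t : ℝ := (‖x‖ ^ 2 + 1) / (2 * β) with ht
    set e : E := Complex.I • (1 : E) with he
    have hee : e * e = -1 := by
      rw [he, smul_mul_smul_comm, Complex.I_mul_I, mul_one, neg_smul, one_smul]
    have hs : star e = -e := by
      rw [he, star_smul, star_one, Complex.star_def, Complex.conj_I, neg_smul]
    have hc : e * x = x * e := by
      rw [he, smul_mul_assoc, mul_smul_comm, one_mul, mul_one]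
    have hz : star (x + t • e) * (x + t • e) = x * x + (t ^ 2) • (1 : E) := by
      have s1 : star (x + t • e) = x - t • e := by
        rw [star_add, star_smul, hsa.star_eq, hs, star_trivial, smul_neg, sub_eq_add_neg]
      rw [s1]
      have : (x - t • e) * (x + t • e) = x * x + t • (x * e) - t • (e * x) - (t * t) • (e * e) := by
        have gen : ∀ J : E, (x - J) * (x + J) = x * x + x * J - J * x - J * J := fun J => by
          noncomm_ring
        rw [gen, mul_smul_comm, smul_mul_assoc, smul_mul_smul_comm]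
      rw [this, hc, hee, sq]
      simp
    have hmain : ‖x + t • e‖ ^ 2 ≤ ‖x‖ ^ 2 + t ^ 2 := by
      rw [sq, ← CStarRing.norm_star_mul_self, hz]
      calc ‖x * x + (t ^ 2) • (1 : E)‖ ≤ ‖x * x‖ + ‖(t ^ 2) • (1 : E)‖ := norm_add_le _ _
        _ ≤ ‖x‖ ^ 2 + t ^ 2 := by
          have e1 : ‖x * x‖ ≤ ‖x‖ ^ 2 := by rw [sq]; exact norm_mul_le _ _
          have e2 : ‖(t ^ 2) • (1 : E)‖ = t ^ 2 := by
            rw [norm_smul, CStarRing.norm_one, mul_one, Real.norm_eq_abs, abs_of_nonneg (sq_nonneg t)]
          linarith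
    have hfz : f (x + t • e) = f x + (t : ℂ) * Complex.I := by
      have : t • e = ((t : ℂ) * Complex.I) • (1 : E) := by
        rw [he, mul_smul, Complex.coe_smul]
      rw [map_add, this, map_smul, h1, smul_eq_mul, mul_one]
    have hn : ‖f (x + t • e)‖ ^ 2 = α ^ 2 + (β + t) ^ 2 := by
      rw [hfz, Complex.sq_norm, Complex.normSq_apply]
      simp [hα, hβ]
      ring
    have hle : ‖f (x + t • e)‖ ^ 2 ≤ ‖x + t • e‖ ^ 2 := by
      gcongr
      exact hf _
    have hbt : 2 * β * t = ‖x‖ ^ 2 + 1 := by
      rw [ht]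
      field_simp
    nlinarith [sq_nonneg α, sq_nonneg β]
  -- the real part is nonnegative
  set r : ℝ := ‖x‖ with hr
  have hr0 : 0 ≤ r := norm_nonneg _
  have hw0 : 0 ≤ algebraMap ℝ E r - x := sub_nonneg.mpr (IsSelfAdjoint.le_algebraMap_norm_self hsa)
  have hw1 : algebraMap ℝ E r - x ≤ algebraMap ℝ E r := sub_le_self _ hx
  have hw2 : ‖algebraMap ℝ E r - x‖ ≤ r := (CStarAlgebra.norm_le_iff_le_algebraMap _ hr0 hw0).mpr hw1
  have hfw : f (algebraMap ℝ E r - x) = (r : ℂ) - f x := by
    rw [map_sub, Algebra.algebraMap_eq_smul_one, ← Complex.coe_smul, map_smul, h1, smul_eq_mul, mul_one]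
  have h3 : ‖(r : ℂ) - f x‖ ≤ r := by
    rw [← hfw]
    exact (hf _).trans hw2
  have h4 : |r - (f x).re| ≤ r := by
    have := Complex.abs_re_le_norm ((r : ℂ) - f x)
    simp at this
    exact this.trans h3
  have h5 : 0 ≤ (f x).re := by
    have := (abs_le.mp h4).2
    linarith
  rw [Complex.le_def]
  exact ⟨by simpa using h5, by simpa using him.symm⟩

end Positive


/-- A prime representation. -/
def IsPrimeRep {Q : Type*} [CStarAlgebra Q] (π : E →⋆ₐ[ℂ] Q) : Prop :=
  ∀ x y : E, (∀ z, π (x * z * y) = 0) → π x = 0 ∨ π y = 0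

section Rep

variable {Q : Type*} [CStarAlgebra Q]

lemma star_mul_self_map_eq_zero (π : E →⋆ₐ[ℂ] Q) {x : E} (h : π (star x * x) = 0) : π x = 0 := by
  rw [map_mul, map_star] at h
  exact CStarRing.star_mul_self_eq_zero_iff _ |>.mp h

/-- The kernel of a star homomorphism into a C*-algebra is a closed star ideal. -/
lemma ker_isCSI (π : E →⋆ₐ[ℂ] Q) : IsCSI (LinearMap.ker π.toAlgHom.toLinearMap) where
  closed := by
    have : (LinearMap.ker π.toAlgHom.toLinearMap : Set E) = {x | π x = 0} := by
      ext x; simp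
    rw [this]
    exact isClosed_eq (map_continuous π) continuous_const
  left a x hx := by
    simp only [LinearMap.mem_ker] at hx ⊢
    have hx' : π x = 0 := by simpa using hx
    simp [map_mul, hx']
  right a x hx := by
    simp only [LinearMap.mem_ker] at hx ⊢
    have hx' : π x = 0 := by simpa using hx
    simp [map_mul, hx']
  star_mem x hx := by
    simp only [LinearMap.mem_ker] at hx ⊢
    have hx' : π x = 0 := by simpa using hx
    simp [map_star, hx']

end Rep

/-- A maximal closed star ideal is the kernel of a prime representation. -/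
theorem exists_prime_rep_of_csi (J₀ : Submodule ℂ E) (h₀ : IsCSI J₀) (h1 : (1 : E) ∉ J₀) :
    ∃ (Q : Type u) (_ : CStarAlgebra Q) (π : E →⋆ₐ[ℂ] Q), Nontrivial Q ∧ IsPrimeRep π ∧
      ∀ x ∈ J₀, π x = 0 := by
  letI : PartialOrder E := CStarAlgebra.spectralOrder E
  haveI : StarOrderedRing E := CStarAlgebra.spectralOrderedRing E
  obtain ⟨J, hJ₀, hJ, h1J, hmax⟩ := exists_maximal_csi J₀ h₀ h1
  haveI hcl : IsClosed (J : Set E) := hJ.closed
  -- a state vanishing on J
  obtain ⟨g, hg1, hg2⟩ := exists_dual_vector'' ℂ (Submodule.Quotient.mk (1 : E) : E ⧸ J)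
  have hq1 : ‖(Submodule.Quotient.mk (1 : E) : E ⧸ J)‖ = 1 := by
    haveI : Nontrivial E := by
      by_contra hE
      rw [not_nontrivial_iff_subsingleton] at hE
      exact h1J (by rw [Subsingleton.elim (1 : E) 0]; exact J.zero_mem)
    apply le_antisymm
    · refine (Submodule.Quotient.norm_mk_le J (1 : E)).trans ?_
      rw [CStarRing.norm_one]
    · by_contra hlt
      push Not at hlt
      obtain ⟨m, hm, hm2⟩ := Submodule.Quotient.norm_mk_lt (Submodule.Quotient.mk (1 : E) : E ⧸ J)
        (sub_pos.mpr hlt)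
      have hm3 : ‖m‖ < 1 := by linarith
      have hmem : (1 : E) - m ∈ J := by
        have := (Submodule.Quotient.eq J).mp hm.symm
        simpa using this
      exact h1J (one_mem_of_unit hJ hmem (isUnit_one_sub_of_norm_lt_one hm3))
  let f : E →ₗ[ℂ] ℂ := g.toLinearMap ∘ₗ J.mkQ
  have hf1 : f 1 = 1 := by
    change g (Submodule.Quotient.mk (1 : E)) = 1
    rw [hg2, hq1]; simp
  have hfn : ∀ x, ‖f x‖ ≤ ‖x‖ := by
    intro x
    change ‖g (Submodule.Quotient.mk x)‖ ≤ ‖x‖
    calc ‖g (Submodule.Quotient.mk x)‖ ≤ ‖g‖ * ‖(Submodule.Quotient.mk x : E ⧸ J)‖ := g.le_opNorm _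
      _ ≤ 1 * ‖x‖ := by
        gcongr
        exact Submodule.Quotient.norm_mk_le J x
      _ = ‖x‖ := one_mul _
  have hfJ : ∀ x ∈ J, f x = 0 := by
    intro x hx
    change g (Submodule.Quotient.mk x) = 0
    rw [(Submodule.Quotient.mk_eq_zero J).mpr hx, map_zero]
  let φ : E →ₚ[ℂ] ℂ := PositiveLinearMap.mk₀ f (fun x hx => nonneg_of_norm_le f hf1 hfn hx)
  have hφ : ∀ x, φ x = f x := fun x => rfl
  let π := φ.gnsStarAlgHom
  -- vectors
  let vec : E → φ.GNS := fun b => ((φ.toPreGNS b : φ.PreGNS) : φ.GNS)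
  have hπ : ∀ (x b : E), π x (vec b) = vec (x * b) := by
    intro x b
    exact (φ.gnsNonUnitalStarAlgHom_apply_coe (a := x) (b := φ.toPreGNS b))
  have hnorm : ∀ b : E, ‖vec b‖ ^ 2 = (f (star b * b)).re := by
    intro b
    have h1 : ‖vec b‖ = ‖(φ.toPreGNS b : φ.PreGNS)‖ := UniformSpace.Completion.norm_coe _
    rw [h1]
    have h2 := φ.preGNS_norm_sq (φ.toPreGNS b)
    have h3 : ((‖(φ.toPreGNS b : φ.PreGNS)‖ ^ 2 : ℝ) : ℂ) = f (star b * b) := by
      push_cast
      exact h2
    rw [← h3, Complex.ofReal_re]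
  -- π kills J
  have hkill : ∀ x ∈ J, π x = 0 := by
    intro x hx
    ext v
    induction v using UniformSpace.Completion.induction_on with
    | hp => exact isClosed_eq (by fun_prop) (by fun_prop)
    | ih b =>
      change π x (vec (φ.ofPreGNS b)) = _
      rw [hπ]
      simp only [zero_apply]
      have : ‖vec (x * φ.ofPreGNS b)‖ ^ 2 = 0 := by
        rw [hnorm, hfJ _ (hJ.left _ _ (hJ.right _ _ hx))]
        simp
      have h0 : ‖vec (x * φ.ofPreGNS b)‖ = 0 := by
        simpa using this
      exact norm_eq_zero.mp h0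
  -- the representation is nonzero
  have hnt : Nontrivial (φ.GNS →L[ℂ] φ.GNS) := by
    refine ⟨⟨1, 0, fun h => ?_⟩⟩
    have h1 : π 1 (vec 1) = vec 1 := by
      rw [map_one]; rfl
    have h2 : (0 : φ.GNS) = vec 1 := by
      have := congrArg (fun T : φ.GNS →L[ℂ] φ.GNS => T (vec 1)) h
      simpa using this.symm
    have h3 := hnorm 1
    rw [← h2] at h3
    simp [hf1] at h3
  have hmaxJ : ∀ x, π x = 0 → x ∈ J := by
    intro x hx
    have h := hmax _ (ker_isCSI π) (fun h1' => by
      have : π 1 = 0 := h1'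
      rw [map_one] at this
      exact one_ne_zero this) (fun y hy => by
      simpa using hkill y hy)
    exact h (by simpa using hx)
  refine ⟨φ.GNS →L[ℂ] φ.GNS, inferInstance, π, hnt, ?_, fun x hx => hkill x (hJ₀ hx)⟩
  -- primeness
  intro x y hxy
  by_contra hcon
  push Not at hcon
  obtain ⟨hx, hy⟩ := hcon
  set a := star x * x with ha
  set b := y * star y with hb
  have hab : ∀ z, π (a * z * b) = 0 := by
    intro z
    have : a * z * b = star x * (x * z * y) * star y := by
      simp only [ha, hb, mul_assoc]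
    rw [this, map_mul, map_mul, hxy z]
    simp
  let I' : Submodule ℂ E :=
    { carrier := {w | ∀ z, π (w * z * b) = 0 ∧ π (star w * z * b) = 0}
      add_mem' := by
        intro u w hu hw z
        simp only [star_add, add_mul, map_add, (hu z).1, (hw z).1, (hu z).2, (hw z).2, add_zero,
          and_self]
      zero_mem' := by
        intro z
        simp
      smul_mem' := by
        intro r w hw z
        simp only [star_smul, smul_mul_assoc, map_smul, (hw z).1, (hw z).2, smul_zero, and_self] }
  have hI' : IsCSI I' := by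
    refine ⟨?_, ?_, ?_, ?_⟩
    · have : (I' : Set E) = ⋂ z, ({w | π (w * z * b) = 0} ∩ {w | π (star w * z * b) = 0}) := by
        ext w
        simp only [Set.mem_iInter, Set.mem_inter_iff, Set.mem_ofPred_eq]
        rfl
      rw [this]
      refine isClosed_iInter (fun z => IsClosed.inter ?_ ?_)
      · exact isClosed_eq ((map_continuous π).comp (by fun_prop)) continuous_const
      · exact isClosed_eq ((map_continuous π).comp (by fun_prop)) continuous_const
    · intro u w hw z
      constructor
      · have h := (hw z).1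
        have e : u * w * z * b = u * (w * z * b) := by simp only [mul_assoc]
        rw [e, map_mul, h, mul_zero]
      · have h := (hw (star u * z)).2
        have e : star (u * w) * z * b = star w * (star u * z) * b := by
          simp only [star_mul, mul_assoc]
        rw [e, h]
    · intro u w hw z
      constructor
      · have h := (hw (u * z)).1
        have e : w * u * z * b = w * (u * z) * b := by simp only [mul_assoc]
        rw [e, h]
      · have h := (hw z).2
        have e : star (w * u) * z * b = star u * (star w * z * b) := by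
          simp only [star_mul, mul_assoc]
        rw [e, map_mul, h, mul_zero]
    · intro w hw z
      exact ⟨(hw z).2, by simpa using (hw z).1⟩
  have hJI : J ≤ I' := by
    intro w hw z
    have h1 : π w = 0 := hkill w hw
    have h2 : π (star w) = 0 := hkill _ (hJ.star_mem w hw)
    simp [map_mul, h1, h2]
  have haI : a ∈ I' := by
    intro z
    have hsa : star a = a := by simp [ha, star_mul]
    rw [hsa]
    exact ⟨hab z, hab z⟩
  have haJ : a ∉ J := by
    intro h
    exact hx (star_mul_self_map_eq_zero π (hkill _ h))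
  have hone : (1 : E) ∈ I' := by
    by_contra hnot
    exact haJ (hmax I' hI' hnot hJI haI)
  have hb0 : π b = 0 := by
    have := (hone 1).1
    simpa using this
  apply hy
  have : π (star (star y) * star y) = 0 := by
    rw [star_star]; exact hb0
  have h2 := star_mul_self_map_eq_zero π this
  rw [map_star] at h2
  simpa using h2


/-- `Γ` is jointly full, with an explicit certificate. -/
def Cert (Γ : Set E) : Prop :=
  ∃ (m : ℕ) (c x : Fin m → E), (∀ k, c k ∈ Γ) ∧ ∑ k, star (x k) * (star (c k) * c k) * x k = 1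

/-- Joint fullness can be tested on prime representations. -/
theorem cert_or_prime (Γ : Set E) : Cert Γ ∨
    ∃ (Q : Type u) (_ : CStarAlgebra Q) (π : E →⋆ₐ[ℂ] Q), Nontrivial Q ∧ IsPrimeRep π ∧
      ∀ c ∈ Γ, π c = 0 := by
  letI : PartialOrder E := CStarAlgebra.spectralOrder E
  haveI : StarOrderedRing E := CStarAlgebra.spectralOrderedRing E
  let G : Set E := {y | ∃ c ∈ Γ, ∃ x : E, y = star x * (star c * c) * x}
  let P : AddSubmonoid E := AddSubmonoid.closure G
  have hPconj : ∀ T ∈ P, ∀ w : E, star w * T * w ∈ P := by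
    intro T hT w
    induction hT using AddSubmonoid.closure_induction with
    | mem T hT =>
      obtain ⟨c, hc, x, rfl⟩ := hT
      refine AddSubmonoid.subset_closure ⟨c, hc, x * w, ?_⟩
      simp only [star_mul, mul_assoc]
    | zero => simp
    | add a b _ _ ha hb =>
      have := P.add_mem ha hb
      simpa only [mul_add, add_mul] using this
  have hPnn : ∀ T ∈ P, 0 ≤ T := by
    intro T hT
    induction hT using AddSubmonoid.closure_induction with
    | mem T hT =>
      obtain ⟨c, hc, x, rfl⟩ := hT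
      exact star_left_conjugate_nonneg (star_mul_self_nonneg c) x
    | zero => exact le_rfl
    | add a b _ _ ha hb => exact add_nonneg ha hb
  have hPcert : ∀ T ∈ P, ∃ (m : ℕ) (c x : Fin m → E), (∀ k, c k ∈ Γ) ∧
      ∑ k, star (x k) * (star (c k) * c k) * x k = T := by
    intro T hT
    induction hT using AddSubmonoid.closure_induction with
    | mem T hT =>
      obtain ⟨c, hc, x, rfl⟩ := hT
      exact ⟨1, fun _ => c, fun _ => x, fun _ => hc, by simp⟩
    | zero => exact ⟨0, Fin.elim0, Fin.elim0, fun k => k.elim0, by simp⟩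
    | add a b _ _ ha hb =>
      obtain ⟨m₁, c₁, x₁, h₁, rfl⟩ := ha
      obtain ⟨m₂, c₂, x₂, h₂, rfl⟩ := hb
      refine ⟨m₁ + m₂, Fin.append c₁ c₂, Fin.append x₁ x₂, ?_, ?_⟩
      · intro k
        induction k using Fin.addCases with
        | left i => simpa using h₁ i
        | right i => simpa using h₂ i
      · rw [Fin.sum_univ_add]
        simp
  let S₀ : Set E := {y | ∃ c ∈ Γ, ∃ a b : E, y = star a * (star c * c) * b}
  let A₀ : AddSubmonoid E := AddSubmonoid.closure S₀
  have hA₀smul : ∀ (r : ℂ) (y : E), y ∈ A₀ → r • y ∈ A₀ := by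
    intro r y hy
    induction hy using AddSubmonoid.closure_induction with
    | mem y hy =>
      obtain ⟨c, hc, a, b, rfl⟩ := hy
      refine AddSubmonoid.subset_closure ⟨c, hc, a, r • b, ?_⟩
      simp only [mul_smul_comm]
    | zero => simp
    | add u w _ _ hu hw =>
      rw [smul_add]
      exact A₀.add_mem hu hw
  let I₀ : Submodule ℂ E := { A₀ with smul_mem' := hA₀smul }
  have hmemI : ∀ y, y ∈ I₀ ↔ y ∈ A₀ := fun y => Iff.rfl
  have hA₀left : ∀ u y, y ∈ A₀ → u * y ∈ A₀ := by
    intro u y hy
    induction hy using AddSubmonoid.closure_induction with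
    | mem y hy =>
      obtain ⟨c, hc, a, b, rfl⟩ := hy
      refine AddSubmonoid.subset_closure ⟨c, hc, a * star u, b, ?_⟩
      simp only [star_mul, star_star, mul_assoc]
    | zero => simp
    | add v w _ _ hv hw =>
      rw [mul_add]
      exact A₀.add_mem hv hw
  have hA₀right : ∀ u y, y ∈ A₀ → y * u ∈ A₀ := by
    intro u y hy
    induction hy using AddSubmonoid.closure_induction with
    | mem y hy =>
      obtain ⟨c, hc, a, b, rfl⟩ := hy
      refine AddSubmonoid.subset_closure ⟨c, hc, a, b * u, ?_⟩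
      simp only [mul_assoc]
    | zero => simp
    | add v w _ _ hv hw =>
      rw [add_mul]
      exact A₀.add_mem hv hw
  have hA₀star : ∀ y, y ∈ A₀ → star y ∈ A₀ := by
    intro y hy
    induction hy using AddSubmonoid.closure_induction with
    | mem y hy =>
      obtain ⟨c, hc, a, b, rfl⟩ := hy
      refine AddSubmonoid.subset_closure ⟨c, hc, b, a, ?_⟩
      simp only [star_mul, star_star, mul_assoc]
    | zero => simp
    | add v w _ _ hv hw =>
      rw [star_add]
      exact A₀.add_mem hv hw
  have hpol : ∀ y, y ∈ A₀ → ∃ T₁ ∈ P, ∃ T₂ ∈ P, (2 : ℝ) • (y + star y) = T₁ - T₂ := by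
    intro y hy
    induction hy using AddSubmonoid.closure_induction with
    | mem y hy =>
      obtain ⟨c, hc, a, b, rfl⟩ := hy
      refine ⟨_, AddSubmonoid.subset_closure ⟨c, hc, a + b, rfl⟩, _,
        AddSubmonoid.subset_closure ⟨c, hc, a - b, rfl⟩, ?_⟩
      have hsh : star (star c * c) = star c * c := by simp [star_mul]
      have e : star (star a * (star c * c) * b) = star b * (star c * c) * a := by
        simp only [star_mul, star_star, mul_assoc]
      rw [e, two_smul]
      generalize star c * c = h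
      simp only [star_add, star_sub, add_mul, mul_add, sub_mul, mul_sub]
      abel
    | zero =>
      exact ⟨0, P.zero_mem, 0, P.zero_mem, by simp⟩
    | add u w _ _ hu hw =>
      obtain ⟨T₁, hT₁, T₂, hT₂, h⟩ := hu
      obtain ⟨T₃, hT₃, T₄, hT₄, h'⟩ := hw
      refine ⟨T₁ + T₃, P.add_mem hT₁ hT₃, T₂ + T₄, P.add_mem hT₂ hT₄, ?_⟩
      have : u + w + star (u + w) = (u + star u) + (w + star w) := by
        rw [star_add]; abel
      rw [this, smul_add, h, h']
      abel
  have hI : IsCSI I₀.topologicalClosure := by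
    refine ⟨Submodule.isClosed_topologicalClosure _, ?_, ?_, ?_⟩
    · intro a x hx
      exact map_mem_closure (f := fun b => a * b) (continuous_const.mul continuous_id) hx
        (fun w hw => hA₀left a w hw)
    · intro a x hx
      exact map_mem_closure (f := fun b => b * a) (continuous_id.mul continuous_const) hx
        (fun w hw => hA₀right a w hw)
    · intro x hx
      exact map_mem_closure continuous_star hx (fun w hw => hA₀star w hw)
  by_cases h1 : (1 : E) ∈ I₀.topologicalClosure
  · left
    obtain ⟨y, hy, hd⟩ := Metric.mem_closure_iff.mp h1 (1 / 4) (by norm_num)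
    obtain ⟨T₁, hT₁, T₂, hT₂, hT⟩ := hpol y hy
    rw [dist_eq_norm] at hd
    set u : E := y + star y - (2 : ℝ) • (1 : E) with hu
    have husa : IsSelfAdjoint u := by
      rw [IsSelfAdjoint, hu]
      simp [star_sub, star_add, star_smul, add_comm]
    have hun : ‖u‖ ≤ 1 / 2 := by
      have e : u = -((1 - y) + star (1 - y)) := by
        rw [hu, star_sub, star_one, two_smul]; abel
      rw [e, norm_neg]
      calc ‖(1 - y) + star (1 - y)‖ ≤ ‖1 - y‖ + ‖star (1 - y)‖ := norm_add_le _ _
        _ = ‖1 - y‖ + ‖1 - y‖ := by rw [norm_star]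
        _ ≤ 1 / 2 := by linarith
    have hneg := IsSelfAdjoint.neg_algebraMap_norm_le_self husa
    have h3 : 0 ≤ u + algebraMap ℝ E ‖u‖ := by
      have := add_le_add_right hneg (algebraMap ℝ E ‖u‖)
      simpa [add_comm] using this
    have h4 : (0 : ℝ) ≤ 3 - 2 * ‖u‖ := by linarith
    have hT₁e : T₁ - 1 = T₂ + (2 : ℝ) • (u + algebraMap ℝ E ‖u‖) + (3 - 2 * ‖u‖) • (1 : E) := by
      have : T₁ = T₂ + (2 : ℝ) • (y + star y) := by rw [hT]; abel
      rw [this, hu, Algebra.algebraMap_eq_smul_one]
      module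
    have h5 : (1 : E) ≤ T₁ := by
      rw [← sub_nonneg, hT₁e]
      exact add_nonneg (add_nonneg (hPnn _ hT₂) (smul_nonneg zero_le_two h3))
        (smul_nonneg h4 zero_le_one)
    have hsp : IsStrictlyPositive T₁ := IsStrictlyPositive.of_le isStrictlyPositive_one h5
    have hconj := CFC.conjugate_rpow_neg_one_half T₁ hsp
    have hwsa : star (T₁ ^ (-(1 / 2) : ℝ)) = T₁ ^ (-(1 / 2) : ℝ) :=
      (CFC.rpow_nonneg : 0 ≤ T₁ ^ (-(1 / 2) : ℝ)).isSelfAdjoint.star_eq
    have hone := hPconj T₁ hT₁ (T₁ ^ (-(1 / 2) : ℝ))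
    rw [hwsa, hconj] at hone
    exact hPcert 1 hone
  · right
    obtain ⟨Q, iQ, π, hQ, hπ, hk⟩ := exists_prime_rep_of_csi _ hI h1
    refine ⟨Q, iQ, π, hQ, hπ, fun c hc => ?_⟩
    have : star c * c ∈ I₀.topologicalClosure := by
      apply Submodule.le_topologicalClosure
      refine AddSubmonoid.subset_closure ⟨c, hc, 1, 1, ?_⟩
      simp
    exact star_mul_self_map_eq_zero π (hk _ this)

end Vale.Agent.Lib.P101
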