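import Vale.Agent.Lib.P101.Algebra
import Vale.Agent.Lib.P101.PrimeRep
import Vale.Agent.Lib.P101.LemmaN

set_option linter.unusedSimpArgs false
set_option linter.unusedVariables false
set_option linter.unusedSectionVars false
set_option linter.style.haveILetI false

open scoped CStarAlgebra

namespace Vale.Agent.Lib.P101

universe u v

section SG

variable {R : Type*} [Ring R] [StarRing R]

/-- `star c * c - c * star c`. -/
def sg (c : R) : R := star c * c - c * star c

lemma sg_sa (c : R) : IsSelfAdjoint (sg c) := by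
  rw [IsSelfAdjoint, sg]
  simp [star_sub, star_mul]

lemma sg_star (c : R) : sg (star c) = -sg c := by
  simp [sg]

end SG

section Triple

variable {Q : Type*} [CStarAlgebra Q] [PartialOrder Q] [StarOrderedRing Q]

lemma eq_zero_of_sg {c : Q} (hc : c * c = 0) (h : sg c = 0) : c = 0 := by
  have hPM : star c * c = c * star c := sub_eq_zero.mp h
  have h1 : (star c * c) * (star c * c) = 0 := by
    calc (star c * c) * (star c * c) = (star c * c) * (c * star c) := by rw [← hPM]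
      _ = 0 := by rw [mul_assoc, ← mul_assoc c c, hc]; simp
  have h2 : star c * c = 0 := by
    have : star (star c * c) * (star c * c) = 0 := by
      rw [show star (star c * c) = star c * c by simp [star_mul]]
      exact h1
    exact CStarRing.star_mul_self_eq_zero_iff _ |>.mp this
  exact CStarRing.star_mul_self_eq_zero_iff _ |>.mp h2

namespace Slice

variable {Q₁ Q₂ : StarSubalgebra ℂ Q}

lemma sg_mem {S : StarSubalgebra ℂ Q} {c : Q} (hc : c ∈ S) : sg c ∈ S :=
  sub_mem (mul_mem (star_mem hc) hc) (mul_mem hc (star_mem hc))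

/-- Lemma N for a triple of differences of square-zero elements, nonpositive case. -/
theorem triple_nonpos [Nontrivial Q] (h : Slice Q₁ Q₂) {x₁ x₂ y₁ y₂ : Q} (h1 : x₁ ∈ Q₁) (h2 : x₂ ∈ Q₁)
    (h3 : y₁ ∈ Q₂) (h4 : y₂ ∈ Q₂) (s1 : x₁ * x₁ = 0) (s2 : x₂ * x₂ = 0) (s3 : y₁ * y₁ = 0)
    (s4 : y₂ * y₂ = 0) (hS : sg x₁ + sg y₂ + sg x₂ * sg y₁ ≤ 0) :
    x₁ = 0 ∧ y₂ = 0 ∧ (x₂ = 0 ∨ y₁ = 0) := by
  obtain ⟨a, b, c⟩ := h.lemma_N (sg_mem h1) (sg_mem h2) (sg_mem h3) (sg_mem h4) (sg_sa _) (sg_sa _)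
    (sg_sa _) (sg_sa _) (balanced_of_sq_zero s1) (balanced_of_sq_zero s2)
    (balanced_of_sq_zero s3) (balanced_of_sq_zero s4) hS
  refine ⟨eq_zero_of_sg s1 a, eq_zero_of_sg s4 b, ?_⟩
  rcases c with c | c
  · exact Or.inl (eq_zero_of_sg s2 c)
  · exact Or.inr (eq_zero_of_sg s3 c)

/-- Lemma N for a triple of differences of square-zero elements, nonnegative case. -/
theorem triple_nonneg [Nontrivial Q] (h : Slice Q₁ Q₂) {x₁ x₂ y₁ y₂ : Q} (h1 : x₁ ∈ Q₁) (h2 : x₂ ∈ Q₁)
    (h3 : y₁ ∈ Q₂) (h4 : y₂ ∈ Q₂) (s1 : x₁ * x₁ = 0) (s2 : x₂ * x₂ = 0) (s3 : y₁ * y₁ = 0)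
    (s4 : y₂ * y₂ = 0) (hS : 0 ≤ sg x₁ + sg y₂ + sg x₂ * sg y₁) :
    x₁ = 0 ∧ y₂ = 0 ∧ (x₂ = 0 ∨ y₁ = 0) := by
  have star_sq : ∀ {z : Q}, z * z = 0 → star z * star z = 0 := fun {z} hz => by
    have := congrArg star hz
    simpa [star_mul] using this
  have hS' : sg (star x₁) + sg (star y₂) + sg (star x₂) * sg y₁ ≤ 0 := by
    rw [sg_star, sg_star, sg_star]
    have e : -sg x₁ + -sg y₂ + -sg x₂ * sg y₁ = -(sg x₁ + sg y₂ + sg x₂ * sg y₁) := by
      noncomm_ring
    rw [e]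
    exact neg_nonpos.mpr hS
  obtain ⟨a, b, c⟩ := h.triple_nonpos (star_mem h1) (star_mem h2) h3 (star_mem h4) (star_sq s1)
    (star_sq s2) s3 (star_sq s4) hS'
  refine ⟨by simpa using a, by simpa using b, ?_⟩
  rcases c with c | c
  · exact Or.inl (by simpa using c)
  · exact Or.inr c

end Slice

end Triple

variable {E : Type u} [CStarAlgebra E]

/-- The Schlieder property of a prime representation with respect to commuting subalgebras. -/
theorem schlieder {Q : Type*} [CStarAlgebra Q] {π : E →⋆ₐ[ℂ] Q} (hπ : IsPrimeRep π)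
    (X : Subalgebra ℂ E) (Y : Set E) (hc : ∀ x ∈ X, ∀ y ∈ Y, Commute x y)
    (hgen : ∀ z : E, z ∈ closure (Algebra.adjoin ℂ ((X : Set E) ∪ Y) : Set E))
    {x y : E} (hx : x ∈ X) (hy : y ∈ Y) (h : π (x * y) = 0) : π x = 0 ∨ π y = 0 := by
  let T₀ : Set E := {z | ∀ x ∈ X, ∀ y ∈ Y, π (x * y) = 0 → π (x * z * y) = 0}
  have hT₀cl : IsClosed T₀ := by
    have : T₀ = ⋂ x ∈ X, ⋂ y ∈ Y, {z | π (x * y) = 0 → π (x * z * y) = 0} := by
      ext z
      simp only [T₀, Set.mem_iInter, Set.mem_ofPred_eq]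
    rw [this]
    refine isClosed_biInter (fun x _ => isClosed_biInter (fun y _ => ?_))
    by_cases hxy : π (x * y) = 0
    · simp only [hxy, forall_const]
      exact isClosed_eq ((map_continuous π).comp (by fun_prop)) continuous_const
    · simp only [hxy, false_implies, Set.ofPred_true]
      exact isClosed_univ
  have h1 : (1 : E) ∈ T₀ := by
    intro x _ y _ h
    simpa using h
  have hstep : ∀ w ∈ Algebra.adjoin ℂ ((X : Set E) ∪ Y), ∀ z ∈ T₀, w * z ∈ T₀ := by
    intro w hw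
    induction hw using Algebra.adjoin_induction with
    | mem u hu =>
      intro z hz x hx y hy hxy
      rcases hu with hu | hu
      · have hu' : u ∈ X := hu
        have e : π (x * u * y) = 0 := by
          rw [mul_assoc, (hc u hu y hy).eq, ← mul_assoc, map_mul, hxy, zero_mul]
        have := hz (x * u) (X.mul_mem hx hu') y hy e
        rwa [mul_assoc x u z] at this
      · have e : x * (u * z) * y = u * (x * z * y) := by
          rw [← mul_assoc x u, (hc x hx u hu).eq]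
          simp only [mul_assoc]
        rw [e, map_mul, hz x hx y hy hxy, mul_zero]
    | algebraMap r =>
      intro z hz x hx y hy hxy
      rw [Algebra.algebraMap_eq_smul_one, smul_mul_assoc, one_mul, mul_smul_comm, smul_mul_assoc,
        map_smul, hz x hx y hy hxy, smul_zero]
    | add a b _ _ ha hb =>
      intro z hz x hx y hy hxy
      rw [add_mul, mul_add, add_mul, map_add, ha z hz x hx y hy hxy, hb z hz x hx y hy hxy, add_zero]
    | mul a b _ _ ha hb =>
      intro z hz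
      rw [mul_assoc]
      exact ha _ (hb z hz)
  have hall : ∀ z : E, z ∈ T₀ := by
    intro z
    have hsub : (Algebra.adjoin ℂ ((X : Set E) ∪ Y) : Set E) ⊆ T₀ := by
      intro w hw
      have := hstep w hw 1 h1
      rwa [mul_one] at this
    exact hT₀cl.closure_subset_iff.mpr hsub (hgen z)
  exact hπ x y (fun z => hall z x hx y hy h)

lemma smul_mem_real {A : Type*} [CStarAlgebra A] (S : StarSubalgebra ℂ A) (r : ℝ) {x : A}
    (hx : x ∈ S) : r • x ∈ S := by
  rw [← Complex.coe_smul]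
  exact S.smul_mem hx _

section SliceRep

variable {Q : Type*} [CStarAlgebra Q] [PartialOrder Q] [StarOrderedRing Q]

lemma cfc_map_mem (π : E →⋆ₐ[ℂ] Q) (X : StarSubalgebra ℂ E) (hXc : IsClosed (X : Set E)) {x : Q}
    (hx : x ∈ X.map π) (hs : IsSelfAdjoint x) (f : ℝ → ℝ) (hf : Continuous f) :
    cfc f x ∈ X.map π := by
  obtain ⟨x₀, hx₀, rfl⟩ := StarSubalgebra.mem_map.mp hx
  set x₁ : E := (1 / 2 : ℝ) • (x₀ + star x₀) with hx₁
  have hx₁X : x₁ ∈ X := smul_mem_real X _ (add_mem hx₀ (star_mem hx₀))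
  have hx₁s : IsSelfAdjoint x₁ := by
    rw [IsSelfAdjoint, hx₁, star_smul, star_add, star_star, star_trivial, add_comm]
  have hπ : π x₁ = π x₀ := by
    have h1 : π (star x₀) = π x₀ := by rw [map_star]; exact hs.star_eq
    rw [hx₁, ← Complex.coe_smul, map_smul, map_add, h1, Complex.coe_smul, ← two_smul ℝ, smul_smul]
    norm_num
  haveI : IsClosed (X : Set E) := hXc
  rw [← hπ]
  have e := StarAlgHom.map_cfc π f x₁ hf.continuousOn (map_continuous π) hx₁s (hπ ▸ hs)
  rw [← e]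
  exact StarSubalgebra.mem_map.mpr ⟨_, cfc_mem f hx₁X, rfl⟩

/-- A prime representation gives a slice. -/
theorem slice_of_rep (π : E →⋆ₐ[ℂ] Q) (X Y : StarSubalgebra ℂ E) (hXc : IsClosed (X : Set E))
    (hYc : IsClosed (Y : Set E)) (hc : ∀ x ∈ X, ∀ y ∈ Y, Commute x y)
    (hs : ∀ x ∈ X, ∀ y ∈ Y, π (x * y) = 0 → π x = 0 ∨ π y = 0) :
    Slice (X.map π) (Y.map π) where
  comm := by
    intro x hx y hy
    obtain ⟨x₀, hx₀, rfl⟩ := StarSubalgebra.mem_map.mp hx
    obtain ⟨y₀, hy₀, rfl⟩ := StarSubalgebra.mem_map.mp hy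
    exact (hc x₀ hx₀ y₀ hy₀).map π
  cfc₁ := fun x hx hsa f hf => cfc_map_mem π X hXc hx hsa f hf
  cfc₂ := fun x hx hsa f hf => cfc_map_mem π Y hYc hx hsa f hf
  sch := by
    intro x hx y hy hxy
    obtain ⟨x₀, hx₀, rfl⟩ := StarSubalgebra.mem_map.mp hx
    obtain ⟨y₀, hy₀, rfl⟩ := StarSubalgebra.mem_map.mp hy
    rw [← map_mul] at hxy
    exact hs x₀ hx₀ y₀ hy₀ hxy

/-- `x * y = 1` for commuting positive contractions forces `x = y = 1`. -/
lemma eq_one_of_mul_eq_one {x y : Q} (h0x : 0 ≤ x) (h1x : x ≤ 1) (h0y : 0 ≤ y) (h1y : y ≤ 1)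
    (hc : Commute x y) (h : x * y = 1) : x = 1 ∧ y = 1 := by
  have h1 : 0 ≤ x * (1 - y) := Commute.mul_nonneg h0x (sub_nonneg.mpr h1y) ((Commute.one_right _).sub_right hc)
  have h2 : 0 ≤ (1 - x) * y := Commute.mul_nonneg (sub_nonneg.mpr h1x) h0y ((Commute.one_left _).sub_left hc)
  rw [mul_sub, mul_one, h] at h1
  rw [sub_mul, one_mul, h] at h2
  exact ⟨le_antisymm h1x (sub_nonneg.mp h1), le_antisymm h1y (sub_nonneg.mp h2)⟩

end SliceRep

/-- Splitting the vanishing of the number element of a merged datum. -/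
theorem dead_split {Q : Type*} [CStarAlgebra Q] (π : E →⋆ₐ[ℂ] Q) {t₁ v₁ t₂ v₂ : E} (h₁ : IsDatum t₁ v₁)
    (h₂ : IsDatum t₂ v₂) (htt : MC t₁ t₂) (htv : MC t₁ v₂) (hvt : MC v₁ t₂) (hvv : MC v₁ v₂)
    (h : π (star (t₁ + v₁ * t₂) * (t₁ + v₁ * t₂) + (t₁ + v₁ * t₂) * star (t₁ + v₁ * t₂)) = 0) :
    π (star t₁ * t₁ + t₁ * star t₁) = 0 ∧ π (star t₂ * t₂ + t₂ * star t₂) = 0 := by
  letI : PartialOrder Q := CStarAlgebra.spectralOrder Q
  haveI : StarOrderedRing Q := CStarAlgebra.spectralOrderedRing Q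
  have hm := IsDatum.merge h₁ h₂ htt htv hvt hvv
  have h1 : π (star (v₁ * v₂) * (v₁ * v₂)) = 1 := by
    rw [hm.star_v_v, map_sub, h, map_one, sub_zero]
  have f3 : Commute (star v₂) v₁ := hvv.c'.symm
  have f8 : Commute (star v₂) (star v₁) := hvv.star_left.c'.symm
  have f4 : Commute v₂ v₁ := hvv.c.symm
  have f5 : Commute v₂ (star v₁) := hvv.star_left.c.symm
  have e : star (v₁ * v₂) * (v₁ * v₂) = (star v₁ * v₁) * (star v₂ * v₂) := by
    simp only [star_mul, mul_assoc, f3.eq, f3.left_comm, f8.eq, f8.left_comm]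
  rw [e, map_mul] at h1
  set x := π (star v₁ * v₁) with hx
  set y := π (star v₂ * v₂) with hy
  have hx0 : 0 ≤ x := by
    rw [hx, map_mul, map_star]
    exact star_mul_self_nonneg _
  have hy0 : 0 ≤ y := by
    rw [hy, map_mul, map_star]
    exact star_mul_self_nonneg _
  have hn1 : 0 ≤ π (star t₁ * t₁ + t₁ * star t₁) := by
    rw [map_add, map_mul, map_mul, map_star]
    exact add_nonneg (star_mul_self_nonneg _) (mul_star_self_nonneg _)
  have hn2 : 0 ≤ π (star t₂ * t₂ + t₂ * star t₂) := by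
    rw [map_add, map_mul, map_mul, map_star]
    exact add_nonneg (star_mul_self_nonneg _) (mul_star_self_nonneg _)
  have ex : x = 1 - π (star t₁ * t₁ + t₁ * star t₁) := by
    rw [hx, h₁.star_v_v, map_sub, map_one]
  have ey : y = 1 - π (star t₂ * t₂ + t₂ * star t₂) := by
    rw [hy, h₂.star_v_v, map_sub, map_one]
  have hx1 : x ≤ 1 := by rw [ex]; exact sub_le_self _ hn1
  have hy1 : y ≤ 1 := by rw [ey]; exact sub_le_self _ hn2
  have hcomm : Commute x y := by
    have c1 : Commute (star v₁ * v₁) (star v₂ * v₂) := by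
      refine Commute.mul_right ?_ ?_
      · exact (Commute.mul_left f8.symm f3.symm)
      · exact (Commute.mul_left f5.symm f4.symm)
    exact c1.map π
  obtain ⟨a, b⟩ := eq_one_of_mul_eq_one hx0 hx1 hy0 hy1 hcomm h1
  constructor
  · rw [ex] at a
    have := sub_eq_self.mp a
    exact this
  · rw [ey] at b
    exact sub_eq_self.mp b


section MCmore

variable {R : Type*} [Ring R] [StarRing R]

lemma MC.add_right {x y z : R} (h1 : MC x y) (h2 : MC x z) : MC x (y + z) where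
  c := h1.c.add_right h2.c
  c' := by rw [star_add]; exact h1.c'.add_right h2.c'

lemma MC.mul_right {x y z : R} (h1 : MC x y) (h2 : MC x z) : MC x (y * z) where
  c := h1.c.mul_right h2.c
  c' := by rw [star_mul]; exact h2.c'.mul_right h1.c'

end MCmore

lemma IsDatum.map {R S : Type*} [Ring R] [StarRing R] [Algebra ℂ R] [Ring S] [StarRing S]
    [Algebra ℂ S] (f : R →⋆ₐ[ℂ] S) {t v : R} (h : IsDatum t v) : IsDatum (f t) (f v) where
  sq := by rw [← map_mul, h.sq, map_zero]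
  anti := by rw [← map_mul, h.anti, map_neg, map_mul]
  anti_star := by rw [← map_star, ← map_mul, h.anti_star, map_neg, map_mul]
  star_v_v := by
    rw [← map_star, ← map_star, ← map_mul, h.star_v_v, map_sub, map_one, map_add, map_mul, map_mul]
  v_star_v := by
    rw [← map_star, ← map_star, ← map_mul, h.v_star_v, map_sub, map_one, map_add, map_mul, map_mul]

lemma map_sg {R S : Type*} [Ring R] [StarRing R] [Algebra ℂ R] [Ring S] [StarRing S]
    [Algebra ℂ S] (f : R →⋆ₐ[ℂ] S) (c : R) : f (sg c) = sg (f c) := by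
  simp only [sg, map_sub, map_mul, map_star]

lemma commute_closure {X Y : Set E} (h : ∀ x ∈ X, ∀ y ∈ Y, Commute x y) :
    ∀ x ∈ closure X, ∀ y ∈ closure Y, Commute x y := by
  have step1 : ∀ y ∈ Y, ∀ x ∈ closure X, Commute x y := by
    intro y hy
    have hcl : IsClosed {x : E | Commute x y} :=
      isClosed_eq (by fun_prop) (by fun_prop)
    exact fun x hx => hcl.closure_subset_iff.mpr (fun x hx => h x hx y hy) hx
  intro x hx
  have hcl : IsClosed {y : E | Commute x y} :=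
    isClosed_eq (by fun_prop) (by fun_prop)
  exact fun y hy => hcl.closure_subset_iff.mpr (fun y hy => step1 y hy x hx) hy

section Contra

variable {T : Type v} [Ring T] [StarRing T] [Algebra ℂ T]
variable {Q : Type*} [CStarAlgebra Q]

/-- If `φ n = 0` then `‖φ c‖ ≤ 1`. -/
lemma norm_le_one_of_dead (φ : T →⋆ₐ[ℂ] Q) {c w n : T} (hw : star w = w)
    (hd : star c * c + w * w = 1 + n * (star c * c)) (hn : φ n = 0) : ‖φ c‖ ≤ 1 := by
  letI : PartialOrder Q := CStarAlgebra.spectralOrder Q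
  haveI : StarOrderedRing Q := CStarAlgebra.spectralOrderedRing Q
  have h1 : star (φ c) * φ c + star (φ w) * φ w = 1 := by
    have := congrArg φ hd
    simp only [map_add, map_mul, map_one, map_star, hn, zero_mul, add_zero] at this
    have hwφ : star (φ w) = φ w := by rw [← map_star, hw]
    rwa [hwφ]
  have h2 : star (φ c) * φ c ≤ 1 := by
    rw [← h1]
    exact le_add_of_nonneg_right (star_mul_self_nonneg _)
  have h3 : ‖star (φ c) * φ c‖ ≤ 1 :=
    (CStarAlgebra.norm_le_one_iff_of_nonneg _ (star_mul_self_nonneg _)).mpr h2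
  rw [CStarRing.norm_star_mul_self] at h3
  by_contra hlt
  push Not at hlt
  nlinarith

/-- The certificate cannot hold if everything is small. -/
lemma cert_contra [Nontrivial Q] (φ : T →⋆ₐ[ℂ] Q) {N m : ℕ} {c : Fin N → T} {lab : Fin m → Fin N}
    {x : Fin m → T} (hcert : ∑ k, star (x k) * (star (c (lab k)) * c (lab k)) * x k = 1)
    (hb : ∀ j, ‖φ (c j)‖ ≤ 1) (hsmall : ∑ k, ‖φ (x k)‖ ^ 2 < 1) : False := by
  have h1 : ∑ k, star (φ (x k)) * (star (φ (c (lab k))) * φ (c (lab k))) * φ (x k) = 1 := by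
    have := congrArg φ hcert
    simpa only [map_sum, map_mul, map_star, map_one] using this
  have h2 : ‖(1 : Q)‖ ≤ ∑ k, ‖φ (x k)‖ ^ 2 := by
    rw [← h1]
    refine (norm_sum_le _ _).trans (Finset.sum_le_sum (fun k _ => ?_))
    have e1 : ‖star (φ (c (lab k))) * φ (c (lab k))‖ ≤ 1 := by
      rw [CStarRing.norm_star_mul_self]
      have := hb (lab k)
      have h0 := norm_nonneg (φ (c (lab k)))
      nlinarith
    calc ‖star (φ (x k)) * (star (φ (c (lab k))) * φ (c (lab k))) * φ (x k)‖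
        ≤ ‖star (φ (x k)) * (star (φ (c (lab k))) * φ (c (lab k)))‖ * ‖φ (x k)‖ := norm_mul_le _ _
      _ ≤ (‖star (φ (x k))‖ * ‖star (φ (c (lab k))) * φ (c (lab k))‖) * ‖φ (x k)‖ := by
          gcongr; exact norm_mul_le _ _
      _ ≤ (‖φ (x k)‖ * 1) * ‖φ (x k)‖ := by
          rw [norm_star]; gcongr
      _ = ‖φ (x k)‖ ^ 2 := by ring
  rw [CStarRing.norm_one] at h2
  linarith

end Contra


section Core

variable {T : Type v} [Ring T] [StarRing T] [Algebra ℂ T]

/-- The closed algebra of one position. -/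
noncomputable def posAlg (ρ : Fin 3 → T →⋆ₐ[ℂ] E) (i : Fin 3) : StarSubalgebra ℂ E :=
  (StarAlgebra.adjoin ℂ (Set.range (ρ i))).topologicalClosure

/-- The closed algebra of the other positions. -/
noncomputable def restAlg (ρ : Fin 3 → T →⋆ₐ[ℂ] E) (i : Fin 3) : StarSubalgebra ℂ E :=
  (StarAlgebra.adjoin ℂ (⋃ j ∈ {j : Fin 3 | j ≠ i}, Set.range (ρ j))).topologicalClosure

lemma pos_mem (ρ : Fin 3 → T →⋆ₐ[ℂ] E) (i : Fin 3) (x : T) : ρ i x ∈ posAlg ρ i :=
  StarSubalgebra.le_topologicalClosure _ (StarAlgebra.subset_adjoin ℂ _ ⟨x, rfl⟩)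

lemma rest_mem (ρ : Fin 3 → T →⋆ₐ[ℂ] E) {i j : Fin 3} (hij : j ≠ i) (x : T) : ρ j x ∈ restAlg ρ i :=
  StarSubalgebra.le_topologicalClosure _ (StarAlgebra.subset_adjoin ℂ _ (by
    simp only [Set.mem_iUnion]
    exact ⟨j, hij, x, rfl⟩))

lemma pos_rest_comm (ρ : Fin 3 → T →⋆ₐ[ℂ] E)
    (hcomm : ∀ i j, i ≠ j → ∀ x y, Commute (ρ i x) (ρ j y)) (i : Fin 3) :
    ∀ x ∈ posAlg ρ i, ∀ y ∈ restAlg ρ i, Commute x y := by
  have h0 : ∀ x ∈ (StarAlgebra.adjoin ℂ (Set.range (ρ i)) : StarSubalgebra ℂ E),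
      ∀ y ∈ (StarAlgebra.adjoin ℂ (⋃ j ∈ {j : Fin 3 | j ≠ i}, Set.range (ρ j)) :
        StarSubalgebra ℂ E), Commute x y := by
    have hgen : ∀ x ∈ Set.range (ρ i), ∀ y ∈ (⋃ j ∈ {j : Fin 3 | j ≠ i}, Set.range (ρ j)),
        Commute x y := by
      rintro _ ⟨x, rfl⟩ y hy
      simp only [Set.mem_iUnion] at hy
      obtain ⟨j, hj, y, rfl⟩ := hy
      exact hcomm i j (Ne.symm hj) x y
    have hstarX : ∀ x ∈ Set.range (ρ i), star x ∈ Set.range (ρ i) := by
      rintro _ ⟨x, rfl⟩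
      exact ⟨star x, map_star _ _⟩
    intro x hx y hy
    have h1 : StarAlgebra.adjoin ℂ (⋃ j ∈ {j : Fin 3 | j ≠ i}, Set.range (ρ j))
        ≤ StarSubalgebra.centralizer ℂ (Set.range (ρ i)) := by
      refine StarAlgebra.adjoin_le (fun y hy => ?_)
      rw [SetLike.mem_coe, StarSubalgebra.mem_centralizer_iff]
      intro g hg
      exact ⟨(hgen g hg y hy).eq, (hgen (star g) (hstarX g hg) y hy).eq⟩
    have h2 : StarAlgebra.adjoin ℂ (Set.range (ρ i))
        ≤ StarSubalgebra.centralizer ℂ (StarSubalgebra.centralizer ℂ (Set.range (ρ i))) :=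
      StarAlgebra.adjoin_le_centralizer_centralizer ℂ _
    have := (StarSubalgebra.mem_centralizer_iff ℂ).mp (h2 hx) y (h1 hy)
    exact this.1.symm
  intro x hx y hy
  exact commute_closure h0 x hx y hy

lemma pos_closed (ρ : Fin 3 → T →⋆ₐ[ℂ] E) (i : Fin 3) : IsClosed (posAlg ρ i : Set E) :=
  StarSubalgebra.isClosed_topologicalClosure _

lemma rest_closed (ρ : Fin 3 → T →⋆ₐ[ℂ] E) (i : Fin 3) : IsClosed (restAlg ρ i : Set E) :=
  StarSubalgebra.isClosed_topologicalClosure _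

/-- The generation hypothesis passes to a position and the rest. -/
lemma gen_pos_rest (ρ : Fin 3 → T →⋆ₐ[ℂ] E)
    (hgen : ∀ z : E, z ∈ closure (Algebra.adjoin ℂ (⋃ i, Set.range (ρ i)) : Set E)) (i : Fin 3) :
    ∀ z : E, z ∈ closure (Algebra.adjoin ℂ (((posAlg ρ i).toSubalgebra : Set E) ∪ (restAlg ρ i : Set E)) :
      Set E) := by
  intro z
  refine closure_mono ?_ (hgen z)
  have : Algebra.adjoin ℂ (⋃ i, Set.range (ρ i))
      ≤ Algebra.adjoin ℂ (((posAlg ρ i).toSubalgebra : Set E) ∪ (restAlg ρ i : Set E)) := by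
    refine Algebra.adjoin_le (fun w hw => Algebra.subset_adjoin ?_)
    simp only [Set.mem_iUnion] at hw
    obtain ⟨j, x, rfl⟩ := hw
    by_cases hj : j = i
    · subst hj
      exact Or.inl (pos_mem ρ j x)
    · exact Or.inr (rest_mem ρ hj x)
  exact this


/-- The core of the merging step: three commuting copies give one label fewer. -/
theorem merge_core (ρ : Fin 3 → T →⋆ₐ[ℂ] E)
    (hcomm : ∀ i j, i ≠ j → ∀ x y, Commute (ρ i x) (ρ j y))
    (hgen : ∀ z : E, z ∈ closure (Algebra.adjoin ℂ (⋃ i, Set.range (ρ i)) : Set E))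
    {N m : ℕ} (c : Fin (N + 2) → T) (hc : ∀ j, c j * c j = 0)
    (ĉ v w : Fin (N + 2) → T) (hd : ∀ j, IsDatum (ĉ j) (v j)) (hw : ∀ j, star (w j) = w j)
    (hdead : ∀ j, star (c j) * c j + w j * w j
      = 1 + (star (ĉ j) * ĉ j + ĉ j * star (ĉ j)) * (star (c j) * c j))
    (lab : Fin m → Fin (N + 2)) (x : Fin m → T)
    (hcert : ∑ k, star (x k) * (star (c (lab k)) * c (lab k)) * x k = 1)
    (hsmall : ∀ i, ∑ k, ‖ρ i (x k)‖ ^ 2 < 1) :
    ∃ c' : Fin (N + 1) → E, (∀ j, c' j * c' j = 0) ∧ Cert (Set.range c') := by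
  classical
  have mc : ∀ i j, i ≠ j → ∀ a b, MC (ρ i a) (ρ j b) := fun i j hij a b =>
    ⟨hcomm i j hij a b, by rw [← map_star]; exact hcomm i j hij a _⟩
  -- the self-adjoint element
  set S : E := ρ 1 (sg (c 0)) + ρ 2 (sg (c 1)) + ρ 1 (sg (c 1)) * ρ 2 (sg (c 0)) with hS
  have hSsa : IsSelfAdjoint S := by
    have sa1 : ∀ (i : Fin 3) (d : T), IsSelfAdjoint (ρ i (sg d)) := fun i d => (sg_sa d).map (ρ i)
    refine ((sa1 1 _).add (sa1 2 _)).add ?_
    exact (sa1 1 _).commute_iff (sa1 2 _) |>.mp (hcomm 1 2 (by decide) _ _)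
  have hfp : Continuous (fun t : ℝ => Real.sqrt (max t 0)) := by fun_prop
  have hfm : Continuous (fun t : ℝ => Real.sqrt (max (-t) 0)) := by fun_prop
  set rp : E := cfc (fun t : ℝ => Real.sqrt (max t 0)) S with hrp
  set rm : E := cfc (fun t : ℝ => Real.sqrt (max (-t) 0)) S with hrm
  have hrpm : rp * rm = 0 := by
    rw [hrp, hrm, ← cfc_mul _ _ S hfp.continuousOn hfm.continuousOn]
    have : (fun t : ℝ => Real.sqrt (max t 0) * Real.sqrt (max (-t) 0)) = fun _ => 0 := by
      funext t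
      rcases le_total t 0 with h | h
      · simp [max_eq_right h]
      · rw [max_eq_right (by linarith : -t ≤ 0)]; simp
    rw [this]
    exact cfc_const_zero ℝ S
  have hrmp : rm * rp = 0 := by
    rw [hrp, hrm, ← cfc_mul _ _ S hfm.continuousOn hfp.continuousOn]
    have : (fun t : ℝ => Real.sqrt (max (-t) 0) * Real.sqrt (max t 0)) = fun _ => 0 := by
      funext t
      rcases le_total t 0 with h | h
      · simp [max_eq_right h]
      · rw [max_eq_right (by linarith : -t ≤ 0)]; simp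
    rw [this]
    exact cfc_const_zero ℝ S
  have hrs : rp * rp - rm * rm = S := by
    have CM : ∀ {f g : ℝ → ℝ}, Continuous f → Continuous g → Continuous (fun x => f x * g x) :=
      fun hf hg => hf.mul hg
    rw [hrp, hrm, ← cfc_mul _ _ S hfp.continuousOn hfp.continuousOn,
      ← cfc_mul _ _ S hfm.continuousOn hfm.continuousOn,
      ← cfc_sub _ _ S (CM hfp hfp).continuousOn (CM hfm hfm).continuousOn]
    nth_rw 2 [← cfc_id' ℝ S hSsa]
    refine cfc_congr (fun t _ => ?_)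
    rcases le_total t 0 with h | h
    · simp only [max_eq_right h, max_eq_left (by linarith : 0 ≤ -t)]
      rw [Real.sqrt_zero, Real.mul_self_sqrt (by linarith)]; ring
    · simp only [max_eq_left h, max_eq_right (by linarith : -t ≤ 0)]
      rw [Real.sqrt_zero, Real.mul_self_sqrt h]; ring
  have srp : star rp = rp := (cfc_predicate _ S : IsSelfAdjoint rp).star_eq
  have srm : star rm = rm := (cfc_predicate _ S : IsSelfAdjoint rm).star_eq
  -- membership in the rest algebra at position 0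
  have hS0 : S ∈ restAlg ρ 0 :=
    add_mem (add_mem (rest_mem ρ (by decide) _) (rest_mem ρ (by decide) _))
      (mul_mem (rest_mem ρ (by decide) _) (rest_mem ρ (by decide) _))
  haveI : IsClosed (restAlg ρ 0 : Set E) := rest_closed ρ 0
  have hrpY : rp ∈ restAlg ρ 0 := cfc_mem _ hS0
  have hrmY : rm ∈ restAlg ρ 0 := cfc_mem _ hS0
  have hcomm0 : ∀ a, ∀ y ∈ restAlg ρ 0, Commute y (ρ 0 a) := fun a y hy =>
    (pos_rest_comm ρ hcomm 0 _ (pos_mem ρ 0 a) y hy).symm
  -- the labels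
  set p0 := ρ 0 (c 0) with hp0
  set p1 := ρ 0 (c 1) with hp1
  have sp0 : star p0 = ρ 0 (star (c 0)) := (map_star _ _).symm
  have sp1 : star p1 = ρ 0 (star (c 1)) := (map_star _ _).symm
  have r1 : Commute rp p0 := hcomm0 (c 0) rp hrpY
  have r2 : Commute rp p1 := hcomm0 (c 1) rp hrpY
  have r3 : Commute rm p0 := hcomm0 (c 0) rm hrmY
  have r4 : Commute rm p1 := hcomm0 (c 1) rm hrmY
  have r5 := hcomm0 (star (c 0)) rp hrpY
  have r6 := hcomm0 (star (c 1)) rp hrpY
  have r7 := hcomm0 (star (c 0)) rm hrmY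
  have r8 := hcomm0 (star (c 1)) rm hrmY
  rw [← sp0] at r5 r7
  rw [← sp1] at r6 r8
  have h00 : p0 * p0 = 0 := by rw [hp0, ← map_mul, hc, map_zero]
  have h11 : p1 * p1 = 0 := by rw [hp1, ← map_mul, hc, map_zero]
  set μ : E := p0 * rp + p1 * rm with hμ
  have hrl : ∀ u, rp * (rm * u) = 0 := fun u => by rw [← mul_assoc, hrpm, zero_mul]
  have hrl' : ∀ u, rm * (rp * u) = 0 := fun u => by rw [← mul_assoc, hrmp, zero_mul]
  have h00l : ∀ u, p0 * (p0 * u) = 0 := fun u => by rw [← mul_assoc, h00, zero_mul]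
  have h11l : ∀ u, p1 * (p1 * u) = 0 := fun u => by rw [← mul_assoc, h11, zero_mul]
  have sw : ∀ {a r p u : E}, Commute r p → a * r * (p * u) = a * p * (r * u) := by
    intro a r p u h
    rw [mul_assoc, ← mul_assoc r, h.eq, mul_assoc, mul_assoc]
  have hμsq : μ * μ = 0 := by
    rw [hμ, add_mul, mul_add, mul_add, sw r1, sw r2, sw r3, sw r4, h00, h11, hrpm, hrmp]
    simp
  have hsgμ : sg μ = sg p0 * (rp * rp) + sg p1 * (rm * rm) := by
    have e1 : star μ = star p0 * rp + star p1 * rm := by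
      rw [hμ, star_add, star_mul, star_mul, srp, srm, r5.eq, r8.eq]
    have e2 : star μ * μ = star p0 * p0 * (rp * rp) + star p1 * p1 * (rm * rm) := by
      rw [e1, hμ, add_mul, mul_add, mul_add, sw r1, sw r2, sw r3, sw r4, hrpm, hrmp]
      simp
    have e3 : μ * star μ = p0 * star p0 * (rp * rp) + p1 * star p1 * (rm * rm) := by
      have q1 : p0 * rp * (star p0 * rp) = p0 * star p0 * (rp * rp) := sw r5
      have q2 : p0 * rp * (star p1 * rm) = p0 * star p1 * (rp * rm) := sw r6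
      have q3 : p1 * rm * (star p0 * rp) = p1 * star p0 * (rm * rp) := sw r7
      have q4 : p1 * rm * (star p1 * rm) = p1 * star p1 * (rm * rm) := sw r8
      rw [e1, hμ, add_mul, mul_add, mul_add, q1, q2, q3, q4, hrpm, hrmp]
      simp
    rw [sg, e2, e3, sg, sg, sub_mul, sub_mul]
    abel
  have hdi : ∀ i j, IsDatum (ρ i (ĉ j)) (ρ i (v j)) := fun i j => (hd j).map (ρ i)
  have hd23 : ∀ j, IsDatum (ρ 1 (ĉ j) + ρ 1 (v j) * ρ 2 (ĉ j)) (ρ 1 (v j) * ρ 2 (v j)) := fun j =>
    IsDatum.merge (hdi 1 j) (hdi 2 j) (mc 1 2 (by decide) _ _) (mc 1 2 (by decide) _ _)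
      (mc 1 2 (by decide) _ _) (mc 1 2 (by decide) _ _)
  have m01 : ∀ a j, MC (ρ 0 a) (ρ 1 (ĉ j) + ρ 1 (v j) * ρ 2 (ĉ j)) := fun a j =>
    MC.add_right (mc 0 1 (by decide) _ _)
      (MC.mul_right (mc 0 1 (by decide) _ _) (mc 0 2 (by decide) _ _))
  have m02 : ∀ a j, MC (ρ 0 a) (ρ 1 (v j) * ρ 2 (v j)) := fun a j =>
    MC.mul_right (mc 0 1 (by decide) _ _) (mc 0 2 (by decide) _ _)
  have hd123 : ∀ j, IsDatum (ρ 0 (ĉ j) + ρ 0 (v j) * (ρ 1 (ĉ j) + ρ 1 (v j) * ρ 2 (ĉ j)))
      (ρ 0 (v j) * (ρ 1 (v j) * ρ 2 (v j))) := fun j =>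
    IsDatum.merge (hdi 0 j) (hd23 j) (m01 _ j) (m02 _ j) (m01 _ j) (m02 _ j)
  let ν : Fin (N + 2) → E := fun j => ρ 0 (ĉ j) + ρ 0 (v j) * (ρ 1 (ĉ j) + ρ 1 (v j) * ρ 2 (ĉ j))
  refine ⟨Fin.cons μ (fun j : Fin N => ν j.succ.succ), ?_, ?_⟩
  · intro j
    refine Fin.cases ?_ (fun j => ?_) j
    · simpa using hμsq
    · simpa using (hd123 j.succ.succ).sq
  rcases cert_or_prime (Set.range (Fin.cons μ (fun j : Fin N => ν j.succ.succ) : Fin (N + 1) → E))
    with h | ⟨Q, iQ, π, hQ, hπ, hk⟩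
  · exact h
  exfalso
  letI : PartialOrder Q := CStarAlgebra.spectralOrder Q
  haveI : StarOrderedRing Q := CStarAlgebra.spectralOrderedRing Q
  have hπμ : π μ = 0 := hk μ ⟨0, by simp⟩
  have hπν : ∀ j : Fin N, π (ν j.succ.succ) = 0 := fun j => hk _ ⟨j.succ, by simp⟩
  -- deadness of the positions
  have dead : ∀ (j : Fin N) (i : Fin 3), π (ρ i (star (ĉ j.succ.succ) * ĉ j.succ.succ
      + ĉ j.succ.succ * star (ĉ j.succ.succ))) = 0 := by
    intro j i
    have h0 : π (star (ν j.succ.succ) * ν j.succ.succ + ν j.succ.succ * star (ν j.succ.succ)) = 0 := by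
      simp only [map_add, map_mul, map_star, hπν, star_zero, zero_mul, mul_zero, add_zero]
    obtain ⟨a, b⟩ := dead_split π (hdi 0 _) (hd23 _) (m01 _ _) (m02 _ _) (m01 _ _) (m02 _ _) h0
    obtain ⟨b1, b2⟩ := dead_split π (hdi 1 _) (hdi 2 _) (mc 1 2 (by decide) _ _)
      (mc 1 2 (by decide) _ _) (mc 1 2 (by decide) _ _) (mc 1 2 (by decide) _ _) b
    rcases (by revert i; decide : i = 0 ∨ i = 1 ∨ i = 2) with rfl | rfl | rfl
    · simpa only [map_add, map_mul, map_star] using a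
    · simpa only [map_add, map_mul, map_star] using b1
    · simpa only [map_add, map_mul, map_star] using b2
  let φ : Fin 3 → T →⋆ₐ[ℂ] Q := fun i => π.comp (ρ i)
  have hφ : ∀ i a, φ i a = π (ρ i a) := fun i a => rfl
  have bound : ∀ (i : Fin 3) (j : Fin N), ‖φ i (c j.succ.succ)‖ ≤ 1 := fun i j =>
    norm_le_one_of_dead (φ i) (hw _) (hdead _) (dead j i)
  have alive : ∀ i : Fin 3, φ i (c 0) ≠ 0 ∨ φ i (c 1) ≠ 0 := by
    intro i
    by_contra hcon
    push Not at hcon
    obtain ⟨h0, h1⟩ := hcon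
    refine cert_contra (φ i) hcert ?_ ?_
    · intro j
      refine Fin.cases ?_ (fun j => Fin.cases ?_ (fun j => bound i j) j) j
      · rw [h0]; simp
      · have : ((0 : Fin (N + 1)).succ : Fin (N + 2)) = 1 := rfl
        rw [this, h1]; simp
    · refine lt_of_le_of_lt (Finset.sum_le_sum (fun k _ => ?_)) (hsmall i)
      have := NonUnitalStarAlgHom.norm_apply_le π (ρ i (x k))
      rw [hφ]
      gcongr
  -- the slice at position 1
  have S1 := slice_of_rep π (posAlg ρ 1) (restAlg ρ 1) (pos_closed ρ 1) (rest_closed ρ 1)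
    (pos_rest_comm ρ hcomm 1) (fun x hx y hy h =>
      schlieder hπ (posAlg ρ 1).toSubalgebra _ (pos_rest_comm ρ hcomm 1) (gen_pos_rest ρ hgen 1)
        hx hy h)
  have hx1 : ∀ a, π (ρ 1 a) ∈ (posAlg ρ 1).map π := fun a =>
    StarSubalgebra.mem_map.mpr ⟨_, pos_mem ρ 1 a, rfl⟩
  have hy1 : ∀ a, π (ρ 2 a) ∈ (restAlg ρ 1).map π := fun a =>
    StarSubalgebra.mem_map.mpr ⟨_, rest_mem ρ (by decide) a, rfl⟩
  have sqz : ∀ (i : Fin 3) (j : Fin (N + 2)), π (ρ i (c j)) * π (ρ i (c j)) = 0 := fun i j => by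
    rw [← map_mul, ← map_mul, hc, map_zero, map_zero]
  have hπS : π S = sg (π (ρ 1 (c 0))) + sg (π (ρ 2 (c 1)))
      + sg (π (ρ 1 (c 1))) * sg (π (ρ 2 (c 0))) := by
    rw [hS]
    simp only [map_add, map_mul, map_sg]
  have hrpne : π rp ≠ 0 := by
    intro h0
    have e : π S = -(π rm * π rm) := by
      rw [← hrs, map_sub, map_mul, map_mul, h0]; simp
    have hle : sg (π (ρ 1 (c 0))) + sg (π (ρ 2 (c 1)))
        + sg (π (ρ 1 (c 1))) * sg (π (ρ 2 (c 0))) ≤ 0 := by
      rw [← hπS, e, neg_nonpos]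
      have : star (π rm) = π rm := by rw [← map_star, srm]
      have h2 := star_mul_self_nonneg (π rm)
      rwa [this] at h2
    obtain ⟨a, b, d⟩ := S1.triple_nonpos (hx1 _) (hx1 _) (hy1 _) (hy1 _) (sqz _ _) (sqz _ _)
      (sqz _ _) (sqz _ _) hle
    rcases d with d | d
    · rcases alive 1 with h | h
      · exact h a
      · exact h d
    · rcases alive 2 with h | h
      · exact h d
      · exact h b
  have hrmne : π rm ≠ 0 := by
    intro h0
    have e : π S = π rp * π rp := by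
      rw [← hrs, map_sub, map_mul, map_mul, h0]; simp
    have hle : 0 ≤ sg (π (ρ 1 (c 0))) + sg (π (ρ 2 (c 1)))
        + sg (π (ρ 1 (c 1))) * sg (π (ρ 2 (c 0))) := by
      rw [← hπS, e]
      have : star (π rp) = π rp := by rw [← map_star, srp]
      have h2 := star_mul_self_nonneg (π rp)
      rwa [this] at h2
    obtain ⟨a, b, d⟩ := S1.triple_nonneg (hx1 _) (hx1 _) (hy1 _) (hy1 _) (sqz _ _) (sqz _ _)
      (sqz _ _) (sqz _ _) hle
    rcases d with d | d
    · rcases alive 1 with h | h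
      · exact h a
      · exact h d
    · rcases alive 2 with h | h
      · exact h d
      · exact h b
  -- the final contradiction at position 0
  have hsg0 : π (sg μ) = 0 := by
    rw [sg, map_sub, map_mul, map_mul, map_star, hπμ]; simp
  have hsg1 : π (sg p0) * (π rp * π rp) + π (sg p1) * (π rm * π rm) = 0 := by
    rw [← map_mul, ← map_mul, ← map_mul, ← map_mul, ← map_add, ← hsgμ]
    exact hsg0
  have hsch0 : ∀ {a y : E}, a ∈ posAlg ρ 0 → y ∈ restAlg ρ 0 → π (a * y) = 0 → π a = 0 ∨ π y = 0 :=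
    fun ha hy h => schlieder hπ (posAlg ρ 0).toSubalgebra _ (pos_rest_comm ρ hcomm 0)
      (gen_pos_rest ρ hgen 0) ha hy h
  have sπrp : star (π rp) = π rp := by rw [← map_star, srp]
  have sπrm : star (π rm) = π rm := by rw [← map_star, srm]
  have hππ : π rp * π rm = 0 := by rw [← map_mul, hrpm, map_zero]
  have hππ' : π rm * π rp = 0 := by rw [← map_mul, hrmp, map_zero]
  have nz : ∀ {y : Q}, star y = y → y ≠ 0 → y * y * (y * y) ≠ 0 := by
    intro y sy hy
    have h1 := mul_self_ne_zero_of_sa sy hy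
    have s2 : star (y * y) = y * y := by rw [star_mul, sy]
    exact mul_self_ne_zero_of_sa s2 h1
  have hA : π p0 = 0 := by
    have e1 : π (sg p0) * (π rp * π rp * (π rp * π rp)) = 0 := by
      have h2 : π rm * π rm * (π rp * π rp) = 0 := by
        rw [mul_assoc, ← mul_assoc (π rm) (π rp), hππ']; simp
      calc π (sg p0) * (π rp * π rp * (π rp * π rp))
          = (π (sg p0) * (π rp * π rp) + π (sg p1) * (π rm * π rm)) * (π rp * π rp)
            - π (sg p1) * (π rm * π rm * (π rp * π rp)) := by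
            simp only [add_mul, mul_assoc]; abel
        _ = 0 := by rw [hsg1, h2]; simp
    have e2 : π (sg p0 * (rp * rp * (rp * rp))) = 0 := by
      simp only [map_mul]
      simpa only [mul_assoc] using e1
    rcases hsch0 (a := sg p0) (by
        rw [hp0, ← map_sg]; exact pos_mem ρ 0 _)
      (mul_mem (mul_mem hrpY hrpY) (mul_mem hrpY hrpY)) e2 with h | h
    · rw [map_sg] at h
      exact eq_zero_of_sg (sqz 0 0) h
    · exfalso
      simp only [map_mul] at h
      exact nz sπrp hrpne h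
  have hB : π p1 = 0 := by
    have e1 : π (sg p1) * (π rm * π rm * (π rm * π rm)) = 0 := by
      have h2 : π rp * π rp * (π rm * π rm) = 0 := by
        rw [mul_assoc, ← mul_assoc (π rp) (π rm), hππ]; simp
      calc π (sg p1) * (π rm * π rm * (π rm * π rm))
          = (π (sg p0) * (π rp * π rp) + π (sg p1) * (π rm * π rm)) * (π rm * π rm)
            - π (sg p0) * (π rp * π rp * (π rm * π rm)) := by
            simp only [add_mul, mul_assoc]; abel
        _ = 0 := by rw [hsg1, h2]; simp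
    have e2 : π (sg p1 * (rm * rm * (rm * rm))) = 0 := by
      simp only [map_mul]
      simpa only [mul_assoc] using e1
    rcases hsch0 (a := sg p1) (by
        rw [hp1, ← map_sg]; exact pos_mem ρ 0 _)
      (mul_mem (mul_mem hrmY hrmY) (mul_mem hrmY hrmY)) e2 with h | h
    · rw [map_sg] at h
      exact eq_zero_of_sg (sqz 0 1) h
    · exfalso
      simp only [map_mul] at h
      exact nz sπrm hrmne h
  rcases alive 0 with h | h
  · exact h hA
  · exact h hB

end Core

end Vale.Agent.Lib.P101
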