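import Vale.Agent.Lib.P101.Ultra
import Vale.Agent.Lib.P101.Copies

set_option linter.unusedSimpArgs false
set_option linter.unusedVariables false
set_option linter.unusedSectionVars false
set_option linter.style.haveILetI false

open Filter Topology
open scoped BoundedContinuousFunction CStarAlgebra

namespace Vale.Agent.Lib.P101

universe u

section Separable

lemma countable_submonoid_closure {M : Type*} [Monoid M] {G : Set M} (hG : G.Countable) :
    ((Submonoid.closure G : Submonoid M) : Set M).Countable := by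
  haveI : Countable G := hG.to_subtype
  let f : List G → M := fun l => (l.map (fun x : G => (x : M))).prod
  let W : Submonoid M :=
    { carrier := Set.range f
      one_mem' := ⟨[], rfl⟩
      mul_mem' := by
        rintro _ _ ⟨l₁, rfl⟩ ⟨l₂, rfl⟩
        exact ⟨l₁ ++ l₂, by simp [f]⟩ }
  have h : Submonoid.closure G ≤ W := Submonoid.closure_le.mpr (fun x hx => ⟨[⟨x, hx⟩], by simp [f]⟩)
  exact (Set.countable_range f).mono h

/-- A finitely generated star subalgebra is separable. -/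
lemma isSeparable_adjoin {E : Type*} [CStarAlgebra E] {G : Set E} (hG : G.Finite)
    {L : StarSubalgebra ℂ E} (hL : L = StarAlgebra.adjoin ℂ G) :
    TopologicalSpace.IsSeparable (L : Set E) := by
  subst hL
  have e : ((StarAlgebra.adjoin ℂ G : StarSubalgebra ℂ E) : Set E)
      = (Submodule.span ℂ ((Submonoid.closure (G ∪ star G) : Submonoid E) : Set E) : Set E) := by
    have h1 := StarAlgebra.adjoin_toSubalgebra (R := ℂ) G
    have h2 := Algebra.adjoin_eq_span ℂ (G ∪ star G)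
    have : ((StarAlgebra.adjoin ℂ G : StarSubalgebra ℂ E) : Set E)
        = (((StarAlgebra.adjoin ℂ G).toSubalgebra : Subalgebra ℂ E) : Set E) := rfl
    rw [this, h1]
    exact congrArg (fun S : Submodule ℂ E => (S : Set E)) h2
  rw [e]
  refine TopologicalSpace.IsSeparable.span (Set.Countable.isSeparable ?_)
  refine countable_submonoid_closure ?_
  refine (hG.union ?_).countable
  exact hG.star

end Separable

variable {A : Type u} [CStarAlgebra A] {ω : Ultrafilter ℕ}

/-- The constant sequences. -/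
noncomputable def constSeq : A →⋆ₐ[ℂ] (ℕ →ᵇ A) where
  toFun a := BoundedContinuousFunction.const ℕ a
  map_one' := rfl
  map_mul' _ _ := rfl
  map_zero' := rfl
  map_add' _ _ := rfl
  commutes' _ := rfl
  map_star' _ := rfl

lemma constSeq_apply (a : A) (n : ℕ) : constSeq a n = a := rfl

/-- Reindexing of sequences. -/
noncomputable def reindex (σ : ℕ → ℕ) : (ℕ →ᵇ A) →⋆ₐ[ℂ] (ℕ →ᵇ A) where
  toFun x := BoundedContinuousFunction.ofNormedAddCommGroupDiscrete (fun n => x (σ n)) ‖x‖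
    (fun n => x.norm_coe_le_norm _)
  map_one' := rfl
  map_mul' _ _ := rfl
  map_zero' := rfl
  map_add' _ _ := rfl
  commutes' _ := rfl
  map_star' _ := rfl

lemma reindex_apply (σ : ℕ → ℕ) (x : ℕ →ᵇ A) (n : ℕ) : reindex σ x n = x (σ n) := rfl

/-- The commutant of the constants, with the norm closed. -/
structure IsCentralAlg (F : StarSubalgebra ℂ (Aω A ω)) : Prop where
  mem_iff : ∀ z, z ∈ F ↔ ∀ a : A, Commute z (mk ω (constSeq a))

lemma isCentralAlg_Fω : IsCentralAlg (Fω A ω) where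
  mem_iff := by
    intro z
    unfold Fω
    rw [StarSubalgebra.mem_centralizer_iff]
    constructor
    · intro h a
      exact (h _ ⟨a, rfl⟩).1.symm
    · rintro h _ ⟨a, rfl⟩
      refine ⟨(h a).symm, ?_⟩
      have e : star ((BoundedContinuousFunction.const ℕ a : ℕ →ᵇ A) : Aω A ω)
          = mk ω (constSeq (star a)) := rfl
      rw [e]
      exact (h _).symm

lemma isClosed_central {F : StarSubalgebra ℂ (Aω A ω)} (hF : IsCentralAlg F) :
    IsClosed (F : Set (Aω A ω)) := by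
  have e : (F : Set (Aω A ω)) = ⋂ a : A, {z | z * mk ω (constSeq a) = mk ω (constSeq a) * z} := by
    ext z
    simp only [SetLike.mem_coe, hF.mem_iff, Set.mem_iInter, Set.mem_ofPred_eq]
    rfl
  rw [e]
  exact isClosed_iInter (fun a => isClosed_eq (by fun_prop) (by fun_prop))

lemma tendsto_comm {y z : ℕ →ᵇ A} (h : Commute (mk ω y) (mk ω z)) :
    Tendsto (fun n => ‖y n * z n - z n * y n‖) ω (𝓝 0) := by
  have h1 : mk ω (y * z) = mk ω (z * y) := by
    rw [map_mul, map_mul]
    exact h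
  exact mk_eq_iff.mp h1

lemma commute_of_tendsto {y z : ℕ →ᵇ A} (h : Tendsto (fun n => ‖y n * z n - z n * y n‖) ω (𝓝 0)) :
    Commute (mk ω y) (mk ω z) := by
  have h1 : mk ω (y * z) = mk ω (z * y) := mk_eq_iff.mpr h
  rw [map_mul, map_mul] at h1
  exact h1

lemma continuous_mk_reindex (σ : ℕ → ℕ) :
    Continuous (fun y : ℕ →ᵇ A => mk ω (reindex σ y)) :=
  (mk_continuous (ω := ω)).comp (map_continuous (reindex σ))

/-- The selection of the reindexing. -/
theorem exists_reindex [TopologicalSpace.SeparableSpace A] (hω : (ω : Filter ℕ) ≤ cofinite)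
    {F : StarSubalgebra ℂ (Aω A ω)} (hF : IsCentralAlg F) (L : Set (ℕ →ᵇ A))
    (hsep : TopologicalSpace.IsSeparable L) (hne : L.Nonempty) (hL : ∀ y ∈ L, mk ω y ∈ F) :
    ∃ σ : ℕ → ℕ, (∀ y ∈ L, ‖mk ω (reindex σ y)‖ ≤ ‖mk ω y‖) ∧ (∀ y ∈ L, mk ω (reindex σ y) ∈ F) ∧
      ∀ y ∈ L, ∀ y' ∈ L, Commute (mk ω (reindex σ y)) (mk ω y') := by
  classical
  obtain ⟨T, hTL, hTc, hLT⟩ := hsep.exists_countable_dense_subset
  have hTne : T.Nonempty := by
    obtain ⟨y₀, hy₀⟩ := hne
    exact closure_nonempty_iff.mp ⟨y₀, hLT hy₀⟩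
  obtain ⟨y, rfl⟩ := hTc.exists_eq_range hTne
  have hyL : ∀ j, y j ∈ L := fun j => hTL ⟨j, rfl⟩
  have hcentral : ∀ j (a : A), Tendsto (fun m => ‖y j m * a - a * y j m‖) ω (𝓝 0) := fun j a =>
    tendsto_comm (z := constSeq a) ((hF.mem_iff _).mp (hL _ (hyL j)) a)
  obtain ⟨b, hb⟩ := TopologicalSpace.exists_dense_seq A
  let ε : ℕ → ℝ := fun n => 1 / ((n : ℝ) + 1)
  have hεpos : ∀ n, 0 < ε n := fun n => by
    simp only [ε]
    positivity
  have hε : Tendsto ε ω (𝓝 0) := by
    have h1 : Tendsto ε atTop (𝓝 0) := tendsto_one_div_add_atTop_nhds_zero_nat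
    rw [← Nat.cofinite_eq_atTop] at h1
    exact h1.mono_left hω
  have hsel : ∀ n, ∃ m, (∀ j ∈ Finset.range (n + 1), |‖y j m‖ - ‖mk ω (y j)‖| < ε n) ∧
      (∀ j ∈ Finset.range (n + 1), ∀ l ∈ Finset.range (n + 1), ‖y j m * b l - b l * y j m‖ < ε n) ∧
      (∀ j ∈ Finset.range (n + 1), ∀ l ∈ Finset.range (n + 1),
        ‖y j m * y l n - y l n * y j m‖ < ε n) := by
    intro n
    have h1 : ∀ᶠ m in (ω : Filter ℕ), ∀ j ∈ Finset.range (n + 1), |‖y j m‖ - ‖mk ω (y j)‖| < ε n := by
      rw [Filter.eventually_all_finset]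
      intro j _
      have := (tendsto_norm_mk (ω := ω) (y j))
      have h2 : Tendsto (fun m => |‖y j m‖ - ‖mk ω (y j)‖|) ω (𝓝 0) := by
        have := (this.sub_const ‖mk ω (y j)‖).abs
        simpa using this
      exact h2.eventually (gt_mem_nhds (hεpos n))
    have h2 : ∀ᶠ m in (ω : Filter ℕ), ∀ j ∈ Finset.range (n + 1), ∀ l ∈ Finset.range (n + 1),
        ‖y j m * b l - b l * y j m‖ < ε n := by
      rw [Filter.eventually_all_finset]
      intro j _
      rw [Filter.eventually_all_finset]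
      intro l _
      exact (hcentral j (b l)).eventually (gt_mem_nhds (hεpos n))
    have h3 : ∀ᶠ m in (ω : Filter ℕ), ∀ j ∈ Finset.range (n + 1), ∀ l ∈ Finset.range (n + 1),
        ‖y j m * y l n - y l n * y j m‖ < ε n := by
      rw [Filter.eventually_all_finset]
      intro j _
      rw [Filter.eventually_all_finset]
      intro l _
      exact (hcentral j (y l n)).eventually (gt_mem_nhds (hεpos n))
    obtain ⟨m, hm1, hm2, hm3⟩ := (h1.and (h2.and h3)).exists
    exact ⟨m, hm1, hm2, hm3⟩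
  choose σ hσ1 hσ2 hσ3 using hsel
  have hev : ∀ j : ℕ, ∀ᶠ n in (ω : Filter ℕ), j ∈ Finset.range (n + 1) := by
    intro j
    have h1 : ∀ᶠ n in (cofinite : Filter ℕ), j ≤ n := by
      rw [Nat.cofinite_eq_atTop]
      exact eventually_ge_atTop j
    filter_upwards [hω h1] with n hn
    exact Finset.mem_range.mpr (by omega)
  have lim0 : ∀ {f : ℕ → ℝ}, (∀ᶠ n in (ω : Filter ℕ), |f n| < ε n) → Tendsto f ω (𝓝 0) := by
    intro f hf
    refine squeeze_zero_norm' ?_ hε
    filter_upwards [hf] with n hn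
    rw [Real.norm_eq_abs]
    exact hn.le
  -- statement (a) on the dense sequence
  have ha' : ∀ j, ‖mk ω (reindex σ (y j))‖ = ‖mk ω (y j)‖ := by
    intro j
    have h1 : Tendsto (fun n => ‖y j (σ n)‖ - ‖mk ω (y j)‖) ω (𝓝 0) := by
      refine lim0 ?_
      filter_upwards [hev j] with n hn
      exact hσ1 n j hn
    have h2 : Tendsto (fun n => ‖y j (σ n)‖) ω (𝓝 ‖mk ω (y j)‖) := by
      have := h1.add_const ‖mk ω (y j)‖
      simpa using this
    exact tendsto_nhds_unique (tendsto_norm_mk (reindex σ (y j))) h2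
  -- statement (b) on the dense sequence
  have hconst : Continuous (fun a : A => mk ω (constSeq a)) :=
    (mk_continuous (ω := ω)).comp (map_continuous constSeq)
  have hb' : ∀ j, mk ω (reindex σ (y j)) ∈ F := by
    intro j
    rw [hF.mem_iff]
    intro a
    refine hb.induction_on (p := fun a => Commute (mk ω (reindex σ (y j))) (mk ω (constSeq a))) a
      (isClosed_eq (by fun_prop) (by fun_prop)) (fun l => ?_)
    refine commute_of_tendsto (lim0 ?_)
    filter_upwards [hev j, hev l] with n hn hn'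
    rw [abs_of_nonneg (norm_nonneg _)]
    exact hσ2 n j hn l hn'
  -- statement (c) on the dense sequence
  have hc' : ∀ j l, Commute (mk ω (reindex σ (y j))) (mk ω (y l)) := by
    intro j l
    refine commute_of_tendsto (lim0 ?_)
    filter_upwards [hev j, hev l] with n hn hn'
    rw [abs_of_nonneg (norm_nonneg _)]
    exact hσ3 n j hn l hn'
  have hFc : IsClosed (F : Set (Aω A ω)) := isClosed_central hF
  have hcr := continuous_mk_reindex (A := A) (ω := ω) σ
  have hmk : Continuous (mk ω : (ℕ →ᵇ A) →⋆ₐ[ℂ] Aω A ω) := mk_continuous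
  refine ⟨σ, ?_, ?_, ?_⟩
  · intro z hz
    have hcl : IsClosed {z : ℕ →ᵇ A | ‖mk ω (reindex σ z)‖ ≤ ‖mk ω z‖} :=
      isClosed_le hcr.norm hmk.norm
    refine hcl.closure_subset_iff.mpr ?_ (hLT hz)
    rintro _ ⟨j, rfl⟩
    exact (ha' j).le
  · intro z hz
    have hcl : IsClosed {z : ℕ →ᵇ A | mk ω (reindex σ z) ∈ F} := hFc.preimage hcr
    refine hcl.closure_subset_iff.mpr ?_ (hLT hz)
    rintro _ ⟨j, rfl⟩
    exact hb' j
  · intro z hz z' hz'
    have hcl : IsClosed {q : (ℕ →ᵇ A) × (ℕ →ᵇ A) |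
        Commute (mk ω (reindex σ q.1)) (mk ω q.2)} := by
      refine isClosed_eq ?_ ?_
      · exact (hcr.comp continuous_fst).mul (hmk.comp continuous_snd)
      · exact (hmk.comp continuous_snd).mul (hcr.comp continuous_fst)
    have hsub : Set.range y ×ˢ Set.range y ⊆ {q : (ℕ →ᵇ A) × (ℕ →ᵇ A) |
        Commute (mk ω (reindex σ q.1)) (mk ω q.2)} := by
      rintro ⟨_, _⟩ ⟨⟨j, rfl⟩, ⟨l, rfl⟩⟩
      exact hc' j l
    have hmem : (z, z') ∈ closure (Set.range y ×ˢ Set.range y) := by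
      rw [closure_prod_eq]
      exact ⟨hLT hz, hLT hz'⟩
    exact hcl.closure_subset_iff.mpr hsub hmem

/-- Descending a star homomorphism along a surjection. -/
lemma exists_descend {X Y Z : Type*} [Ring X] [StarRing X] [Algebra ℂ X] [Ring Y] [StarRing Y]
    [Algebra ℂ Y] [Ring Z] [StarRing Z] [Algebra ℂ Z] (f : X →⋆ₐ[ℂ] Y) (g : X →⋆ₐ[ℂ] Z)
    (hs : Function.Surjective f) (hk : ∀ x, f x = 0 → g x = 0) :
    ∃ ρ : Y →⋆ₐ[ℂ] Z, ∀ x, ρ (f x) = g x := by
  classical
  have heq : ∀ x x', f x = f x' → g x = g x' := by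
    intro x x' h
    have : g (x - x') = 0 := hk _ (by rw [map_sub, h, sub_self])
    rw [map_sub] at this
    exact sub_eq_zero.mp this
  choose s hs' using hs
  have hsg : ∀ x, g (s (f x)) = g x := fun x => heq _ _ (hs' _)
  refine ⟨{ toFun := fun y => g (s y)
            map_one' := by
              have : g (s 1) = g 1 := heq _ _ (by rw [hs', map_one])
              rw [this, map_one]
            map_mul' := fun a b => by
              have : g (s (a * b)) = g (s a * s b) := heq _ _ (by rw [hs', map_mul, hs', hs'])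
              rw [this, map_mul]
            map_zero' := by
              have : g (s 0) = g 0 := heq _ _ (by rw [hs', map_zero])
              rw [this, map_zero]
            map_add' := fun a b => by
              have : g (s (a + b)) = g (s a + s b) := heq _ _ (by rw [hs', map_add, hs', hs'])
              rw [this, map_add]
            commutes' := fun r => by
              have : g (s (algebraMap ℂ Y r)) = g (algebraMap ℂ X r) :=
                heq _ _ (by rw [hs', AlgHomClass.commutes])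
              change g (s (algebraMap ℂ Y r)) = algebraMap ℂ Z r
              rw [this, AlgHomClass.commutes]
            map_star' := fun a => by
              have : g (s (star a)) = g (star (s a)) := heq _ _ (by rw [hs', map_star, hs'])
              change g (s (star a)) = star (g (s a))
              rw [this, map_star] }, fun x => hsg x⟩

/-- Elements of the lift algebra map into `B`. -/
lemma lift_map_mem {F : StarSubalgebra ℂ (Aω A ω)} {B : StarSubalgebra ℂ F} {S : Set F}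
    (hBS : B = StarAlgebra.adjoin ℂ S) {lift : F → (ℕ →ᵇ A)}
    (hlift : ∀ s, mk ω (lift s) = (s : Aω A ω)) {L₀ : StarSubalgebra ℂ (ℕ →ᵇ A)}
    (hL₀ : L₀ = StarAlgebra.adjoin ℂ (lift '' S)) :
    ∀ y ∈ L₀, mk ω y ∈ (B.map F.subtype) := by
  have hle : L₀ ≤ (B.map F.subtype).comap (mk ω) := by
    rw [hL₀]
    refine StarAlgebra.adjoin_le ?_
    rintro _ ⟨s, hs, rfl⟩
    refine StarSubalgebra.mem_map.mpr ⟨s, ?_, (hlift s).symm⟩
    rw [hBS]
    exact StarAlgebra.subset_adjoin ℂ S hs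
  exact fun y hy => hle hy

/-- Elements of `B` lift to the lift algebra. -/
lemma lift_surj_mem {F : StarSubalgebra ℂ (Aω A ω)} {B : StarSubalgebra ℂ F} {S : Set F}
    (hBS : B = StarAlgebra.adjoin ℂ S) {lift : F → (ℕ →ᵇ A)}
    (hlift : ∀ s, mk ω (lift s) = (s : Aω A ω)) {L₀ : StarSubalgebra ℂ (ℕ →ᵇ A)}
    (hL₀ : L₀ = StarAlgebra.adjoin ℂ (lift '' S)) :
    ∀ x : F, x ∈ B → (x : Aω A ω) ∈ L₀.map (mk ω) := by
  have hle : B ≤ (L₀.map (mk ω)).comap F.subtype := by
    rw [hBS]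
    refine StarAlgebra.adjoin_le ?_
    intro s hs
    refine StarSubalgebra.mem_map.mpr ⟨lift s, ?_, hlift s⟩
    rw [hL₀]
    exact StarAlgebra.subset_adjoin ℂ _ ⟨s, hs, rfl⟩
  exact fun x hx => hle hx

/-- The central sequence algebra has copies. -/
theorem hasCopies_of [TopologicalSpace.SeparableSpace A] (hω : (ω : Filter ℕ) ≤ cofinite)
    {F : StarSubalgebra ℂ (Aω A ω)} (hF : IsCentralAlg F) [hc : IsClosed (F : Set (Aω A ω))] :
    HasCopies F := by
  classical
  rintro B ⟨S, hS, hBS⟩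
  choose lift hlift using fun s : F => mk_surjective (ω := ω) (s : Aω A ω)
  obtain ⟨L₀, hL₀⟩ : ∃ L₀ : StarSubalgebra ℂ (ℕ →ᵇ A), L₀ = StarAlgebra.adjoin ℂ (lift '' S) :=
    ⟨_, rfl⟩
  have hmap := lift_map_mem (ω := ω) (F := F) hBS hlift hL₀
  have hsurj := lift_surj_mem (ω := ω) (F := F) hBS hlift hL₀
  have hLF : ∀ y ∈ L₀, mk ω y ∈ F := by
    intro y hy
    obtain ⟨z, -, hz⟩ := StarSubalgebra.mem_map.mp (hmap y hy)
    rw [← hz]
    exact z.2
  have hsep : TopologicalSpace.IsSeparable (L₀ : Set (ℕ →ᵇ A)) :=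
    isSeparable_adjoin (hS.image lift) hL₀
  obtain ⟨σ, h1, h2, h3⟩ := exists_reindex hω hF (L₀ : Set (ℕ →ᵇ A)) hsep ⟨1, L₀.one_mem⟩ hLF
  let f₁ : L₀ →⋆ₐ[ℂ] F := ((mk ω).comp L₀.subtype).codRestrict F (fun y => hLF y y.2)
  have hf₁ : ∀ y, ((f₁ y : F) : Aω A ω) = mk ω (y : ℕ →ᵇ A) := fun y => rfl
  have hf₂ : ∀ y, f₁ y ∈ B := by
    intro y
    obtain ⟨z, hz, hz'⟩ := StarSubalgebra.mem_map.mp (hmap y y.2)
    have : f₁ y = z := Subtype.ext (hf₁ y ▸ hz'.symm)
    rw [this]
    exact hz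
  let f₂ : L₀ →⋆ₐ[ℂ] B := f₁.codRestrict B hf₂
  have hf₂c : ∀ y, (((f₂ y : B) : F) : Aω A ω) = mk ω (y : ℕ →ᵇ A) := fun y => rfl
  let g : L₀ →⋆ₐ[ℂ] F :=
    (((mk ω).comp (reindex σ)).comp L₀.subtype).codRestrict F (fun y => h2 y y.2)
  have hg : ∀ y, ((g y : F) : Aω A ω) = mk ω (reindex σ (y : ℕ →ᵇ A)) := fun y => rfl
  have hsf : Function.Surjective f₂ := by
    intro x
    obtain ⟨y, hy, hy'⟩ := StarSubalgebra.mem_map.mp (hsurj x x.2)
    exact ⟨⟨y, hy⟩, Subtype.ext (Subtype.ext hy')⟩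
  have hker : ∀ y, f₂ y = 0 → g y = 0 := by
    intro y hy
    have h0 : mk ω (y : ℕ →ᵇ A) = 0 := by
      rw [← hf₂c, hy]
      rfl
    have h4 := h1 y y.2
    rw [h0, norm_zero] at h4
    exact Subtype.ext (norm_le_zero_iff.mp h4)
  obtain ⟨ρ, hρ⟩ := exists_descend (X := L₀) (Y := B) (Z := F) f₂ g hsf hker
  refine ⟨ρ, fun x => ?_, fun x x' => ?_⟩
  · obtain ⟨y, rfl⟩ := hsf x
    rw [hρ]
    have e1 : ‖g y‖ = ‖mk ω (reindex σ (y : ℕ →ᵇ A))‖ := rfl
    have e2 : ‖((f₂ y : B) : F)‖ = ‖mk ω (y : ℕ →ᵇ A)‖ := rfl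
    rw [e1, e2]
    exact h1 y y.2
  · obtain ⟨y, rfl⟩ := hsf x
    obtain ⟨y', rfl⟩ := hsf x'
    rw [hρ]
    exact Subtype.ext (h3 y y.2 y' y'.2)

end Vale.Agent.Lib.P101
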