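import Vale.Agent.Lib.P101.Defs

set_option linter.unusedSimpArgs false
set_option linter.unusedVariables false
set_option linter.unusedSectionVars false

open Filter Topology
open scoped BoundedContinuousFunction

namespace Vale.Agent.Lib.P101

universe u

variable {A : Type u} [CStarAlgebra A] {ω : Ultrafilter ℕ}

variable (ω) in
/-- The quotient map. -/
noncomputable def mk : (ℕ →ᵇ A) →⋆ₐ[ℂ] Aω A ω :=
  { (nullCon A ω).mkₐ ℂ with map_star' := fun _ => rfl }

lemma mk_surjective : Function.Surjective (mk ω : (ℕ →ᵇ A) →⋆ₐ[ℂ] Aω A ω) :=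
  Quotient.mk''_surjective

lemma mk_eq_iff {a b : ℕ →ᵇ A} : mk ω a = mk ω b ↔ Tendsto (fun n => ‖a n - b n‖) ω (𝓝 0) :=
  (nullCon A ω).eq

lemma exists_lim (a : ℕ →ᵇ A) : ∃ x : ℝ, Tendsto (fun n => ‖a n‖) ω (𝓝 x) := by
  have hc : IsCompact (Set.Icc (0 : ℝ) ‖a‖) := isCompact_Icc
  have hmem : ∀ n, ‖a n‖ ∈ Set.Icc (0 : ℝ) ‖a‖ := fun n => ⟨norm_nonneg _, a.norm_coe_le_norm n⟩
  have hle : ((ω.map (fun n => ‖a n‖) : Ultrafilter ℝ) : Filter ℝ) ≤ 𝓟 (Set.Icc (0 : ℝ) ‖a‖) := by
    rw [le_principal_iff]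
    exact Filter.mem_map.mpr (Filter.univ_mem' hmem)
  obtain ⟨x, -, hx⟩ := hc.ultrafilter_le_nhds _ hle
  exact ⟨x, hx⟩

variable (ω) in
/-- The limit of the norms along the ultrafilter. -/
noncomputable def limN (a : ℕ →ᵇ A) : ℝ := Classical.choose (exists_lim (ω := ω) a)

lemma tendsto_limN (a : ℕ →ᵇ A) : Tendsto (fun n => ‖a n‖) ω (𝓝 (limN ω a)) :=
  Classical.choose_spec (exists_lim (ω := ω) a)

lemma limN_eq {a : ℕ →ᵇ A} {x : ℝ} (h : Tendsto (fun n => ‖a n‖) ω (𝓝 x)) : limN ω a = x :=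
  tendsto_nhds_unique (tendsto_limN a) h

lemma limN_nonneg (a : ℕ →ᵇ A) : 0 ≤ limN ω a :=
  ge_of_tendsto' (tendsto_limN a) (fun _ => norm_nonneg _)

lemma limN_le_norm (a : ℕ →ᵇ A) : limN ω a ≤ ‖a‖ :=
  le_of_tendsto' (tendsto_limN a) (fun n => a.norm_coe_le_norm n)

lemma limN_congr {a b : ℕ →ᵇ A} (h : Tendsto (fun n => ‖a n - b n‖) ω (𝓝 0)) :
    limN ω a = limN ω b := by
  have h1 : Tendsto (fun n => ‖a n‖ - ‖b n‖) ω (𝓝 0) :=
    squeeze_zero_norm (fun n => by
      rw [Real.norm_eq_abs]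
      exact abs_norm_sub_norm_le _ _) h
  have h2 : Tendsto (fun n => ‖b n‖) ω (𝓝 (limN ω a)) := by
    have := (tendsto_limN (ω := ω) a).sub h1
    simpa using this
  exact (limN_eq h2).symm

/-- The norm on `A_ω`. -/
noncomputable def normω (x : Aω A ω) : ℝ :=
  Quotient.liftOn' x (limN ω) (fun _ _ h => limN_congr h)

lemma normω_mk (a : ℕ →ᵇ A) : normω (mk ω a) = limN ω a := rfl

lemma induction_mk {P : Aω A ω → Prop} (h : ∀ a, P (mk ω a)) (x : Aω A ω) : P x := by
  obtain ⟨a, rfl⟩ := mk_surjective x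
  exact h a

lemma limN_add_le (a b : ℕ →ᵇ A) : limN ω (a + b) ≤ limN ω a + limN ω b :=
  le_of_tendsto_of_tendsto' (tendsto_limN _) ((tendsto_limN a).add (tendsto_limN b))
    (fun n => norm_add_le _ _)

lemma limN_mul_le (a b : ℕ →ᵇ A) : limN ω (a * b) ≤ limN ω a * limN ω b :=
  le_of_tendsto_of_tendsto' (tendsto_limN _) ((tendsto_limN a).mul (tendsto_limN b))
    (fun n => norm_mul_le _ _)

lemma limN_neg (a : ℕ →ᵇ A) : limN ω (-a) = limN ω a := by
  apply limN_eq
  have := tendsto_limN (ω := ω) a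
  simpa using this

lemma limN_zero_iff {a : ℕ →ᵇ A} : limN ω a = 0 ↔ mk ω a = 0 := by
  rw [← map_zero (mk ω), mk_eq_iff]
  constructor
  · intro h
    have := tendsto_limN (ω := ω) a
    rw [h] at this
    simpa using this
  · intro h
    apply limN_eq
    simpa using h

lemma limN_star_mul_self (a : ℕ →ᵇ A) : limN ω (star a * a) = limN ω a * limN ω a := by
  apply limN_eq
  have e : ∀ n, ‖(star a * a) n‖ = ‖a n‖ * ‖a n‖ := fun n => by
    have e0 : (star a * a) n = star (a n) * a n := rfl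
    rw [e0, CStarRing.norm_star_mul_self]
  simp only [e]
  exact (tendsto_limN a).mul (tendsto_limN a)

lemma limN_smul (r : ℂ) (a : ℕ →ᵇ A) : limN ω (r • a) = ‖r‖ * limN ω a := by
  apply limN_eq
  have e : ∀ n, ‖(r • a) n‖ = ‖r‖ * ‖a n‖ := fun n => by
    have e0 : (r • a) n = r • a n := rfl
    rw [e0, norm_smul]
  simp only [e]
  exact (tendsto_limN a).const_mul _

lemma normω_add_le (x y : Aω A ω) : normω (x + y) ≤ normω x + normω y := by
  obtain ⟨a, rfl⟩ := mk_surjective x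
  obtain ⟨b, rfl⟩ := mk_surjective y
  rw [← map_add]
  exact limN_add_le a b

lemma normω_mul_le (x y : Aω A ω) : normω (x * y) ≤ normω x * normω y := by
  obtain ⟨a, rfl⟩ := mk_surjective x
  obtain ⟨b, rfl⟩ := mk_surjective y
  rw [← map_mul]
  exact limN_mul_le a b

lemma normω_neg (x : Aω A ω) : normω (-x) = normω x := by
  obtain ⟨a, rfl⟩ := mk_surjective x
  rw [← map_neg]
  exact limN_neg a

lemma normω_eq_zero {x : Aω A ω} : normω x = 0 ↔ x = 0 := by
  obtain ⟨a, rfl⟩ := mk_surjective x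
  exact limN_zero_iff

lemma normω_zero : normω (0 : Aω A ω) = 0 := normω_eq_zero.mpr rfl

lemma normω_star_mul_self (x : Aω A ω) : normω (star x * x) = normω x * normω x := by
  obtain ⟨a, rfl⟩ := mk_surjective x
  rw [← map_star, ← map_mul]
  exact limN_star_mul_self a

lemma normω_smul (r : ℂ) (x : Aω A ω) : normω (r • x) = ‖r‖ * normω x := by
  obtain ⟨a, rfl⟩ := mk_surjective x
  rw [← map_smul]
  exact limN_smul r a

/-- The norm structure on `A_ω`. -/
noncomputable instance normedRingω : NormedRing (Aω A ω) where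
  __ := (inferInstance : Ring (Aω A ω))
  norm := normω
  dist x y := normω (-x + y)
  dist_self x := by
    rw [neg_add_cancel]
    exact normω_zero
  dist_comm x y := by
    rw [← normω_neg (-x + y)]
    congr 1
    abel
  dist_triangle x y z := by
    have e : -x + z = (-x + y) + (-y + z) := by abel
    rw [e]
    exact normω_add_le _ _
  eq_of_dist_eq_zero {x y} h := by
    have h1 := normω_eq_zero.mp h
    exact (neg_add_eq_zero.mp h1)
  dist_eq x y := rfl
  norm_mul_le := normω_mul_le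

lemma norm_mk (a : ℕ →ᵇ A) : ‖mk ω a‖ = limN ω a := rfl

lemma tendsto_norm_mk (a : ℕ →ᵇ A) : Tendsto (fun n => ‖a n‖) ω (𝓝 ‖mk ω a‖) := tendsto_limN a

lemma norm_mk_le (a : ℕ →ᵇ A) : ‖mk ω a‖ ≤ ‖a‖ := limN_le_norm a

lemma mk_continuous : Continuous (mk ω : (ℕ →ᵇ A) →⋆ₐ[ℂ] Aω A ω) :=
  AddMonoidHomClass.continuous_of_bound (mk ω) 1 (fun a => by
    rw [one_mul]
    exact norm_mk_le a)

/-- Truncation of a lift to nearly the right norm. -/
lemma exists_small_lift (x : Aω A ω) {ε : ℝ} (hε : 0 < ε) :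
    ∃ b : ℕ →ᵇ A, mk ω b = x ∧ ‖b‖ ≤ ‖x‖ + ε := by
  classical
  obtain ⟨a, rfl⟩ := mk_surjective x
  set C : ℝ := ‖mk ω a‖ + ε with hC
  have hC0 : 0 ≤ C := by
    have := norm_nonneg (mk ω a)
    linarith
  let f : ℕ → A := fun n => if ‖a n‖ ≤ C then a n else 0
  have hf : ∀ n, ‖f n‖ ≤ C := fun n => by
    by_cases h : ‖a n‖ ≤ C
    · simp only [f, if_pos h]
      exact h
    · simp only [f, if_neg h, norm_zero]
      exact hC0
  let b : ℕ →ᵇ A := BoundedContinuousFunction.ofNormedAddCommGroupDiscrete f C hf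
  have hb : ∀ n, b n = f n := fun n => rfl
  refine ⟨b, ?_, (BoundedContinuousFunction.norm_le hC0).mpr (fun n => by rw [hb]; exact hf n)⟩
  rw [mk_eq_iff]
  have hev : ∀ᶠ n in (ω : Filter ℕ), ‖a n‖ < C :=
    (tendsto_norm_mk a).eventually (gt_mem_nhds (by linarith))
  refine Tendsto.congr' ?_ tendsto_const_nhds
  filter_upwards [hev] with n hn
  rw [hb]
  simp only [f, if_pos hn.le, sub_self, norm_zero]

/-- The scalar action is compatible with the norm. -/
noncomputable instance normedAlgebraω : NormedAlgebra ℂ (Aω A ω) where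
  __ := (inferInstance : Algebra ℂ (Aω A ω))
  norm_smul_le r x := (normω_smul r x).le

instance cstarRingω : CStarRing (Aω A ω) where
  norm_mul_self_le x := (normω_star_mul_self x).ge

instance completeω : CompleteSpace (Aω A ω) := by
  refine NormedAddCommGroup.completeSpace_of_summable_imp_tendsto (fun u hu => ?_)
  have hpos : ∀ k : ℕ, (0 : ℝ) < (1 / 2) ^ k := fun k => by positivity
  choose a ha hna using fun k => exists_small_lift (u k) (hpos k)
  have hs : Summable (fun k => ‖a k‖) :=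
    Summable.of_nonneg_of_le (fun _ => norm_nonneg _) hna
      (hu.add (summable_geometric_of_lt_one (by norm_num) (by norm_num)))
  obtain ⟨b, hb⟩ := hs.of_norm
  refine ⟨mk ω b, ?_⟩
  have h1 := (mk_continuous (ω := ω)).tendsto b |>.comp hb.tendsto_sum_nat
  refine h1.congr (fun n => ?_)
  simp only [Function.comp_apply, map_sum, ha]

/-- `A_ω` as a C*-algebra. -/
noncomputable instance cstarAlgebraω : CStarAlgebra (Aω A ω) where
  __ := normedRingω
  __ := normedAlgebraω
  __ := (inferInstance : StarRing (Aω A ω))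
  __ := cstarRingω
  __ := (inferInstance : StarModule ℂ (Aω A ω))
  __ := completeω

end Vale.Agent.Lib.P101
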