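import Vale.Agent.Lib.P101.ZGen

set_option linter.unusedSimpArgs false
set_option linter.unusedVariables false
set_option linter.unusedSectionVars false
set_option linter.style.haveILetI false

open scoped Kronecker

namespace Vale.Agent.Lib.P101

/-- Scalar functions inside `C([0,1], M_2 ⊗ M_3)`. -/
noncomputable def scFun (g : C(unitInterval, ℂ)) : C(unitInterval, M6) :=
  ⟨fun x => g x • (1 : M6), g.continuous.smul continuous_const⟩

lemma scFun_apply (g : C(unitInterval, ℂ)) (x : unitInterval) : scFun g x = g x • (1 : M6) := rfl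

lemma continuous_scFun : Continuous scFun := by
  refine ContinuousMap.continuous_of_continuous_uncurry _ ?_
  have : Continuous fun p : C(unitInterval, ℂ) × unitInterval => p.1 p.2 :=
    continuous_fst.eval continuous_snd
  exact this.smul continuous_const

/-- The twisted constant matrix with a scalar weight. -/
noncomputable def twist (g : C(unitInterval, ℂ)) (m : M6) : C(unitInterval, M6) :=
  ⟨fun x => Ufun x * (g x • m) * star (Ufun x),
    ((continuous_Ufun.comp continuous_subtype_val).mul (g.continuous.smul continuous_const)).mul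
      (continuous_Ufun.comp continuous_subtype_val).star⟩

lemma twist_apply (g : C(unitInterval, ℂ)) (m : M6) (x : unitInterval) :
    twist g m x = Ufun x * (g x • m) * star (Ufun x) := rfl

lemma continuous_twist (m : M6) : Continuous fun g => twist g m := by
  refine ContinuousMap.continuous_of_continuous_uncurry _ ?_
  have : Continuous fun p : C(unitInterval, ℂ) × unitInterval => p.1 p.2 :=
    continuous_fst.eval continuous_snd
  have hU : Continuous fun p : C(unitInterval, ℂ) × unitInterval => Ufun p.2 :=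
    continuous_Ufun.comp (continuous_subtype_val.comp continuous_snd)
  exact (hU.mul (this.smul continuous_const)).mul hU.star

lemma twist_mul (g g' : C(unitInterval, ℂ)) (m m' : M6) :
    twist g m * twist g' m' = twist (g * g') (m * m') := by
  ext1 x
  rw [ContinuousMap.mul_apply, twist_apply, twist_apply, twist_apply, conj_mul (star_mul_Ufun _),
    smul_mul_smul_comm, ContinuousMap.mul_apply]

lemma twist_star (g : C(unitInterval, ℂ)) (m : M6) : star (twist g m) = twist (star g) (star m) := by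
  ext1 x
  rw [ContinuousMap.star_apply, twist_apply, twist_apply, conj_star, star_smul,
    ContinuousMap.star_apply]

lemma scFun_mul_twist (h g : C(unitInterval, ℂ)) (m : M6) :
    scFun h * twist g m = twist (h * g) m := by
  ext1 x
  rw [ContinuousMap.mul_apply, twist_apply, twist_apply, scFun_apply, ContinuousMap.mul_apply,
    smul_one_mul, mul_smul, ← smul_mul_assoc, ← mul_smul_comm]

lemma twist_add (g g' : C(unitInterval, ℂ)) (m : M6) :
    twist (g + g') m = twist g m + twist g' m := by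
  ext1 x
  rw [ContinuousMap.add_apply, twist_apply, twist_apply, twist_apply, ContinuousMap.add_apply,
    add_smul, mul_add, add_mul]

lemma twist_zero (m : M6) : twist 0 m = 0 := by
  ext1 x
  rw [twist_apply]
  simp

/-- The coordinate function. -/
noncomputable def iotaC : C(unitInterval, ℂ) :=
  ⟨fun x => ((x : ℝ) : ℂ), Complex.continuous_ofReal.comp continuous_subtype_val⟩

/-- The square root of the coordinate function. -/
noncomputable def rootC : C(unitInterval, ℂ) :=
  ⟨fun x => ((√(x : ℝ) : ℝ) : ℂ),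
    Complex.continuous_ofReal.comp (Real.continuous_sqrt.comp continuous_subtype_val)⟩

/-- The square root of one minus the coordinate function. -/
noncomputable def rootC' : C(unitInterval, ℂ) :=
  ⟨fun x => ((√(1 - (x : ℝ)) : ℝ) : ℂ),
    Complex.continuous_ofReal.comp
      (Real.continuous_sqrt.comp (continuous_const.sub continuous_subtype_val))⟩

lemma S0S0 : S0 * star S0 = (1 : Matrix (Fin 2) (Fin 2) ℂ) ⊗ₖ E3 0 0 := by
  rw [star_S0]
  simp [S0, kron_mul, unit_mul]

lemma S0S0' : star S0 * S0 = (1 : Matrix (Fin 2) (Fin 2) ℂ) ⊗ₖ E3 2 2 := by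
  rw [star_S0]
  simp [S0, kron_mul, unit_mul]

lemma base_tss (q r : ℝ) : baseT q * baseS r * star (baseS r) = ((r : ℂ) * r) • T0 := by
  rw [baseS_eq, star_smul, Complex.star_def, Complex.conj_ofReal, baseT_eq, mul_assoc,
    smul_mul_smul_comm, mul_smul_comm, S0S0, add_mul, smul_mul_assoc]
  simp [T0, T1, kron_mul, unit_mul]

lemma base_tss' (q r : ℝ) : baseT q * star (baseS r) * baseS r = ((q : ℂ) * (r * r)) • T1 := by
  rw [baseS_eq, star_smul, Complex.star_def, Complex.conj_ofReal, baseT_eq, mul_assoc,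
    smul_mul_smul_comm, mul_smul_comm, S0S0', add_mul, smul_mul_assoc]
  have h1 : T0 * (1 ⊗ₖ E3 2 2) = 0 := by
    simp [T0, kron_mul, unit_mul]
  have h2 : T1 * (1 ⊗ₖ E3 2 2) = T1 := by
    simp [T1, kron_mul, unit_mul]
  rw [h1, h2, zero_add, smul_smul]
  congr 1
  ring

lemma tC_sC_sC : tC * sC * star sC = twist iotaC T0 := by
  ext1 x
  change tFun x * sFun x * star (sFun x) = _
  rw [twist_apply, tFun, sFun, conj_star, conj_mul (star_mul_Ufun _), conj_mul (star_mul_Ufun _),
    base_tss]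
  have h0 : 0 ≤ (x : ℝ) := x.2.1
  have : ((√(x : ℝ) : ℝ) : ℂ) * ((√(x : ℝ) : ℝ) : ℂ) = iotaC x := by
    rw [← Complex.ofReal_mul, Real.mul_self_sqrt h0]
    rfl
  rw [this]

lemma sC_eq : sC = twist rootC S0 := by
  ext1 x
  change sFun x = _
  rw [twist_apply, sFun, baseS_eq]
  rfl

lemma tC_sC_sC' : tC * star sC * sC = twist (rootC' * iotaC) T1 := by
  ext1 x
  change tFun x * star (sFun x) * sFun x = _
  rw [twist_apply, tFun, sFun, conj_star, conj_mul (star_mul_Ufun _), conj_mul (star_mul_Ufun _),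
    base_tss']
  have h0 : 0 ≤ (x : ℝ) := x.2.1
  have : ((√(x : ℝ) : ℝ) : ℂ) * ((√(x : ℝ) : ℝ) : ℂ) = iotaC x := by
    rw [← Complex.ofReal_mul, Real.mul_self_sqrt h0]
    rfl
  rw [this]
  rfl

lemma base_z (q r : ℝ) : star (baseS r) * baseS r + baseS r * star (baseS r)
    + baseT q * (baseS r * star (baseS r)) * star (baseT q) = ((r : ℂ) * r) • (1 : M6) := by
  have h1 : baseS r * star (baseS r) = ((r : ℂ) * r) • ((1 : Matrix (Fin 2) (Fin 2) ℂ) ⊗ₖ E3 0 0) := by
    rw [baseS_eq, star_smul, Complex.star_def, Complex.conj_ofReal, smul_mul_smul_comm, S0S0]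
  have h2 : baseT q * (baseS r * star (baseS r)) * star (baseT q)
      = ((r : ℂ) * r) • ((1 : Matrix (Fin 2) (Fin 2) ℂ) ⊗ₖ E3 1 1) := by
    rw [← mul_assoc, base_tss, smul_mul_assoc, star_baseT, mul_add, mul_smul_comm, star_T0, star_T1]
    simp [T0, kron_mul, unit_mul]
  rw [h2, h1, base_abs3]
  have e2 : (1 : M6) = (1 : Matrix (Fin 2) (Fin 2) ℂ) ⊗ₖ E3 0 0
      + (1 : Matrix (Fin 2) (Fin 2) ℂ) ⊗ₖ E3 1 1 + (1 : Matrix (Fin 2) (Fin 2) ℂ) ⊗ₖ E3 2 2 := by
    rw [← Matrix.kronecker_add, ← Matrix.kronecker_add, three_units, Matrix.one_kronecker_one]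
  rw [e2, smul_add, smul_add]
  abel

lemma zC_eq : star sC * sC + sC * star sC + tC * (sC * star sC) * star tC = scFun iotaC := by
  ext1 x
  change star (sFun x) * sFun x + sFun x * star (sFun x)
    + tFun x * (sFun x * star (sFun x)) * star (tFun x) = _
  rw [tFun, sFun, conj_star, conj_star, conj_mul (star_mul_Ufun _), conj_mul (star_mul_Ufun _),
    conj_mul (star_mul_Ufun _), conj_mul (star_mul_Ufun _), ← add_mul, ← mul_add, ← add_mul,
    ← mul_add, base_z, scFun_apply]
  have h0 : 0 ≤ (x : ℝ) := x.2.1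
  have : ((√(x : ℝ) : ℝ) : ℂ) * ((√(x : ℝ) : ℝ) : ℂ) = iotaC x := by
    rw [← Complex.ofReal_mul, Real.mul_self_sqrt h0]
    rfl
  rw [this, mul_smul_comm, smul_mul_assoc, mul_one, Ufun_mul_star]

lemma unit_kron (p q : Fin 2 × Fin 3) (c : ℂ) :
    Matrix.single p q c = c • (E2 p.1 q.1 ⊗ₖ E3 p.2 q.2) := by
  ext a b
  rcases p with ⟨k, i⟩
  rcases q with ⟨l, j⟩
  rcases a with ⟨a, a'⟩
  rcases b with ⟨b, b'⟩
  simp only [Matrix.smul_apply, Matrix.kroneckerMap_apply, Matrix.single_apply, Prod.mk.injEq,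
    smul_eq_mul]
  by_cases h1 : k = a <;> by_cases h2 : i = a' <;> by_cases h3 : l = b <;> by_cases h4 : j = b' <;>
    simp [h1, h2, h3, h4]

lemma sum_units (m : M6) :
    m = ∑ p, ∑ q, m p q • (E2 p.1 q.1 ⊗ₖ E3 p.2 q.2) := by
  conv_lhs => rw [Matrix.matrix_eq_sum_single m]
  refine Finset.sum_congr rfl (fun p _ => Finset.sum_congr rfl (fun q _ => ?_))
  rw [unit_kron]

/-- The entries of `f` in the twisted frame. -/
noncomputable def twEntry (f : C(unitInterval, M6)) (p q : Fin 2 × Fin 3) : C(unitInterval, ℂ) :=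
  ⟨fun x => (star (Ufun x) * f x * Ufun x) p q,
    (((continuous_Ufun.comp continuous_subtype_val).star.mul f.continuous).mul
      (continuous_Ufun.comp continuous_subtype_val)).matrix_elem p q⟩

lemma twEntry_apply (f : C(unitInterval, M6)) (p q : Fin 2 × Fin 3) (x : unitInterval) :
    twEntry f p q x = (star (Ufun x) * f x * Ufun x) p q := rfl

lemma eq_sum_twist (f : C(unitInterval, M6)) :
    f = ∑ p, ∑ q, twist (twEntry f p q) (E2 p.1 q.1 ⊗ₖ E3 p.2 q.2) := by
  ext1 x
  rw [ContinuousMap.coe_sum, Finset.sum_apply]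
  simp only [ContinuousMap.coe_sum, Finset.sum_apply, twist_apply, twEntry_apply]
  simp only [← Finset.mul_sum, ← Finset.sum_mul]
  rw [← sum_units]
  have : Ufun x * (star (Ufun x) * f x * Ufun x) * star (Ufun x)
      = (Ufun x * star (Ufun x)) * f x * (Ufun x * star (Ufun x)) := by
    noncomm_ring
  rw [this, Ufun_mul_star, one_mul, mul_one]

section Dense

variable {B : StarSubalgebra ℂ C(unitInterval, M6)}

/-- All scalar functions lie in a closed star subalgebra containing the generators. -/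
lemma scFun_mem (hcl : IsClosed (B : Set C(unitInterval, M6))) (ht : tC ∈ B) (hs : sC ∈ B)
    (g : C(unitInterval, ℂ)) : scFun g ∈ B := by
  let B₀ : StarSubalgebra ℂ C(unitInterval, ℂ) :=
    { carrier := {g | scFun g ∈ B}
      mul_mem' := by
        intro a b ha hb
        have : scFun (a * b) = scFun a * scFun b := by
          ext1 x
          rw [ContinuousMap.mul_apply, scFun_apply, scFun_apply, scFun_apply,
            ContinuousMap.mul_apply, smul_mul_smul_comm, one_mul]
        change scFun _ ∈ B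
        rw [this]
        exact B.mul_mem ha hb
      add_mem' := by
        intro a b ha hb
        have : scFun (a + b) = scFun a + scFun b := by
          ext1 x
          rw [ContinuousMap.add_apply, scFun_apply, scFun_apply, scFun_apply,
            ContinuousMap.add_apply, add_smul]
        change scFun _ ∈ B
        rw [this]
        exact B.add_mem ha hb
      algebraMap_mem' := by
        intro r
        have : scFun (algebraMap ℂ C(unitInterval, ℂ) r) = algebraMap ℂ C(unitInterval, M6) r := by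
          ext1 x
          rw [scFun_apply, Algebra.algebraMap_eq_smul_one, Algebra.algebraMap_eq_smul_one]
          simp
        change scFun _ ∈ B
        rw [this]
        exact B.algebraMap_mem r
      star_mem' := by
        intro a ha
        have : scFun (star a) = star (scFun a) := by
          ext1 x
          rw [ContinuousMap.star_apply, scFun_apply, scFun_apply, ContinuousMap.star_apply,
            star_smul, star_one]
        change scFun _ ∈ B
        rw [this]
        exact star_mem ha }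
  have hB₀closed : IsClosed (B₀ : Set C(unitInterval, ℂ)) :=
    hcl.preimage continuous_scFun
  have hι : iotaC ∈ B₀ := by
    change scFun iotaC ∈ B
    rw [← zC_eq]
    exact add_mem (add_mem (mul_mem (star_mem hs) hs) (mul_mem hs (star_mem hs)))
      (mul_mem (mul_mem ht (mul_mem hs (star_mem hs))) (star_mem ht))
  have hsep : B₀.SeparatesPoints := by
    intro x y hxy
    refine ⟨_, ⟨iotaC, hι, rfl⟩, ?_⟩
    intro h
    apply hxy
    apply Subtype.ext
    have : ((x : ℝ) : ℂ) = ((y : ℝ) : ℂ) := h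
    exact_mod_cast this
  have htop := ContinuousMap.starSubalgebra_topologicalClosure_eq_top_of_separatesPoints B₀ hsep
  have hle : B₀.topologicalClosure ≤ B₀ := StarSubalgebra.topologicalClosure_minimal le_rfl hB₀closed
  have : g ∈ B₀.topologicalClosure := by
    rw [htop]
    exact StarSubalgebra.mem_top
  exact hle this

/-- The matrix `m` occurs in `B` with a weight that is nonzero on the open interval. -/
def GoodM (B : StarSubalgebra ℂ C(unitInterval, M6)) (m : M6) : Prop :=
  ∃ w : C(unitInterval, ℂ), twist w m ∈ B ∧ ∀ x : unitInterval, x ≠ 0 → x ≠ 1 → w x ≠ 0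

lemma GoodM.mul {m m' : M6} (h : GoodM B m) (h' : GoodM B m') : GoodM B (m * m') := by
  obtain ⟨w, hw, hw0⟩ := h
  obtain ⟨w', hw', hw0'⟩ := h'
  refine ⟨w * w', ?_, fun x h0 h1 => mul_ne_zero (hw0 x h0 h1) (hw0' x h0 h1)⟩
  rw [← twist_mul]
  exact mul_mem hw hw'

lemma GoodM.adj {m : M6} (h : GoodM B m) : GoodM B (star m) := by
  obtain ⟨w, hw, hw0⟩ := h
  refine ⟨star w, ?_, fun x h0 h1 => ?_⟩
  · rw [← twist_star]
    exact star_mem hw
  · rw [ContinuousMap.star_apply]
    exact star_ne_zero.mpr (hw0 x h0 h1)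

/-- If `m` is good, all weights vanishing at the endpoints occur. -/
lemma GoodM.vanish (hcl : IsClosed (B : Set C(unitInterval, M6))) (ht : tC ∈ B) (hs : sC ∈ B)
    {m : M6} (h : GoodM B m) {g : C(unitInterval, ℂ)} (h0 : g 0 = 0) (h1 : g 1 = 0) :
    twist g m ∈ B := by
  obtain ⟨w, hw, hw0⟩ := h
  let J : Ideal C(unitInterval, ℂ) :=
    { carrier := {g | twist g m ∈ B}
      add_mem' := by
        intro a b ha hb
        change twist (a + b) m ∈ B
        rw [twist_add]
        exact add_mem ha hb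
      zero_mem' := by
        change twist 0 m ∈ B
        rw [twist_zero]
        exact zero_mem B
      smul_mem' := by
        intro c a ha
        change twist (c * a) m ∈ B
        rw [← scFun_mul_twist]
        exact mul_mem (scFun_mem hcl ht hs c) ha }
  have hJ : IsClosed (J : Set C(unitInterval, ℂ)) := hcl.preimage (continuous_twist m)
  have hid := ContinuousMap.idealOfSet_ofIdeal_isClosed hJ
  have hgJ : g ∈ J := by
    rw [← hid, ContinuousMap.mem_idealOfSet]
    intro x hx
    have hx' : x ∉ ContinuousMap.setOfIdeal J := hx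
    rw [ContinuousMap.notMem_setOfIdeal] at hx'
    have hwx : w x = 0 := hx' hw
    by_cases hx0 : x = 0
    · rw [hx0, h0]
    by_cases hx1 : x = 1
    · rw [hx1, h1]
    exact absurd hwx (hw0 x hx0 hx1)
  exact hgJ

/-- The three basic good elements. -/
lemma good_T0 (ht : tC ∈ B) (hs : sC ∈ B) : GoodM B T0 := by
  refine ⟨iotaC, ?_, fun x h0 h1 => ?_⟩
  · rw [← tC_sC_sC]
    exact mul_mem (mul_mem ht hs) (star_mem hs)
  · change ((x : ℝ) : ℂ) ≠ 0
    exact_mod_cast unitInterval.coe_ne_zero.mpr h0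

lemma good_S0 (hs : sC ∈ B) : GoodM B S0 := by
  refine ⟨rootC, ?_, fun x h0 h1 => ?_⟩
  · rw [← sC_eq]
    exact hs
  · change ((√(x : ℝ) : ℝ) : ℂ) ≠ 0
    have h2 : (x : ℝ) ≠ 0 := unitInterval.coe_ne_zero.mpr h0
    have h3 : 0 < (x : ℝ) := lt_of_le_of_ne x.2.1 h2.symm
    exact_mod_cast (Real.sqrt_pos.mpr h3).ne'

lemma good_T1 (ht : tC ∈ B) (hs : sC ∈ B) : GoodM B T1 := by
  refine ⟨rootC' * iotaC, ?_, fun x h0 h1 => ?_⟩
  · rw [← tC_sC_sC']
    exact mul_mem (mul_mem ht (star_mem hs)) hs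
  · rw [ContinuousMap.mul_apply]
    refine mul_ne_zero ?_ ?_
    · change ((√(1 - (x : ℝ)) : ℝ) : ℂ) ≠ 0
      have h2 : (x : ℝ) ≠ 1 := unitInterval.coe_ne_one.mpr h1
      have h3 : (x : ℝ) < 1 := lt_of_le_of_ne x.2.2 h2
      exact_mod_cast (Real.sqrt_pos.mpr (sub_pos.mpr h3)).ne'
    · change ((x : ℝ) : ℂ) ≠ 0
      exact_mod_cast unitInterval.coe_ne_zero.mpr h0

/-- All matrix units are good. -/
lemma good_units (ht : tC ∈ B) (hs : sC ∈ B) (k l : Fin 2) (i j : Fin 3) :
    GoodM B (E2 k l ⊗ₖ E3 i j) := by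
  have a1 : GoodM B ((1 : Matrix (Fin 2) (Fin 2) ℂ) ⊗ₖ E3 1 0) := good_T0 ht hs
  have a2 : GoodM B ((1 : Matrix (Fin 2) (Fin 2) ℂ) ⊗ₖ E3 0 2) := good_S0 hs
  have a3 : GoodM B (E2 1 0 ⊗ₖ E3 2 2) := good_T1 ht hs
  have a1' : GoodM B ((1 : Matrix (Fin 2) (Fin 2) ℂ) ⊗ₖ E3 2 0) := by
    have := a2.adj
    rwa [kron_star, unit_star, star_one] at this
  have a3' : GoodM B (E2 0 1 ⊗ₖ E3 2 2) := by
    have := a3.adj
    rwa [kron_star, unit_star, unit_star] at this
  have a4 : GoodM B ((1 : Matrix (Fin 2) (Fin 2) ℂ) ⊗ₖ E3 1 2) := by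
    have := a1.mul a2
    simpa [kron_mul, unit_mul] using this
  have a5 : GoodM B ((1 : Matrix (Fin 2) (Fin 2) ℂ) ⊗ₖ E3 2 2) := by
    have := a1'.mul a2
    simpa [kron_mul, unit_mul] using this
  have r : ∀ i : Fin 3, GoodM B ((1 : Matrix (Fin 2) (Fin 2) ℂ) ⊗ₖ E3 i 2) := by
    intro i
    fin_cases i
    · exact a2
    · exact a4
    · exact a5
  have r' : ∀ j : Fin 3, GoodM B ((1 : Matrix (Fin 2) (Fin 2) ℂ) ⊗ₖ E3 2 j) := by
    intro j
    have := (r j).adj
    rwa [kron_star, unit_star, star_one] at this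
  have c : ∀ k l : Fin 2, GoodM B (E2 k l ⊗ₖ E3 2 2) := by
    intro k l
    fin_cases k <;> fin_cases l
    · have := a3'.mul a3
      simpa [kron_mul, unit_mul] using this
    · exact a3'
    · exact a3
    · have := a3.mul a3'
      simpa [kron_mul, unit_mul] using this
  have := ((r i).mul (c k l)).mul (r' j)
  simpa [kron_mul, unit_mul] using this

/-- Functions vanishing at the endpoints lie in `B`. -/
lemma vanish_mem (hcl : IsClosed (B : Set C(unitInterval, M6))) (ht : tC ∈ B) (hs : sC ∈ B)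
    {f : C(unitInterval, M6)} (h0 : f 0 = 0) (h1 : f 1 = 0) : f ∈ B := by
  rw [eq_sum_twist f]
  refine sum_mem (fun p _ => sum_mem (fun q _ => ?_))
  refine (good_units ht hs p.1 q.1 p.2 q.2).vanish hcl ht hs ?_ ?_
  · rw [twEntry_apply, h0]
    simp
  · rw [twEntry_apply, h1]
    simp

/-- Endpoint values at `1`. -/
lemma exists_value_one (ht : tC ∈ B) (hs : sC ∈ B) (b : Matrix (Fin 3) (Fin 3) ℂ) :
    ∃ r ∈ B, r 1 = (1 : Matrix (Fin 2) (Fin 2) ℂ) ⊗ₖ b := by
  let V : Submodule ℂ (Matrix (Fin 3) (Fin 3) ℂ) :=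
    { carrier := {b | ∃ r ∈ B, r 1 = (1 : Matrix (Fin 2) (Fin 2) ℂ) ⊗ₖ b}
      add_mem' := by
        rintro a b ⟨r, hr, h⟩ ⟨r', hr', h'⟩
        refine ⟨r + r', add_mem hr hr', ?_⟩
        rw [ContinuousMap.add_apply, h, h', Matrix.kronecker_add]
      zero_mem' := ⟨0, zero_mem B, by simp⟩
      smul_mem' := by
        rintro c a ⟨r, hr, h⟩
        refine ⟨c • r, B.smul_mem hr c, ?_⟩
        rw [ContinuousMap.smul_apply, h, Matrix.kronecker_smul] }
  have a1 : E3 1 0 ∈ V := ⟨tC, ht, by rw [tC_apply, Set.Icc.coe_one, tFun_one, T0]⟩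
  have a2 : E3 0 2 ∈ V := ⟨sC, hs, by rw [sC_apply, Set.Icc.coe_one, sFun_one, S0]⟩
  have hmul : ∀ {i j k l : Fin 3}, E3 i j ∈ V → E3 k l ∈ V → E3 i j * E3 k l ∈ V := by
    rintro i j k l ⟨r, hr, h⟩ ⟨r', hr', h'⟩
    refine ⟨r * r', mul_mem hr hr', ?_⟩
    rw [ContinuousMap.mul_apply, h, h', kron_mul, one_mul]
  have hst : ∀ {i j : Fin 3}, E3 i j ∈ V → E3 j i ∈ V := by
    rintro i j ⟨r, hr, h⟩
    refine ⟨star r, star_mem hr, ?_⟩
    rw [ContinuousMap.star_apply, h, kron_star, unit_star, star_one]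
  have all : ∀ i j : Fin 3, E3 i j ∈ V := by
    have b1 := hst a1
    have b2 := hst a2
    intro i j
    fin_cases i <;> fin_cases j
    · simpa [unit_mul] using hmul b1 a1
    · exact b1
    · exact a2
    · exact a1
    · simpa [unit_mul] using hmul a1 b1
    · simpa [unit_mul] using hmul a1 a2
    · exact b2
    · simpa [unit_mul] using hmul b2 b1
    · simpa [unit_mul] using hmul b2 a2
  have hb : b ∈ V := by
    rw [Matrix.matrix_eq_sum_single b]
    refine sum_mem (fun i _ => sum_mem (fun j _ => ?_))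
    have : Matrix.single i j (b i j) = (b i j) • E3 i j := by
      rw [Matrix.smul_single, smul_eq_mul, mul_one]
    rw [this]
    exact V.smul_mem _ (all i j)
  exact hb

/-- Endpoint values at `0`. -/
lemma exists_value_zero (ht : tC ∈ B) (hs : sC ∈ B) (a : Matrix (Fin 2) (Fin 2) ℂ) :
    ∃ r ∈ B, r 0 = a ⊗ₖ (1 : Matrix (Fin 3) (Fin 3) ℂ) := by
  let V : Submodule ℂ (Matrix (Fin 2) (Fin 2) ℂ) :=
    { carrier := {a | ∃ r ∈ B, r 0 = a ⊗ₖ (1 : Matrix (Fin 3) (Fin 3) ℂ)}
      add_mem' := by
        rintro a b ⟨r, hr, h⟩ ⟨r', hr', h'⟩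
        refine ⟨r + r', add_mem hr hr', ?_⟩
        rw [ContinuousMap.add_apply, h, h', Matrix.add_kronecker]
      zero_mem' := ⟨0, zero_mem B, by simp⟩
      smul_mem' := by
        rintro c a ⟨r, hr, h⟩
        refine ⟨c • r, B.smul_mem hr c, ?_⟩
        rw [ContinuousMap.smul_apply, h, Matrix.smul_kronecker] }
  have a1 : E2 1 0 ∈ V := ⟨tC, ht, by rw [tC_apply, Set.Icc.coe_zero, tFun_zero]⟩
  have hmul : ∀ {i j k l : Fin 2}, E2 i j ∈ V → E2 k l ∈ V → E2 i j * E2 k l ∈ V := by
    rintro i j k l ⟨r, hr, h⟩ ⟨r', hr', h'⟩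
    refine ⟨r * r', mul_mem hr hr', ?_⟩
    rw [ContinuousMap.mul_apply, h, h', kron_mul, one_mul]
  have hst : ∀ {i j : Fin 2}, E2 i j ∈ V → E2 j i ∈ V := by
    rintro i j ⟨r, hr, h⟩
    refine ⟨star r, star_mem hr, ?_⟩
    rw [ContinuousMap.star_apply, h, kron_star, unit_star, star_one]
  have all : ∀ i j : Fin 2, E2 i j ∈ V := by
    have b1 := hst a1
    intro i j
    fin_cases i <;> fin_cases j
    · simpa [unit_mul] using hmul b1 a1
    · exact b1
    · exact a1
    · simpa [unit_mul] using hmul a1 b1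
  have hb : a ∈ V := by
    rw [Matrix.matrix_eq_sum_single a]
    refine sum_mem (fun i _ => sum_mem (fun j _ => ?_))
    have : Matrix.single i j (a i j) = (a i j) • E2 i j := by
      rw [Matrix.smul_single, smul_eq_mul, mul_one]
    rw [this]
    exact V.smul_mem _ (all i j)
  exact hb

/-- A closed star subalgebra containing the two generators contains `Z_{2,3}`. -/
theorem Z23_le (hcl : IsClosed (B : Set C(unitInterval, M6))) (ht : tC ∈ B) (hs : sC ∈ B)
    {f : C(unitInterval, M6)} (hf : f ∈ Z23) : f ∈ B := by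
  obtain ⟨⟨a, ha⟩, ⟨b, hb⟩⟩ := hf
  obtain ⟨r₁, hr₁, e₁⟩ := exists_value_one ht hs b
  obtain ⟨r₀, hr₀, e₀⟩ := exists_value_zero ht hs a
  have hv : f - scFun iotaC * r₁ - scFun (1 - iotaC) * r₀ ∈ B := by
    refine vanish_mem hcl ht hs ?_ ?_
    · simp only [ContinuousMap.sub_apply, ContinuousMap.mul_apply, scFun_apply, ha, e₀,
        ContinuousMap.one_apply]
      have h1 : iotaC 0 = 0 := by
        change (((0 : unitInterval) : ℝ) : ℂ) = 0
        simp
      rw [h1]
      simp
    · simp only [ContinuousMap.sub_apply, ContinuousMap.mul_apply, scFun_apply, hb, e₁,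
        ContinuousMap.one_apply]
      have h1 : iotaC 1 = 1 := by
        change (((1 : unitInterval) : ℝ) : ℂ) = 1
        simp
      rw [h1]
      simp
  have : f = (f - scFun iotaC * r₁ - scFun (1 - iotaC) * r₀) + scFun iotaC * r₁
      + scFun (1 - iotaC) * r₀ := by abel
  rw [this]
  exact add_mem (add_mem hv (mul_mem (scFun_mem hcl ht hs _) hr₁)) (mul_mem (scFun_mem hcl ht hs _) hr₀)

end Dense

end Vale.Agent.Lib.P101
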