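import Vale.Agent.Lib.P101.Fibre

set_option linter.unusedSimpArgs false
set_option linter.unusedVariables false
set_option linter.unusedSectionVars false
set_option linter.style.haveILetI false

open scoped Kronecker

namespace Vale.Agent.Lib.P101

/-- The matrix unit of `M_2`. -/
noncomputable abbrev E2 (k l : Fin 2) : Matrix (Fin 2) (Fin 2) ℂ := Matrix.single k l 1

/-- The matrix unit of `M_3`. -/
noncomputable abbrev E3 (i j : Fin 3) : Matrix (Fin 3) (Fin 3) ℂ := Matrix.single i j 1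

/-- The element `1 ⊗ e_{10}`. -/
noncomputable def T0 : M6 := (1 : Matrix (Fin 2) (Fin 2) ℂ) ⊗ₖ E3 1 0

/-- The element `e_{10} ⊗ e_{22}`. -/
noncomputable def T1 : M6 := E2 1 0 ⊗ₖ E3 2 2

/-- The element `1 ⊗ e_{02}`. -/
noncomputable def S0 : M6 := (1 : Matrix (Fin 2) (Fin 2) ℂ) ⊗ₖ E3 0 2

lemma T0_eq : T0 = Matrix.single (0, 1) (0, 0) 1 + Matrix.single (1, 1) (1, 0) 1 := by
  ext ⟨a, b⟩ ⟨c, d⟩
  fin_cases a <;> fin_cases b <;> fin_cases c <;> fin_cases d <;>
    simp [T0, Matrix.add_apply, Matrix.single_apply, Matrix.one_apply]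

lemma T1_eq : T1 = Matrix.single (1, 2) (0, 2) 1 := by
  ext ⟨a, b⟩ ⟨c, d⟩
  fin_cases a <;> fin_cases b <;> fin_cases c <;> fin_cases d <;>
    simp [T1, Matrix.single_apply]

lemma S0_eq : S0 = Matrix.single (0, 0) (0, 2) 1 + Matrix.single (1, 0) (1, 2) 1 := by
  ext ⟨a, b⟩ ⟨c, d⟩
  fin_cases a <;> fin_cases b <;> fin_cases c <;> fin_cases d <;>
    simp [S0, Matrix.add_apply, Matrix.single_apply, Matrix.one_apply]

lemma baseT_eq (q : ℝ) : baseT q = T0 + (q : ℂ) • T1 := by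
  rw [T0_eq, T1_eq, baseT, Matrix.smul_single, smul_eq_mul, mul_one]

lemma baseS_eq (r : ℝ) : baseS r = (r : ℂ) • S0 := by
  rw [S0_eq, baseS, smul_add, Matrix.smul_single, Matrix.smul_single, smul_eq_mul, mul_one]

lemma unit_mul {n : Type*} [DecidableEq n] [Fintype n] (i j k l : n) :
    (Matrix.single i j (1 : ℂ)) * (Matrix.single k l (1 : ℂ))
      = if j = k then Matrix.single i l 1 else 0 := by
  split_ifs with h
  · subst h
    rw [Matrix.single_mul_single_same, mul_one]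
  · exact Matrix.single_mul_single_of_ne _ _ _ _ h _

lemma unit_star {n : Type*} [DecidableEq n] [Fintype n] (i j : n) :
    star (Matrix.single i j (1 : ℂ)) = Matrix.single j i 1 := by
  rw [Matrix.star_eq_conjTranspose, Matrix.conjTranspose_single, star_one]

lemma kron_star {m n : Type*} [DecidableEq m] [DecidableEq n] [Fintype m] [Fintype n]
    (a : Matrix m m ℂ) (b : Matrix n n ℂ) : star (a ⊗ₖ b) = star a ⊗ₖ star b := by
  rw [Matrix.star_eq_conjTranspose, Matrix.star_eq_conjTranspose, Matrix.star_eq_conjTranspose,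
    Matrix.conjTranspose_kronecker]

lemma kron_mul {m n : Type*} [DecidableEq m] [DecidableEq n] [Fintype m] [Fintype n]
    (a c : Matrix m m ℂ) (b d : Matrix n n ℂ) : (a ⊗ₖ b) * (c ⊗ₖ d) = (a * c) ⊗ₖ (b * d) :=
  (Matrix.mul_kronecker_mul a c b d).symm

lemma star_T0 : star T0 = (1 : Matrix (Fin 2) (Fin 2) ℂ) ⊗ₖ E3 0 1 := by
  rw [T0, kron_star, unit_star, star_one]

lemma star_T1 : star T1 = E2 0 1 ⊗ₖ E3 2 2 := by
  rw [T1, kron_star, unit_star, unit_star]

lemma star_S0 : star S0 = (1 : Matrix (Fin 2) (Fin 2) ℂ) ⊗ₖ E3 2 0 := by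
  rw [S0, kron_star, unit_star, star_one]

lemma two_units : E2 0 0 + E2 1 1 = 1 := by
  ext a b
  fin_cases a <;> fin_cases b <;> simp [Matrix.add_apply, Matrix.single_apply]

lemma three_units : E3 0 0 + E3 1 1 + E3 2 2 = 1 := by
  ext a b
  fin_cases a <;> fin_cases b <;> simp [Matrix.add_apply, Matrix.single_apply]

lemma T0T0 : T0 * T0 = 0 := by
  simp [T0, kron_mul, unit_mul]

lemma T0T1 : T0 * T1 = 0 := by
  simp [T0, T1, kron_mul, unit_mul]

lemma T1T0 : T1 * T0 = 0 := by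
  simp [T0, T1, kron_mul, unit_mul]

lemma T1T1 : T1 * T1 = 0 := by
  simp [T1, kron_mul, unit_mul]

lemma base_sq (q : ℝ) : baseT q * baseT q = 0 := by
  rw [baseT_eq, add_mul, mul_add, mul_add, smul_mul_assoc, mul_smul_comm, smul_mul_smul_comm, T0T0, T0T1, T1T0, T1T1]
  simp

lemma star_baseT (q : ℝ) : star (baseT q) = star T0 + (q : ℂ) • star T1 := by
  rw [baseT_eq, star_add, star_smul, Complex.star_def, Complex.conj_ofReal]

lemma star_baseS (r : ℝ) : star (baseS r) = (r : ℂ) • star S0 := by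
  rw [baseS_eq, star_smul, Complex.star_def, Complex.conj_ofReal]

lemma base_abs1 (q : ℝ) : star (baseT q) * baseT q
    = (1 : Matrix (Fin 2) (Fin 2) ℂ) ⊗ₖ E3 0 0 + ((q : ℂ) * q) • (E2 0 0 ⊗ₖ E3 2 2) := by
  rw [star_baseT, baseT_eq, add_mul, mul_add, mul_add, smul_mul_assoc, mul_smul_comm,
    smul_mul_smul_comm, star_T0, star_T1]
  simp [T0, T1, kron_mul, unit_mul]

lemma base_abs2 (q : ℝ) : baseT q * star (baseT q)
    = (1 : Matrix (Fin 2) (Fin 2) ℂ) ⊗ₖ E3 1 1 + ((q : ℂ) * q) • (E2 1 1 ⊗ₖ E3 2 2) := by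
  rw [star_baseT, baseT_eq, add_mul, mul_add, mul_add, smul_mul_assoc, mul_smul_comm,
    smul_mul_smul_comm, star_T0, star_T1]
  simp [T0, T1, kron_mul, unit_mul]

lemma base_abs3 (r : ℝ) : star (baseS r) * baseS r
    = ((r : ℂ) * r) • ((1 : Matrix (Fin 2) (Fin 2) ℂ) ⊗ₖ E3 2 2) := by
  rw [star_baseS, baseS_eq, smul_mul_smul_comm, star_S0]
  simp [S0, kron_mul, unit_mul]

/-- The sum relation of the base matrices. -/
lemma base_sum {q r : ℝ} (h : q * q + r * r = 1) :
    star (baseT q) * baseT q + baseT q * star (baseT q) + star (baseS r) * baseS r = 1 := by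
  rw [base_abs1, base_abs2, base_abs3]
  have hc : (q : ℂ) * q + (r : ℂ) * r = 1 := by
    exact_mod_cast h
  have h1 : ((r : ℂ) * r) = 1 - (q : ℂ) * q := by
    rw [← hc]; ring
  rw [h1]
  have e1 : (1 : Matrix (Fin 2) (Fin 2) ℂ) ⊗ₖ E3 2 2 = E2 0 0 ⊗ₖ E3 2 2 + E2 1 1 ⊗ₖ E3 2 2 := by
    rw [← Matrix.add_kronecker, two_units]
  have e2 : (1 : M6) = (1 : Matrix (Fin 2) (Fin 2) ℂ) ⊗ₖ E3 0 0
      + (1 : Matrix (Fin 2) (Fin 2) ℂ) ⊗ₖ E3 1 1 + (1 : Matrix (Fin 2) (Fin 2) ℂ) ⊗ₖ E3 2 2 := by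
    rw [← Matrix.kronecker_add, ← Matrix.kronecker_add, three_units, Matrix.one_kronecker_one]
  rw [e2, e1, sub_smul, one_smul, smul_add]
  abel

lemma base_abs {q r : ℝ} : star (baseT q) * baseT q * baseS r = baseS r := by
  rw [base_abs1, baseS_eq, add_mul, smul_mul_assoc, mul_smul_comm, mul_smul_comm]
  simp [S0, kron_mul, unit_mul]

/-- The transposition of the indices `(0,1)` and `(1,0)`. -/
def swp : Equiv.Perm (Fin 2 × Fin 3) := Equiv.swap (0, 1) (1, 0)

lemma swp_swp (p : Fin 2 × Fin 3) : swp (swp p) = p := Equiv.swap_apply_self _ _ _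

/-- The permutation matrix of `swp`. -/
noncomputable def Sw : M6 := (1 : M6).submatrix swp id

lemma Sw_mul (m : M6) : Sw * m = m.submatrix swp id := by
  ext p q
  simp [Sw, Matrix.mul_apply, Matrix.one_apply]

lemma mul_Sw (m : M6) : m * Sw = m.submatrix id swp := by
  ext p q
  simp only [Sw, Matrix.mul_apply, Matrix.submatrix_apply, id, Matrix.one_apply]
  rw [Finset.sum_eq_single (swp q)]
  · simp [swp_swp]
  · intro b _ hb
    have : swp b ≠ q := fun h => hb (by rw [← h, swp_swp])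
    simp [this]
  · simp

lemma Sw_Sw : Sw * Sw = 1 := by
  rw [Sw_mul]
  ext p q
  simp [Sw, Matrix.one_apply, swp_swp]

lemma star_Sw : star Sw = Sw := by
  ext p q
  simp only [Matrix.star_apply, Sw, Matrix.submatrix_apply, id, Matrix.one_apply]
  by_cases h : swp p = q
  · have : swp q = p := by rw [← h, swp_swp]
    simp [h, this]
  · have : swp q ≠ p := fun h' => h (by rw [← h', swp_swp])
    simp [h, this]

/-- The path of unitaries used to twist the base matrices. -/
noncomputable def Ufun (x : ℝ) : M6 :=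
  (Real.cos ((1 - x) * (Real.pi / 2)) : ℂ) • (1 : M6)
    + (Complex.I * (Real.sin ((1 - x) * (Real.pi / 2)) : ℂ)) • Sw

lemma Ufun_one : Ufun 1 = 1 := by
  simp [Ufun]

lemma Ufun_zero : Ufun 0 = Complex.I • Sw := by
  simp [Ufun]

lemma star_Ufun (x : ℝ) : star (Ufun x) = (Real.cos ((1 - x) * (Real.pi / 2)) : ℂ) • (1 : M6)
    - (Complex.I * (Real.sin ((1 - x) * (Real.pi / 2)) : ℂ)) • Sw := by
  simp only [Ufun, star_add, star_smul, star_one, star_Sw, star_mul', Complex.star_def,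
    Complex.conj_ofReal, Complex.conj_I, neg_mul, neg_smul, sub_eq_add_neg]

lemma Ufun_aux (a c : ℂ) (hac : a * a - c * c = 1) : (a • (1 : M6) + c • Sw) * (a • (1 : M6) - c • Sw) = 1 := by
  have : (a • (1 : M6) + c • Sw) * (a • (1 : M6) - c • Sw)
      = (a * a - c * c) • (1 : M6) := by
    rw [add_mul, mul_sub, mul_sub, smul_mul_smul_comm, smul_mul_smul_comm, smul_mul_smul_comm,
      smul_mul_smul_comm, Sw_Sw]
    simp only [one_mul, mul_one, mul_comm c a, sub_smul]
    abel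
  rw [this, hac, one_smul]

lemma Ufun_aux' (a c : ℂ) (hac : a * a - c * c = 1) : (a • (1 : M6) - c • Sw) * (a • (1 : M6) + c • Sw) = 1 := by
  have : (a • (1 : M6) - c • Sw) * (a • (1 : M6) + c • Sw)
      = (a * a - c * c) • (1 : M6) := by
    rw [sub_mul, mul_add, mul_add, smul_mul_smul_comm, smul_mul_smul_comm, smul_mul_smul_comm,
      smul_mul_smul_comm, Sw_Sw]
    simp only [one_mul, mul_one, mul_comm c a, sub_smul]
    abel
  rw [this, hac, one_smul]

lemma Ufun_trig (θ : ℝ) : (Real.cos θ : ℂ) * (Real.cos θ : ℂ)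
    - (Complex.I * (Real.sin θ : ℂ)) * (Complex.I * (Real.sin θ : ℂ)) = 1 := by
  have h1 : (Complex.I * (Real.sin θ : ℂ)) * (Complex.I * (Real.sin θ : ℂ))
      = - ((Real.sin θ : ℂ) * (Real.sin θ : ℂ)) := by
    have : (Complex.I * (Real.sin θ : ℂ)) * (Complex.I * (Real.sin θ : ℂ))
        = (Complex.I * Complex.I) * ((Real.sin θ : ℂ) * (Real.sin θ : ℂ)) := by ring
    rw [this, Complex.I_mul_I]
    ring
  rw [h1]
  have h2 := Real.sin_sq_add_cos_sq θ
  have h3 : (Real.cos θ : ℂ) * (Real.cos θ : ℂ) + (Real.sin θ : ℂ) * (Real.sin θ : ℂ) = 1 := by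
    have : Real.cos θ * Real.cos θ + Real.sin θ * Real.sin θ = 1 := by nlinarith
    exact_mod_cast this
  rw [sub_neg_eq_add, h3]

lemma Ufun_mul_star (x : ℝ) : Ufun x * star (Ufun x) = 1 := by
  rw [star_Ufun, Ufun]
  exact Ufun_aux _ _ (Ufun_trig _)

lemma star_mul_Ufun (x : ℝ) : star (Ufun x) * Ufun x = 1 := by
  rw [star_Ufun, Ufun]
  exact Ufun_aux' _ _ (Ufun_trig _)

lemma continuous_Ufun : Continuous Ufun := by
  unfold Ufun
  have h1 : Continuous fun x : ℝ => (Real.cos ((1 - x) * (Real.pi / 2)) : ℂ) :=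
    Complex.continuous_ofReal.comp (Real.continuous_cos.comp (by fun_prop))
  have h2 : Continuous fun x : ℝ => Complex.I * (Real.sin ((1 - x) * (Real.pi / 2)) : ℂ) :=
    continuous_const.mul (Complex.continuous_ofReal.comp (Real.continuous_sin.comp (by fun_prop)))
  exact (h1.smul continuous_const).add (h2.smul continuous_const)

lemma continuous_baseT : Continuous baseT := by
  have : baseT = fun q : ℝ => T0 + (q : ℂ) • T1 := funext baseT_eq
  rw [this]
  refine continuous_const.add (Continuous.smul Complex.continuous_ofReal continuous_const)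

lemma continuous_baseS : Continuous baseS := by
  have : baseS = fun r : ℝ => (r : ℂ) • S0 := funext baseS_eq
  rw [this]
  exact Continuous.smul Complex.continuous_ofReal continuous_const

/-- The path `t₁`. -/
noncomputable def tFun (x : ℝ) : M6 := Ufun x * baseT (√(1 - x)) * star (Ufun x)

/-- The path `s₁`. -/
noncomputable def sFun (x : ℝ) : M6 := Ufun x * baseS (√x) * star (Ufun x)

lemma continuous_tFun : Continuous tFun := by
  unfold tFun
  refine (continuous_Ufun.mul (continuous_baseT.comp (Real.continuous_sqrt.comp (by fun_prop)))).mul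
    (continuous_Ufun.star)

lemma continuous_sFun : Continuous sFun := by
  unfold sFun
  refine (continuous_Ufun.mul (continuous_baseS.comp Real.continuous_sqrt)).mul
    (continuous_Ufun.star)

lemma tFun_one : tFun 1 = T0 := by
  simp [tFun, Ufun_one, baseT_eq]

lemma sFun_one : sFun 1 = S0 := by
  simp [sFun, Ufun_one, baseS_eq]

lemma sFun_zero : sFun 0 = 0 := by
  simp [sFun, baseS_eq]

lemma Sw_T_Sw : Sw * baseT 1 * Sw = E2 1 0 ⊗ₖ (1 : Matrix (Fin 3) (Fin 3) ℂ) := by
  rw [Sw_mul, mul_Sw]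
  ext ⟨a, b⟩ ⟨c, d⟩
  fin_cases a <;> fin_cases b <;> fin_cases c <;> fin_cases d <;>
    simp [baseT, swp, Equiv.swap_apply_def, Matrix.add_apply, Matrix.single_apply, Matrix.one_apply]

lemma tFun_zero : tFun 0 = E2 1 0 ⊗ₖ (1 : Matrix (Fin 3) (Fin 3) ℂ) := by
  rw [tFun, Ufun_zero, star_smul, star_Sw, Complex.star_def, Complex.conj_I, sub_zero, Real.sqrt_one,
    smul_mul_assoc, smul_mul_assoc, mul_smul_comm, smul_smul, Sw_T_Sw]
  simp

/-- `t₁` as a continuous path. -/
noncomputable def tC : C(unitInterval, M6) :=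
  ⟨fun x => tFun x, continuous_tFun.comp continuous_subtype_val⟩

/-- `s₁` as a continuous path. -/
noncomputable def sC : C(unitInterval, M6) :=
  ⟨fun x => sFun x, continuous_sFun.comp continuous_subtype_val⟩

lemma tC_apply (x : unitInterval) : tC x = tFun x := rfl

lemma sC_apply (x : unitInterval) : sC x = sFun x := rfl

lemma tC_mem : tC ∈ Z23 := by
  refine ⟨⟨E2 1 0, ?_⟩, ⟨E3 1 0, ?_⟩⟩
  · rw [tC_apply, Set.Icc.coe_zero, tFun_zero]
  · rw [tC_apply, Set.Icc.coe_one, tFun_one, T0]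

lemma sC_mem : sC ∈ Z23 := by
  refine ⟨⟨0, ?_⟩, ⟨E3 0 2, ?_⟩⟩
  · rw [sC_apply, Set.Icc.coe_zero, sFun_zero, Matrix.zero_kronecker]
  · rw [sC_apply, Set.Icc.coe_one, sFun_one, S0]

/-- The element `t₁` of `Z_{2,3}`. -/
noncomputable def t₁ : Z23 := ⟨tC, tC_mem⟩

/-- The element `s₁` of `Z_{2,3}`. -/
noncomputable def s₁ : Z23 := ⟨sC, sC_mem⟩

lemma conj_mul {u a b : M6} (hu : star u * u = 1) : (u * a * star u) * (u * b * star u) = u * (a * b) * star u := by
  calc (u * a * star u) * (u * b * star u) = u * a * (star u * u) * b * star u := by noncomm_ring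
    _ = u * (a * b) * star u := by rw [hu]; noncomm_ring

lemma conj_star {u a : M6} : star (u * a * star u) = u * star a * star u := by
  simp only [star_mul, star_star, mul_assoc]

lemma t₁_sq : t₁ * t₁ = 0 := by
  apply Subtype.ext
  ext1 x
  change tFun x * tFun x = 0
  rw [tFun, conj_mul (star_mul_Ufun _), base_sq]
  simp

lemma t₁_sum : star t₁ * t₁ + t₁ * star t₁ + star s₁ * s₁ = 1 := by
  apply Subtype.ext
  ext1 x
  change star (tFun x) * tFun x + tFun x * star (tFun x) + star (sFun x) * sFun x = 1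
  rw [tFun, sFun, conj_star, conj_star, conj_mul (star_mul_Ufun _), conj_mul (star_mul_Ufun _),
    conj_mul (star_mul_Ufun _), ← add_mul, ← mul_add, ← add_mul, ← mul_add, base_sum, mul_one,
    Ufun_mul_star]
  have h0 : 0 ≤ (x : ℝ) := x.2.1
  have h1 : 0 ≤ 1 - (x : ℝ) := sub_nonneg.mpr x.2.2
  rw [Real.mul_self_sqrt h0, Real.mul_self_sqrt h1]
  ring

lemma t₁_abs : star t₁ * t₁ * s₁ = s₁ := by
  apply Subtype.ext
  ext1 x
  change star (tFun x) * tFun x * sFun x = sFun x
  rw [tFun, sFun, conj_star, conj_mul (star_mul_Ufun _), conj_mul (star_mul_Ufun _), base_abs]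

/-- Evaluation of `Z_{2,3}` at a point. -/
noncomputable def evalZ (x : unitInterval) : Z23 →⋆ₐ[ℂ] M6 where
  toFun f := (f : C(unitInterval, M6)) x
  map_one' := rfl
  map_mul' _ _ := rfl
  map_zero' := rfl
  map_add' _ _ := rfl
  commutes' _ := rfl
  map_star' _ := rfl

lemma evalZ_apply (x : unitInterval) (f : Z23) : evalZ x f = (f : C(unitInterval, M6)) x := rfl

/-- Conjugation by a unitary of `M_2 ⊗ M_3`. -/
noncomputable def adHom (u : M6) (h1 : star u * u = 1) (h2 : u * star u = 1) : M6 →⋆ₐ[ℂ] M6 where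
  toFun m := star u * m * u
  map_one' := by simpa using h1
  map_mul' a b := by
    calc star u * (a * b) * u = star u * a * 1 * b * u := by noncomm_ring
      _ = star u * a * u * (star u * b * u) := by
        rw [← h2]
        noncomm_ring
  map_zero' := by simp
  map_add' a b := by rw [mul_add, add_mul]
  commutes' r := by
    change star u * algebraMap ℂ M6 r * u = algebraMap ℂ M6 r
    rw [Algebra.algebraMap_eq_smul_one]
    simp [h1]
  map_star' a := by simp only [star_mul, star_star, mul_assoc]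

lemma adHom_apply (u : M6) (h1 : star u * u = 1) (h2 : u * star u = 1) (m : M6) :
    adHom u h1 h2 m = star u * m * u := rfl

/-- Entries at `x = 1`. -/
noncomputable def m3Fun (f : C(unitInterval, M6)) : Matrix (Fin 3) (Fin 3) ℂ :=
  Matrix.of fun i j => f 1 (0, i) (0, j)

lemma m3Fun_of {f : C(unitInterval, M6)} {b : Matrix (Fin 3) (Fin 3) ℂ}
    (h : f 1 = (1 : Matrix (Fin 2) (Fin 2) ℂ) ⊗ₖ b) : m3Fun f = b := by
  ext i j
  simp [m3Fun, h]

lemma m3Fun_spec {f : C(unitInterval, M6)} (hf : f ∈ Z23) :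
    f 1 = (1 : Matrix (Fin 2) (Fin 2) ℂ) ⊗ₖ m3Fun f := by
  obtain ⟨b, hb⟩ := hf.2
  rw [m3Fun_of hb, hb]

/-- Entries at `x = 0`. -/
noncomputable def m2Fun (f : C(unitInterval, M6)) : Matrix (Fin 2) (Fin 2) ℂ :=
  Matrix.of fun k l => f 0 (k, 0) (l, 0)

lemma m2Fun_of {f : C(unitInterval, M6)} {a : Matrix (Fin 2) (Fin 2) ℂ}
    (h : f 0 = a ⊗ₖ (1 : Matrix (Fin 3) (Fin 3) ℂ)) : m2Fun f = a := by
  ext i j
  simp [m2Fun, h]

lemma m2Fun_spec {f : C(unitInterval, M6)} (hf : f ∈ Z23) :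
    f 0 = m2Fun f ⊗ₖ (1 : Matrix (Fin 3) (Fin 3) ℂ) := by
  obtain ⟨b, hb⟩ := hf.1
  rw [m2Fun_of hb, hb]

/-- The endpoint map to `M_3`. -/
noncomputable def toM3 : Z23 →⋆ₐ[ℂ] Matrix (Fin 3) (Fin 3) ℂ where
  toFun f := m3Fun f
  map_one' := m3Fun_of (by simp)
  map_mul' f g := by
    refine m3Fun_of ?_
    change (f : C(unitInterval, M6)) 1 * (g : C(unitInterval, M6)) 1 = _
    rw [m3Fun_spec f.2, m3Fun_spec g.2, kron_mul, one_mul]
  map_zero' := m3Fun_of (by simp)
  map_add' f g := by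
    refine m3Fun_of ?_
    change (f : C(unitInterval, M6)) 1 + (g : C(unitInterval, M6)) 1 = _
    rw [m3Fun_spec f.2, m3Fun_spec g.2, Matrix.kronecker_add]
  commutes' r := by
    refine m3Fun_of ?_
    change algebraMap ℂ M6 r = _
    rw [Algebra.algebraMap_eq_smul_one, Algebra.algebraMap_eq_smul_one, Matrix.kronecker_smul,
      Matrix.one_kronecker_one]
  map_star' f := by
    refine m3Fun_of ?_
    change star ((f : C(unitInterval, M6)) 1) = _
    rw [m3Fun_spec f.2, kron_star, star_one]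

/-- The endpoint map to `M_2`. -/
noncomputable def toM2 : Z23 →⋆ₐ[ℂ] Matrix (Fin 2) (Fin 2) ℂ where
  toFun f := m2Fun f
  map_one' := m2Fun_of (by simp)
  map_mul' f g := by
    refine m2Fun_of ?_
    change (f : C(unitInterval, M6)) 0 * (g : C(unitInterval, M6)) 0 = _
    rw [m2Fun_spec f.2, m2Fun_spec g.2, kron_mul, one_mul]
  map_zero' := m2Fun_of (by simp)
  map_add' f g := by
    refine m2Fun_of ?_
    change (f : C(unitInterval, M6)) 0 + (g : C(unitInterval, M6)) 0 = _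
    rw [m2Fun_spec f.2, m2Fun_spec g.2, Matrix.add_kronecker]
  commutes' r := by
    refine m2Fun_of ?_
    change algebraMap ℂ M6 r = _
    rw [Algebra.algebraMap_eq_smul_one, Algebra.algebraMap_eq_smul_one, Matrix.smul_kronecker,
      Matrix.one_kronecker_one]
  map_star' f := by
    refine m2Fun_of ?_
    change star ((f : C(unitInterval, M6)) 0) = _
    rw [m2Fun_spec f.2, kron_star, star_one]

lemma toM3_t₁ : toM3 t₁ = E3 1 0 := by
  refine m3Fun_of ?_
  change tFun _ = _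
  rw [Set.Icc.coe_one, tFun_one, T0]

lemma toM3_s₁ : toM3 s₁ = E3 0 2 := by
  refine m3Fun_of ?_
  change sFun _ = _
  rw [Set.Icc.coe_one, sFun_one, S0]

lemma toM2_t₁ : toM2 t₁ = E2 1 0 := by
  refine m2Fun_of ?_
  change tFun _ = _
  rw [Set.Icc.coe_zero, tFun_zero]

lemma toM2_s₁ : toM2 s₁ = 0 := by
  refine m2Fun_of ?_
  change sFun _ = _
  rw [Set.Icc.coe_zero, sFun_zero, Matrix.zero_kronecker]

/-- Every fibre of a pair of generators receives a homomorphism of `Z_{2,3}`. -/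
theorem exists_fibre_hom {Q : Type*} [CStarAlgebra Q] [Nontrivial Q] {t s : Q} (h : IsGen t s)
    {x : ℝ} (hz : zEl t s = x • (1 : Q)) :
    ∃ Ψ : Z23 →⋆ₐ[ℂ] Q, Ψ t₁ = t ∧ Ψ s₁ = s := by
  rcases fibre_range h hz with rfl | rfl | ⟨hx0, hx1⟩
  · obtain ⟨hs, θ, hθ⟩ := fibre_m2 h hz
    refine ⟨θ.comp toM2, ?_, ?_⟩
    · rw [StarAlgHom.comp_apply, toM2_t₁, hθ]
    · rw [StarAlgHom.comp_apply, toM2_s₁, map_zero, hs]
  · obtain ⟨θ, h1, h2⟩ := fibre_m3 h hz
    refine ⟨θ.comp toM3, ?_, ?_⟩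
    · rw [StarAlgHom.comp_apply, toM3_t₁, h1]
    · rw [StarAlgHom.comp_apply, toM3_s₁, h2]
  · obtain ⟨Θ, h1, h2⟩ := fibre_m6 h hz hx0 hx1
    let y : unitInterval := ⟨x, hx0.le, hx1.le⟩
    refine ⟨Θ.comp ((adHom (Ufun x) (star_mul_Ufun x) (Ufun_mul_star x)).comp (evalZ y)), ?_, ?_⟩
    · rw [StarAlgHom.comp_apply, StarAlgHom.comp_apply, adHom_apply, evalZ_apply]
      have e : (t₁ : C(unitInterval, M6)) y = Ufun x * baseT (√(1 - x)) * star (Ufun x) := rfl
      rw [e]
      have : star (Ufun x) * (Ufun x * baseT (√(1 - x)) * star (Ufun x)) * Ufun x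
          = (star (Ufun x) * Ufun x) * baseT (√(1 - x)) * (star (Ufun x) * Ufun x) := by
        noncomm_ring
      rw [this, star_mul_Ufun, one_mul, mul_one, h1]
    · rw [StarAlgHom.comp_apply, StarAlgHom.comp_apply, adHom_apply, evalZ_apply]
      have e : (s₁ : C(unitInterval, M6)) y = Ufun x * baseS (√x) * star (Ufun x) := rfl
      rw [e]
      have : star (Ufun x) * (Ufun x * baseS (√x) * star (Ufun x)) * Ufun x
          = (star (Ufun x) * Ufun x) * baseS (√x) * (star (Ufun x) * Ufun x) := by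
        noncomm_ring
      rw [this, star_mul_Ufun, one_mul, mul_one, h2]

end Vale.Agent.Lib.P101
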